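import Mathlib

/-! The contraction inequality for alternating arrays. -/

namespace Vale.Agent.P248

open Complex Function Finset
open scoped ComplexConjugate

variable {κ ι : Type*} [Fintype κ] [DecidableEq κ] [Fintype ι]

/-- exchanging the entry at position `t` with an extra entry. -/
def exch (t : κ) : (κ → ι) × ι ≃ (κ → ι) × ι :=
  Involutive.toPerm (fun q => (update q.1 t q.2, q.1 t)) fun q => by simp

theorem sum_exch {M : Type*} [AddCommMonoid M] (t : κ) (f : (κ → ι) → ι → M) :
    ∑ I, ∑ l, f I l = ∑ I : κ → ι, ∑ l, f (update I t l) (I t) := by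
  rw [← Fintype.sum_prod_type', ← Fintype.sum_prod_type' (f := fun I l => f (update I t l) (I t))]
  exact ((exch t).sum_comp fun q => f q.1 q.2).symm

theorem sum_sum_update {M : Type*} [AddCommMonoid M] (t : κ) (f : (κ → ι) → M) :
    ∑ I : κ → ι, ∑ l, f (update I t l) = Fintype.card ι • ∑ I, f I := by
  rw [← sum_exch t fun I _ => f I, Finset.smul_sum]
  simp

theorem alt_ineq (ω : (κ → ι) → ℂ) (hω : ∀ I s t, s ≠ t → ω (I ∘ Equiv.swap s t) = -ω I)
    (c : ι → ℂ) :
    ∑ t, ∑ I : κ → ι, normSq (∑ l, c l * ω (update I t l)) ≤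
      Fintype.card ι * (∑ l, normSq (c l)) * ∑ I, normSq (ω I) := by
  set u : κ → (κ → ι) → ℂ := fun t I => ∑ l, c l * ω (update I t l) with hu
  have hup : ∀ t I l, u t (update I t l) = u t I := by
    intro t I l; simp [hu]
  set N : ℝ := ∑ l, normSq (c l) with hN
  set q : ℝ := (Fintype.card ι : ℝ) with hq
  set W : ℝ := ∑ I, normSq (ω I) with hW
  set U : κ → ℝ := fun t => ∑ I, normSq (u t I) with hU
  let η : κ → (κ → ι) → ℂ := fun t I => conj (c (I t)) * u t I
  have h1 : ∀ t, (q : ℂ) * ∑ I, ω I * conj (η t I) = U t := by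
    intro t
    have := sum_sum_update t fun I => ω I * conj (η t I)
    rw [nsmul_eq_mul] at this
    rw [hq, ofReal_natCast, ← this, hU]
    push_cast
    refine Finset.sum_congr rfl fun I _ => ?_
    rw [← mul_conj, Finset.sum_mul]
    refine Finset.sum_congr rfl fun l _ => ?_
    simp only [η, update_self, hup, map_mul, conj_conj]
    ring
  have h2 : ∀ t, (q : ℂ) * ∑ I, η t I * conj (η t I) = N * U t := by
    intro t
    have := sum_sum_update t fun I => η t I * conj (η t I)
    rw [nsmul_eq_mul] at this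
    rw [hq, ofReal_natCast, ← this, hU, hN]
    push_cast
    rw [Finset.mul_sum]
    refine Finset.sum_congr rfl fun I _ => ?_
    rw [Finset.sum_mul]
    refine Finset.sum_congr rfl fun l _ => ?_
    simp only [η, update_self, hup, map_mul, conj_conj, ← mul_conj]
    ring
  have h3 : ∀ s t, s ≠ t → ∑ I, η s I * conj (η t I) = 0 := by
    intro s t hst
    let f : (κ → ι) → ι → ℂ := fun I l =>
      conj (c (I s)) * (c l * ω (update I s l)) * (c (I t) * conj (u t I))
    have e1 : ∑ I, η s I * conj (η t I) = ∑ I, ∑ l, f I l := by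
      refine Finset.sum_congr rfl fun I _ => ?_
      simp only [η, f, map_mul, conj_conj]
      rw [← Finset.sum_mul, ← Finset.mul_sum]
    have e2 : ∑ I, ∑ l, f I l = -∑ I, ∑ l, f I l := by
      conv_lhs => rw [sum_exch t f]
      rw [← Finset.sum_neg_distrib]
      refine Finset.sum_congr rfl fun I _ => ?_
      rw [← Finset.sum_neg_distrib]
      refine Finset.sum_congr rfl fun l _ => ?_
      have e3 : update (update I t l) s (I t) = update I s l ∘ Equiv.swap s t := by
        funext i
        by_cases hi : i = s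
        · subst hi; simp [update_of_ne (Ne.symm hst)]
        · by_cases hj : i = t
          · subst hj; simp [update_of_ne hi]
          · simp [update_of_ne hi, update_of_ne hj, Equiv.swap_apply_of_ne_of_ne hi hj]
      simp only [f, update_self, hup, update_of_ne hst, e3, hω _ s t hst]
      ring
    rw [e1]
    linear_combination (1 / 2 : ℂ) * e2
  have h4 : (q : ℂ) * ∑ I, (N * ω I - ∑ t, η t I) * conj (N * ω I - ∑ t, η t I) =
      ((q * N ^ 2 * W - N * ∑ t, U t : ℝ) : ℂ) := by
    have e1 : ∀ I, (N * ω I - ∑ t, η t I) * conj (N * ω I - ∑ t, η t I) =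
        N ^ 2 * normSq (ω I) - N * ∑ t, ω I * conj (η t I) -
          N * conj (∑ t, ω I * conj (η t I)) + ∑ s, ∑ t, η s I * conj (η t I) := by
      intro I
      rw [← Finset.sum_mul_sum, ← Finset.mul_sum, ← map_sum, ← mul_conj]
      simp only [map_sub, map_mul, conj_ofReal, conj_conj]
      ring
    have e2 : ∑ I, ∑ s, ∑ t, η s I * conj (η t I) = ∑ t, ∑ I, η t I * conj (η t I) := by
      rw [Finset.sum_comm]
      refine Finset.sum_congr rfl fun s _ => ?_
      rw [Finset.sum_comm, Finset.sum_eq_single s (fun t _ h => h3 s t h.symm) (by simp)]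
    have e3 : (q : ℂ) * ∑ I, ∑ t, ω I * conj (η t I) = ((∑ t, U t : ℝ) : ℂ) := by
      rw [Finset.sum_comm, Finset.mul_sum, ofReal_sum]
      exact Finset.sum_congr rfl fun t _ => h1 t
    have e4 : (q : ℂ) * conj (∑ I, ∑ t, ω I * conj (η t I)) = ((∑ t, U t : ℝ) : ℂ) := by
      have := congrArg conj e3
      rwa [map_mul, conj_ofReal, conj_ofReal] at this
    have e5 : (q : ℂ) * ∑ t, ∑ I, η t I * conj (η t I) = N * ((∑ t, U t : ℝ) : ℂ) := by
      rw [Finset.mul_sum, ofReal_sum _ U, Finset.mul_sum]
      exact Finset.sum_congr rfl fun t _ => h2 t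
    rw [Finset.sum_congr rfl fun I _ => e1 I, Finset.sum_add_distrib, Finset.sum_sub_distrib,
      Finset.sum_sub_distrib, ← Finset.mul_sum, ← Finset.mul_sum, ← Finset.mul_sum, e2,
      ← map_sum, ← ofReal_sum, ← hW]
    push_cast at e3 e4 e5 ⊢
    linear_combination -N * e3 - N * e4 + e5
  have h5 : 0 ≤ q * N ^ 2 * W - N * ∑ t, U t := by
    simp only [mul_conj, ← ofReal_sum, ← ofReal_mul, ofReal_inj] at h4
    rw [← h4]
    exact mul_nonneg (Nat.cast_nonneg _) (Finset.sum_nonneg fun _ _ => normSq_nonneg _)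
  have hN0 : 0 ≤ N := Finset.sum_nonneg fun _ _ => normSq_nonneg _
  rcases hN0.eq_or_lt with h | h
  · have hc : ∀ l, c l = 0 := fun l => normSq_eq_zero.mp
      ((Finset.sum_eq_zero_iff_of_nonneg fun _ _ => normSq_nonneg _).mp h.symm l (mem_univ l))
    simp [hU, hu, hc, ← h]
  · change ∑ t, U t ≤ _
    by_contra h6
    push Not at h6
    nlinarith

end Vale.Agent.P248
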