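import Vale.Agent.P248.Lens

/-! Boundary behaviour of the lens map. -/

namespace Vale.Agent.P248

open Complex Metric Set Filter Topology
open scoped Real ComplexConjugate

/-- the half height of the lens above the point `t`. -/
noncomputable def lensG (t : ℝ) : ℝ := (lensF (exp ((π * (1 - t) / 2 : ℝ) * I))).im

/-- the closed lens. -/
def lensL : Set ℂ := {w | |w.re| ≤ 1 ∧ |w.im| ≤ lensG w.re}

theorem Li_conj (z : ℂ) : Li (conj z) = conj (Li z) := by
  simp [Li, conj_tsum]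

theorem lensF_conj (z : ℂ) : lensF (conj z) = conj (lensF z) := by
  rw [lensF, lensF, ← map_neg, Li_conj, Li_conj, map_mul, map_sub, conj_ofReal]

theorem continuous_lensF_exp : Continuous fun θ : ℝ => lensF (exp (θ * I)) :=
  continuousOn_lensF.comp_continuous (by fun_prop) fun θ => by simp

theorem continuous_lensG : Continuous lensG :=
  continuous_im.comp (continuous_lensF_exp.comp (by fun_prop : Continuous fun t : ℝ =>
    π * (1 - t) / 2))

theorem re_Li_exp {θ : ℝ} (h0 : 0 ≤ θ) (h1 : θ ≤ 2 * π) :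
    (Li (exp (θ * I))).re = θ ^ 2 / 4 - π * θ / 2 + π ^ 2 / 6 := by
  have hπ := Real.pi_pos
  have hx : θ / (2 * π) ∈ Icc (0 : ℝ) 1 := ⟨by positivity, (div_le_one (by positivity)).mpr h1⟩
  have h := hasSum_one_div_nat_pow_mul_cos one_ne_zero hx
  have h2 := (hasSum_re (hasSum_Li (z := exp (θ * I)) (by simp)))
  have e1 : (fun n : ℕ => (exp (θ * I) ^ n / (n : ℂ) ^ 2).re) =
      fun n : ℕ => 1 / (n : ℝ) ^ (2 * 1) * Real.cos (2 * π * n * (θ / (2 * π))) := by
    funext n
    have : ((n : ℂ)) ^ 2 = ((n ^ 2 : ℝ) : ℂ) := by push_cast; ring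
    rw [this, div_ofReal_re, ← exp_nat_mul, ← mul_assoc, ← ofReal_natCast, ← ofReal_mul,
      exp_ofReal_mul_I_re]
    have : 2 * π * n * (θ / (2 * π)) = n * θ := by field_simp
    rw [this]
    ring
  rw [e1] at h2
  rw [h2.unique h]
  have hb := bernoulliFun_two (θ / (2 * π))
  unfold bernoulliFun at hb
  rw [mul_one, hb]
  simp only [Nat.factorial]
  field_simp
  push_cast
  ring

theorem re_lensF_exp {θ : ℝ} (h0 : 0 ≤ θ) (h1 : θ ≤ π) :
    (lensF (exp (θ * I))).re = 1 - 2 * θ / π := by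
  have hπ := Real.pi_pos
  have e : -exp (θ * I) = exp ((θ + π : ℝ) * I) := by
    rw [ofReal_add, add_mul, exp_add, exp_pi_mul_I]; ring
  rw [lensF, re_ofReal_mul, sub_re, e, re_Li_exp h0 (by linarith),
    re_Li_exp (by linarith) (by linarith)]
  field_simp
  ring

theorem lensF_upper {t : ℝ} (ht : |t| ≤ 1) :
    lensF (exp ((π * (1 - t) / 2 : ℝ) * I)) = t + lensG t * I := by
  have hπ := Real.pi_pos
  obtain ⟨h1, h2⟩ := abs_le.mp ht
  apply Complex.ext
  · rw [re_lensF_exp (by nlinarith) (by nlinarith)]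
    simp
    field_simp
    ring
  · simp [lensG]

theorem lensF_lower {t : ℝ} (ht : |t| ≤ 1) :
    lensF (exp ((-(π * (1 - t) / 2) : ℝ) * I)) = t - lensG t * I := by
  have : exp ((-(π * (1 - t) / 2) : ℝ) * I) = conj (exp ((π * (1 - t) / 2 : ℝ) * I)) := by
    rw [← exp_conj, map_mul, conj_ofReal, conj_I]
    push_cast
    ring_nf
  rw [this, lensF_conj, lensF_upper ht]
  simp [sub_eq_add_neg]

theorem lensG_neg (t : ℝ) : lensG (-t) = lensG t := by
  have : exp ((π * (1 - -t) / 2 : ℝ) * I) = -conj (exp ((π * (1 - t) / 2 : ℝ) * I)) := by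
    rw [← exp_conj, map_mul, conj_ofReal, conj_I, ← neg_one_mul (exp _), ← exp_pi_mul_I,
      ← exp_add]
    congr 1
    push_cast
    ring
  rw [lensG, this, lensF_neg, lensF_conj]
  simp [lensG]

theorem lensG_one : lensG 1 = 0 := by
  have h := lensF_conj 1
  rw [map_one] at h
  have := congrArg im h
  simp only [conj_im] at this
  simp only [lensG, sub_self, mul_zero, zero_div, ofReal_zero, zero_mul, exp_zero]
  linarith

theorem lensG_of_abs_eq_one {t : ℝ} (ht : |t| = 1) : lensG t = 0 := by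
  rcases abs_eq (zero_le_one) |>.mp ht with rfl | rfl
  · exact lensG_one
  · rw [lensG_neg]; exact lensG_one

theorem exists_boundary {z : ℂ} (hz : ‖z‖ = 1) :
    ∃ t : ℝ, |t| ≤ 1 ∧ (lensF z = t + lensG t * I ∨ lensF z = t - lensG t * I) := by
  have hπ := Real.pi_pos
  have he : z = exp (arg z * I) := by
    conv_lhs => rw [← norm_mul_exp_arg_mul_I z, hz]
    simp
  have h1 := abs_arg_le_pi z
  have ht : |1 - 2 * |arg z| / π| ≤ 1 := by
    have : 2 * |arg z| / π ≤ 2 := by rw [div_le_iff₀ hπ]; linarith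
    have : 0 ≤ 2 * |arg z| / π := by positivity
    rw [abs_le]; constructor <;> linarith
  have e : π * (1 - (1 - 2 * |arg z| / π)) / 2 = |arg z| := by field_simp; ring
  refine ⟨_, ht, ?_⟩
  rcases le_total 0 (arg z) with h | h
  · left
    rw [← lensF_upper ht, e, abs_of_nonneg h, ← he]
  · right
    rw [← lensF_lower ht, e, abs_of_nonpos h, neg_neg, ← he]

theorem concaveOn_im_lensF {r : ℝ} (h0 : 0 ≤ r) (h1 : r < 1) :
    ConcaveOn ℝ (Icc 0 π) fun θ : ℝ => (lensF (r * exp (θ * I))).im := by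
  have hmem : ∀ θ : ℝ, (r : ℂ) * exp (θ * I) ∈ ball (0 : ℂ) 1 := fun θ => by
    simpa [abs_of_nonneg h0] using h1
  have hd : ∀ θ : ℝ, HasDerivAt (fun θ : ℝ => (lensF (r * exp (θ * I))).im)
      (4 / π ^ 2 * (Real.log ‖1 + r * exp (θ * I)‖ - Real.log ‖1 - r * exp (θ * I)‖)) θ := by
    intro θ
    have e0 : HasDerivAt (fun w : ℂ => (r : ℂ) * exp (w * I)) (r * exp (θ * I) * I) θ := by
      have := (((hasDerivAt_id (θ : ℂ)).mul_const I).cexp).const_mul (r : ℂ)
      simpa [mul_assoc] using this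
    have e1 := ((hasDerivAt_lensF (hmem θ)).differentiableAt.hasDerivAt.comp (θ : ℂ) e0).mul_const
      (-I)
    have e2 := e1.real_of_complex
    have e3 : (fun x : ℝ => (((lensF ∘ fun w : ℂ => (r : ℂ) * exp (w * I)) x) * -I).re) =
        fun θ : ℝ => (lensF (r * exp (θ * I))).im := by
      funext x; simp
    rw [e3] at e2
    refine e2.congr_deriv ?_
    have e4 : deriv lensF (r * exp (θ * I)) * (r * exp (θ * I) * I) * -I =
        (r * exp (θ * I)) * deriv lensF (r * exp (θ * I)) := by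
      linear_combination (-(deriv lensF (r * exp (θ * I)) * (r * exp (θ * I)))) * I_mul_I
    rw [e4, mul_deriv_lensF (hmem θ), re_ofReal_mul, sub_re, log_re, log_re]
  have hn : ∀ (ε : ℝ) (θ : ℝ), ‖1 + (ε : ℂ) * exp (θ * I)‖ ^ 2 = 1 + ε ^ 2 + 2 * ε * Real.cos θ := by
    intro ε θ
    rw [Complex.sq_norm, normSq_apply]
    simp only [add_re, one_re, re_ofReal_mul, exp_ofReal_mul_I_re, add_im, one_im, im_ofReal_mul,
      exp_ofReal_mul_I_im, zero_add]
    nlinarith [Real.sin_sq_add_cos_sq θ]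
  have hpos : ∀ w : ℂ, ‖w‖ < 1 → 0 < ‖1 + w‖ := fun w hw =>
    norm_pos_iff.mpr (slitPlane_ne_zero (one_add_mem_slitPlane hw))
  refine AntitoneOn.concaveOn_of_deriv (convex_Icc 0 π)
    (fun θ _ => (hd θ).continuousAt.continuousWithinAt)
    (fun θ _ => (hd θ).differentiableAt.differentiableWithinAt) fun a ha b hb hab => ?_
  have ha' := interior_subset ha
  have hb' := interior_subset hb
  have hc : Real.cos b ≤ Real.cos a := Real.cos_le_cos_of_nonneg_of_le_pi ha'.1 hb'.2 hab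
  rw [(hd a).deriv, (hd b).deriv]
  refine mul_le_mul_of_nonneg_left (sub_le_sub ?_ ?_) (by positivity)
  · refine Real.log_le_log (hpos _ (mem_ball_zero_iff.mp (hmem b))) ?_
    refine (sq_le_sq₀ (norm_nonneg _) (norm_nonneg _)).mp ?_
    rw [hn, hn]; nlinarith
  · have e : ∀ θ : ℝ, 1 - (r : ℂ) * exp (θ * I) = 1 + ((-r : ℝ) : ℂ) * exp (θ * I) := fun θ => by
      push_cast; ring
    rw [e, e]
    refine Real.log_le_log (hpos _ (by simpa [abs_of_nonneg h0] using h1)) ?_
    refine (sq_le_sq₀ (norm_nonneg _) (norm_nonneg _)).mp ?_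
    rw [hn, hn]; nlinarith

theorem concaveOn_lensG : ConcaveOn ℝ (Icc (-1) 1) lensG := by
  have hπ := Real.pi_pos
  refine ⟨convex_Icc _ _, fun s hs t ht a b ha hb hab => ?_⟩
  have hlim : ∀ θ : ℝ, Tendsto (fun r : ℝ => (lensF (r * exp (θ * I))).im) (𝓝[Ico 0 1] 1)
      (𝓝 (lensF (exp (θ * I))).im) := by
    intro θ
    refine (continuous_im.tendsto _).comp ?_
    refine (continuousOn_lensF _ (by simp)).tendsto.comp ?_
    refine tendsto_nhdsWithin_iff.mpr ⟨?_, ?_⟩
    · refine tendsto_nhdsWithin_of_tendsto_nhds ?_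
      have : Continuous fun r : ℝ => (r : ℂ) * exp (θ * I) := by fun_prop
      simpa using this.tendsto 1
    · filter_upwards [self_mem_nhdsWithin] with r hr
      simpa [abs_of_nonneg hr.1] using hr.2.le
  have : (𝓝[Ico (0 : ℝ) 1] 1).NeBot := right_nhdsWithin_Ico_neBot one_pos
  have hI : ∀ u ∈ Icc (-1 : ℝ) 1, π * (1 - u) / 2 ∈ Icc 0 π := fun u hu =>
    ⟨by nlinarith [hu.2], by nlinarith [hu.1]⟩
  refine le_of_tendsto_of_tendsto (((hlim _).const_smul a).add ((hlim _).const_smul b))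
    (hlim (π * (1 - (a • s + b • t)) / 2)) ?_
  filter_upwards [self_mem_nhdsWithin] with r hr
  have := (concaveOn_im_lensF hr.1 hr.2).2 (hI s hs) (hI t ht) ha hb hab
  have e : a • (π * (1 - s) / 2) + b • (π * (1 - t) / 2) = π * (1 - (a • s + b • t)) / 2 := by
    simp only [smul_eq_mul]
    linear_combination (π / 2) * hab
  rwa [e] at this

theorem lensG_nonneg {t : ℝ} (ht : |t| ≤ 1) : 0 ≤ lensG t := by
  have := concaveOn_lensG.min_le_of_mem_Icc (left_mem_Icc.mpr (by norm_num))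
    (right_mem_Icc.mpr (by norm_num)) (abs_le.mp ht)
  rwa [lensG_neg, lensG_one, min_self] at this

theorem le_lensG_of_mem {w : ℂ} (hw : w ∈ lensF '' closedBall 0 1) :
    |w.re| ≤ 1 ∧ w.im ≤ lensG w.re := by
  have hK : IsCompact (lensF '' closedBall 0 1 ∩ {u | u.re = w.re}) :=
    ((isCompact_closedBall 0 1).image_of_continuousOn continuousOn_lensF).inter_right
      (isClosed_eq continuous_re continuous_const)
  obtain ⟨u, ⟨⟨z, hz, rfl⟩, hu⟩, hmax⟩ := hK.exists_isMaxOn ⟨w, hw, rfl⟩ continuous_im.continuousOn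
  have hu' : (lensF z).re = w.re := hu
  have hz1 : ‖z‖ = 1 := by
    by_contra hne
    have hz' : z ∈ ball (0 : ℂ) 1 :=
      mem_ball_zero_iff.mpr (lt_of_le_of_ne (mem_closedBall_zero_iff.mp hz) hne)
    obtain ⟨ε, hε, hb⟩ := Metric.isOpen_iff.mp isOpen_lensO _ ⟨z, hz', rfl⟩
    have h1 : lensF z + (ε / 2 : ℝ) * I ∈ lensO := hb (by
      rw [mem_ball, dist_eq_norm, add_sub_cancel_left, norm_mul, norm_I, norm_real,
        Real.norm_of_nonneg (by positivity)]
      linarith)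
    have h2 := hmax (⟨image_mono ball_subset_closedBall h1, by simpa using hu'⟩ :
      lensF z + (ε / 2 : ℝ) * I ∈ lensF '' closedBall 0 1 ∩ {u | u.re = w.re})
    simp at h2
    linarith
  obtain ⟨t, ht, h⟩ := exists_boundary hz1
  have hle : w.im ≤ (lensF z).im := hmax ⟨hw, rfl⟩
  have hg := lensG_nonneg ht
  rcases h with h | h <;> rw [h] at hu' hle <;> simp at hu' hle <;> rw [← hu'] <;>
    exact ⟨ht, by linarith⟩

theorem mem_lensL {w : ℂ} (hw : w ∈ lensF '' closedBall 0 1) : w ∈ lensL := by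
  have h1 := le_lensG_of_mem hw
  have h2 : conj w ∈ lensF '' closedBall 0 1 := by
    obtain ⟨z, hz, rfl⟩ := hw
    exact ⟨conj z, by simpa using hz, lensF_conj z⟩
  have h3 := le_lensG_of_mem h2
  simp only [conj_re, conj_im] at h3
  exact ⟨h1.1, abs_le.mpr ⟨by linarith [h3.2], h1.2⟩⟩

theorem lensO_subset_lensL : lensO ⊆ lensL := fun _ hw =>
  mem_lensL (image_mono ball_subset_closedBall hw)

theorem isClosed_lensL : IsClosed lensL :=
  (isClosed_le (f := fun w : ℂ => |w.re|) (by fun_prop) continuous_const).inter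
    (isClosed_le (f := fun w : ℂ => |w.im|) (by fun_prop) (continuous_lensG.comp continuous_re))

theorem lensG_concave {x y a b : ℝ} (hx : |x| ≤ 1) (hy : |y| ≤ 1) (ha : 0 ≤ a) (hb : 0 ≤ b)
    (hab : a + b = 1) : a * lensG x + b * lensG y ≤ lensG (a * x + b * y) :=
  concaveOn_lensG.2 (abs_le.mp hx) (abs_le.mp hy) ha hb hab

theorem lensG_zero_pos : 0 < lensG 0 := by
  obtain ⟨ε, hε, hb⟩ := Metric.isOpen_iff.mp isOpen_lensO _ zero_mem_lensO
  have h1 : ((ε / 2 : ℝ) : ℂ) * I ∈ lensO := hb (by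
    rw [mem_ball_zero_iff, norm_mul, norm_I, norm_real, Real.norm_of_nonneg (by positivity)]
    linarith)
  have h2 := (lensO_subset_lensL h1).2
  simp only [mul_im, ofReal_re, I_im, mul_one, ofReal_im, I_re, mul_zero, add_zero, mul_re,
    sub_self] at h2
  exact lt_of_lt_of_le (by positivity) h2

theorem le_lensG {t : ℝ} (ht : |t| ≤ 1) : (1 - |t|) * lensG 0 ≤ lensG t := by
  have key : ∀ u : ℝ, 0 ≤ u → u ≤ 1 → (1 - u) * lensG 0 ≤ lensG u := by
    intro u h0 h1
    have := lensG_concave (x := 0) (y := 1) (a := 1 - u) (b := u) (by norm_num)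
      (by norm_num) (by linarith) h0 (by ring)
    simpa [lensG_one] using this
  rcases le_total 0 t with h | h
  · rw [abs_of_nonneg h] at ht ⊢; exact key t h ht
  · rw [abs_of_nonpos h] at ht ⊢
    rw [← lensG_neg t]; exact key _ (by linarith) ht

theorem lensG_pos {t : ℝ} (ht : |t| < 1) : 0 < lensG t :=
  lt_of_lt_of_le (mul_pos (by linarith) lensG_zero_pos) (le_lensG ht.le)

theorem lensG_le {t : ℝ} (ht : |t| ≤ 1) : lensG t ≤ lensG 0 := by
  have := lensG_concave (x := t) (y := -t) (a := 1 / 2) (b := 1 / 2) ht (by rwa [abs_neg])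
    (by norm_num) (by norm_num) (by norm_num)
  simp only [lensG_neg] at this
  have e : 1 / 2 * t + 1 / 2 * -t = 0 := by ring
  rw [e] at this
  linarith

/-- a ray from the origin meets the upper boundary of the lens at most once. -/
theorem ray_subsingleton (t c : ℝ) :
    {r : ℝ | 0 < r ∧ |r * t| ≤ 1 ∧ lensG (r * t) = r * c}.Subsingleton := by
  have key : ∀ r s : ℝ, 0 < r → r < s → |s * t| ≤ 1 → lensG (r * t) = r * c →
      lensG (s * t) = s * c → False := by
    intro r s hr hrs hs h1 h2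
    have hs0 : 0 < s := hr.trans hrs
    have := lensG_concave (x := 0) (y := s * t) (a := 1 - r / s) (b := r / s) (by norm_num) hs
      (by rw [sub_nonneg, div_le_one hs0]; exact hrs.le) (by positivity) (by ring)
    simp only [mul_zero, zero_add] at this
    have e : r / s * (s * t) = r * t := by field_simp
    have e' : r / s * (s * c) = r * c := by field_simp
    rw [e, h1, h2, e'] at this
    have h3 : 0 < 1 - r / s := by rw [sub_pos, div_lt_one hs0]; exact hrs
    nlinarith [mul_pos h3 lensG_zero_pos]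
  rintro r ⟨hr, hr1, hr2⟩ s ⟨hs, hs1, hs2⟩
  rcases lt_trichotomy r s with h | h | h
  · exact (key r s hr h hs1 hr2 hs2).elim
  · exact h
  · exact (key s r hs h hr1 hs2 hr2).elim

theorem abs_im_Li_le (θ δ : ℝ) (hδ : 0 < δ) :
    |(Li (exp (θ * I))).im - (Li (-exp (θ * I))).im| ≤
      2 * (∑' n : ℕ, (n : ℝ) ^ (-(4 / 3) : ℝ)) * (|θ| / δ + δ ^ 2) := by
  have h1 := hasSum_im (hasSum_Li (z := exp (θ * I)) (by simp))
  have h2 := hasSum_im (hasSum_Li (z := -exp (θ * I)) (by simp))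
  have hs : Summable fun n : ℕ => (n : ℝ) ^ (-(4 / 3) : ℝ) :=
    Real.summable_nat_rpow.mpr (by norm_num)
  have h3 := (hs.hasSum.mul_left 2).mul_right (|θ| / δ + δ ^ 2)
  refine (Real.norm_eq_abs _).symm.trans_le ((h1.sub h2).norm_le_of_bounded h3 fun n => ?_)
  have hb : ∀ ε : ℝ, |ε| = 1 → |(((ε : ℂ) * exp (θ * I)) ^ n / (n : ℂ) ^ 2).im| ≤
      (n : ℝ) ^ (-(4 / 3) : ℝ) * (|θ| / δ + δ ^ 2) := by
    intro ε hε
    have : ((n : ℂ)) ^ 2 = ((n ^ 2 : ℝ) : ℂ) := by push_cast; ring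
    rw [this, div_ofReal_im, mul_pow, ← ofReal_pow, im_ofReal_mul, ← exp_nat_mul, ← mul_assoc,
      ← ofReal_natCast, ← ofReal_mul, exp_ofReal_mul_I_im, abs_div, abs_mul, abs_pow, hε, one_pow,
      one_mul]
    rcases n.eq_zero_or_pos with rfl | hn
    · simp
    have hn' : (0 : ℝ) < n := by exact_mod_cast hn
    set m : ℝ := (n : ℝ) ^ ((1 : ℝ) / 3) with hm
    have hm0 : 0 < m := Real.rpow_pos_of_pos hn' _
    have hm3 : (n : ℝ) = m ^ 3 := by
      rw [hm, ← Real.rpow_natCast, ← Real.rpow_mul hn'.le]; norm_num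
    have hm4 : (n : ℝ) ^ (-(4 / 3) : ℝ) = (m ^ 4)⁻¹ := by
      rw [hm, ← Real.rpow_natCast, ← Real.rpow_mul hn'.le, ← Real.rpow_neg hn'.le]; norm_num
    have hs1 : |Real.sin (n * θ)| ≤ 1 := Real.abs_sin_le_one _
    have hs2 : |Real.sin (n * θ)| ≤ m ^ 3 * |θ| := by
      refine Real.abs_sin_le_abs.trans ?_
      rw [abs_mul, abs_of_pos hn', hm3]
    have hs3 : |Real.sin (n * θ)| ≤ m ^ 2 * (|θ| / δ + δ ^ 2) := by
      have hθ := abs_nonneg θ
      rcases le_total (m * δ) 1 with h | h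
      · have : m ^ 3 * |θ| ≤ m ^ 2 * (|θ| / δ) := by
          rw [mul_div_assoc', le_div_iff₀ hδ]
          nlinarith [mul_nonneg (sq_nonneg m) hθ]
        nlinarith [mul_nonneg (sq_nonneg m) (sq_nonneg δ)]
      · have : 0 ≤ m ^ 2 * (|θ| / δ) := by positivity
        nlinarith
    rw [hm4, abs_of_pos (by positivity : (0 : ℝ) < n ^ 2), div_le_iff₀ (by positivity)]
    refine hs3.trans (le_of_eq ?_)
    rw [hm3]
    field_simp
  have e1 := hb 1 abs_one
  have e2 := hb (-1) (by simp)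
  simp only [ofReal_one, one_mul, ofReal_neg, neg_mul] at e1 e2
  rw [Real.norm_eq_abs]
  refine (abs_sub _ _).trans ?_
  linarith

theorem lensG_holder : ∃ C : ℝ, 0 < C ∧ ∀ δ : ℝ, 0 < δ → ∀ t : ℝ, t ≤ 1 →
    lensG t ≤ C * ((1 - t) / δ + δ ^ 2) := by
  have hπ := Real.pi_gt_three
  have hπ' := Real.pi_lt_four
  set Z := ∑' n : ℕ, (n : ℝ) ^ (-(4 / 3) : ℝ)
  have hZ : 0 ≤ Z := tsum_nonneg fun n => by positivity
  refine ⟨4 * Z + 1, by positivity, fun δ hδ t ht => ?_⟩
  have h := abs_im_Li_le (π * (1 - t) / 2) δ hδ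
  have h0 : 0 ≤ 1 - t := by linarith
  rw [abs_of_nonneg (by positivity : 0 ≤ π * (1 - t) / 2)] at h
  rw [lensG, lensF, im_ofReal_mul, sub_im]
  have h1 : π * (1 - t) / 2 / δ + δ ^ 2 ≤ 2 * ((1 - t) / δ + δ ^ 2) := by
    have : π * (1 - t) / 2 / δ ≤ 2 * ((1 - t) / δ) := by
      rw [← mul_div_assoc]
      exact div_le_div_of_nonneg_right (by nlinarith) hδ.le
    nlinarith [sq_nonneg δ]
  have h2 : 4 / π ^ 2 ≤ 1 := by rw [div_le_one (by positivity)]; nlinarith
  have h3 : 0 ≤ (1 - t) / δ + δ ^ 2 := by positivity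
  calc _ ≤ 4 / π ^ 2 * |(Li (exp ((π * (1 - t) / 2 : ℝ) * I))).im -
          (Li (-exp ((π * (1 - t) / 2 : ℝ) * I))).im| :=
        mul_le_mul_of_nonneg_left (le_abs_self _) (by positivity)
    _ ≤ 1 * (2 * Z * (2 * ((1 - t) / δ + δ ^ 2))) :=
        mul_le_mul h2 (h.trans (mul_le_mul_of_nonneg_left h1 (by positivity))) (abs_nonneg _)
          zero_le_one
    _ ≤ _ := by nlinarith

end Vale.Agent.P248
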