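import Vale.Agent.P248.Mono
import Vale.Agent.P248.LensBd

/-! Monotonicity of the normalised mass and the change of variables for one basis. -/

namespace Vale.Agent.P248

open Complex Function Set MeasureTheory Filter Topology Metric
open scoped ComplexConjugate Real Matrix

/-- the cut-off profile. -/
noncomputable def psi (s : ℝ) : ℝ := max (1 - s) 0

/-- the averaged profile. -/
noncomputable def Lam (n : ℕ) (s : ℝ) : ℝ :=
  if s ≤ 1 then 1 / n - s / (n + 1) else (s ^ n)⁻¹ / (n * (n + 1))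

/-- the derivative of the averaged profile. -/
noncomputable def Lam' (n : ℕ) (s : ℝ) : ℝ := -((max 1 s) ^ (n + 1))⁻¹ / (n + 1)

theorem continuous_psi : Continuous psi := by unfold psi; fun_prop

theorem psi_nonneg (s : ℝ) : 0 ≤ psi s := le_max_right _ _

theorem psi_anti {s t : ℝ} (h : s ≤ t) : psi t ≤ psi s := max_le_max (by linarith) le_rfl

theorem psi_eq_zero {s : ℝ} (h : 1 ≤ s) : psi s = 0 := max_eq_right (by linarith)

theorem continuous_Lam' (n : ℕ) : Continuous (Lam' n) := by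
  unfold Lam'
  refine (Continuous.neg (Continuous.inv₀ (by fun_prop) fun s => ?_)).div_const _
  exact pow_ne_zero _ (lt_of_lt_of_le one_pos (le_max_left _ _)).ne'

theorem hasDerivAt_Lam {n : ℕ} (hn : n ≠ 0) (s : ℝ) : HasDerivAt (Lam n) (Lam' n s) s := by
  have hn' : (n : ℝ) ≠ 0 := by exact_mod_cast hn
  have h1 : ∀ u : ℝ, HasDerivAt (fun s : ℝ => 1 / (n : ℝ) - s / (n + 1)) (-1 / (n + 1)) u := by
    intro u
    simpa [neg_div] using ((hasDerivAt_id u).div_const ((n : ℝ) + 1)).const_sub (1 / (n : ℝ))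
  have h2 : ∀ u : ℝ, 0 < u → HasDerivAt (fun s : ℝ => (s ^ n)⁻¹ / (n * (n + 1)))
      (-(u ^ (n + 1))⁻¹ / (n + 1)) u := by
    intro u hu
    refine (((hasDerivAt_pow n u).inv (pow_ne_zero n hu.ne')).div_const _).congr_deriv ?_
    obtain ⟨m, rfl⟩ := Nat.exists_eq_succ_of_ne_zero hn
    simp only [Nat.succ_eq_add_one, Nat.add_sub_cancel]
    field_simp
    ring
  rcases lt_trichotomy s 1 with h | rfl | h
  · have : Lam' n s = -1 / (n + 1) := by simp [Lam', max_eq_left h.le]
    rw [this]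
    refine (h1 s).congr_of_eventuallyEq ?_
    filter_upwards [Iio_mem_nhds h] with u hu
    exact if_pos (le_of_lt hu)
  · have e : Lam' n 1 = -1 / (n + 1) := by simp [Lam']
    have l : HasDerivWithinAt (Lam n) (Lam' n 1) (Iic 1) 1 := by
      rw [e]
      exact (h1 1).hasDerivWithinAt.congr (fun u hu => if_pos hu) (if_pos le_rfl)
    have r : HasDerivWithinAt (Lam n) (Lam' n 1) (Ici 1) 1 := by
      have e2 : Lam n 1 = ((1 : ℝ) ^ n)⁻¹ / (n * (n + 1)) := by
        rw [Lam, if_pos le_rfl]; field_simp; ring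
      have := (h2 1 one_pos).hasDerivWithinAt (s := Ici 1)
      rw [one_pow, inv_one, ← e] at this
      refine this.congr (fun u hu => ?_) e2
      rcases eq_or_lt_of_le (mem_Ici.mp hu) with rfl | hu
      · exact e2
      · exact if_neg (not_le.mpr hu)
    have := l.union r
    rwa [Iic_union_Ici, hasDerivWithinAt_univ] at this
  · have : Lam' n s = -(s ^ (n + 1))⁻¹ / (n + 1) := by simp [Lam', max_eq_right h.le]
    rw [this]
    refine (h2 s (by linarith)).congr_of_eventuallyEq ?_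
    filter_upwards [Ioi_mem_nhds h] with u hu
    exact if_neg (not_le.mpr hu)

theorem Lam_ode {n : ℕ} (hn : n ≠ 0) (s : ℝ) : n * Lam n s + s * Lam' n s = psi s := by
  have hn' : (n : ℝ) ≠ 0 := by exact_mod_cast hn
  rcases le_or_gt s 1 with h | h
  · rw [Lam, if_pos h, Lam', max_eq_left h, psi, max_eq_left (by linarith)]
    field_simp; ring
  · have : s ≠ 0 := by linarith
    rw [Lam, if_neg (not_le.mpr h), Lam', max_eq_right h.le, psi_eq_zero h.le]
    field_simp; ring

variable {κ ι : Type*} [Fintype κ] [DecidableEq κ]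

/-- powers of the inverse lens map. -/
noncomputable def Gp (p : ι → ℕ) (j : ι) (w : ℂ) : ℂ := lensP w ^ p j

/-- the complex matrix of the forms selected by `I`. -/
noncomputable def Mc (a : ι → κ → ℝ) (I : κ → ι) : Matrix κ κ ℂ :=
  Matrix.of fun i k => (a (I i) k : ℂ)

/-- the point with prescribed values of the selected forms. -/
noncomputable def sol (a : ι → κ → ℝ) (I : κ → ι) (w : κ → ℂ) : κ → ℂ := (Mc a I)⁻¹ *ᵥ w

theorem det_Mc (a : ι → κ → ℝ) (I : κ → ι) : (Mc a I).det = dt a I := by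
  rw [dt, ← ofRealHom_eq_coe, RingHom.map_det]
  rfl

theorem isUnit_det_Mc {a : ι → κ → ℝ} {I : κ → ι} (h : dt a I ≠ 0) : IsUnit (Mc a I).det := by
  rw [det_Mc]; exact (ofReal_ne_zero.mpr h).isUnit

theorem lin_sol {a : ι → κ → ℝ} {I : κ → ι} (h : dt a I ≠ 0) (w : κ → ℂ) (i : κ) :
    lin (a (I i)) (sol a I w) = w i := by
  have : Mc a I *ᵥ sol a I w = w := by
    rw [sol, Matrix.mulVec_mulVec, Matrix.mul_nonsing_inv _ (isUnit_det_Mc h), Matrix.one_mulVec]
  exact congrFun this i

theorem sol_lin {a : ι → κ → ℝ} {I : κ → ι} (h : dt a I ≠ 0) (z : κ → ℂ) :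
    sol a I (fun i => lin (a (I i)) z) = z := by
  change (Mc a I)⁻¹ *ᵥ (Mc a I *ᵥ z) = z
  rw [Matrix.mulVec_mulVec, Matrix.nonsing_inv_mul _ (isUnit_det_Mc h), Matrix.one_mulVec]

theorem continuous_sol (a : ι → κ → ℝ) (I : κ → ι) : Continuous (sol a I) :=
  continuous_const.matrix_mulVec continuous_id

theorem injective_of_dt_ne_zero {a : ι → κ → ℝ} {I : κ → ι} (h : dt a I ≠ 0) : Injective I :=
  fun _ _ hst => by_contra fun hne => h (dt_eq_zero a hne hst)

theorem differentiableOn_Gp (p : ι → ℕ) (j : ι) : DifferentiableOn ℂ (Gp p j) lensO :=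
  differentiableOn_lensP.pow _

theorem term_nonneg (a : ι → κ → ℝ) (G : ι → ℂ → ℂ) (I : κ → ι) (z : κ → ℂ) : 0 ≤ term a G I z :=
  mul_nonneg (sq_nonneg _) (Finset.prod_nonneg fun _ _ => normSq_nonneg _)

variable [Fintype ι]

theorem exists_compact (a : ι → κ → ℝ) {I0 : κ → ι} (h0 : dt a I0 ≠ 0) (p : ι → ℕ) :
    ∃ C : Set (κ → ℂ), IsCompact C ∧ C ⊆ dom a lensO ∧
      ∀ z ∈ dom a lensO \ C, 1 / 2 < rho a (Gp p) z := by
  have hev : ∀ᶠ r : ℝ in 𝓝[Ico 0 1] 1, ∀ j, 1 / 2 < (r ^ p j) ^ 2 := by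
    refine eventually_all.mpr fun j => nhdsWithin_le_nhds ?_
    have : Continuous fun r : ℝ => (r ^ p j) ^ 2 := by fun_prop
    exact this.continuousAt.eventually_const_lt (by norm_num)
  have : (𝓝[Ico (0 : ℝ) 1] 1).NeBot := right_nhdsWithin_Ico_neBot one_pos
  obtain ⟨r, hr, hr'⟩ := (hev.and self_mem_nhdsWithin).exists
  have hK : IsCompact (lensF '' closedBall 0 r) := (isCompact_closedBall 0 r).image_of_continuousOn
    (continuousOn_lensF.mono (closedBall_subset_closedBall hr'.2.le))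
  refine ⟨dom a (lensF '' closedBall 0 r), ?_,
    fun z hz j => image_mono (closedBall_subset_ball hr'.2) (hz j), ?_⟩
  · refine ((isCompact_univ_pi fun _ : κ => hK).image (continuous_sol a I0)).of_isClosed_subset ?_
      fun z hz => ⟨_, fun i _ => hz (I0 i), sol_lin h0 z⟩
    rw [dom, ofPred_forall]
    exact isClosed_iInter fun j => hK.isClosed.preimage (continuous_lin _)
  · rintro z ⟨hz, hzC⟩
    obtain ⟨j, hj⟩ := not_forall.mp hzC
    have h1 : r ≤ ‖lensP (lin (a j) z)‖ := by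
      by_contra h
      exact hj ⟨_, mem_closedBall_zero_iff.mpr (not_le.mp h).le, lensF_lensP (hz j)⟩
    refine (hr j).trans_le (le_trans ?_ (Finset.single_le_sum
      (f := fun j => normSq (Gp p j (lin (a j) z))) (fun _ _ => normSq_nonneg _)
      (Finset.mem_univ j)))
    rw [normSq_eq_norm_sq, Gp, norm_pow]
    have := hr'.1
    gcongr

/-- the mass carried by one basis. -/
noncomputable def mass (a : ι → κ → ℝ) (p : ι → ℕ) (t : ℝ) (I : κ → ι) : ENNReal :=
  ∫⁻ z in dom a lensO,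
    ENNReal.ofReal (t ^ Fintype.card κ * (psi (t * rho a (Gp p) z) * term a (Gp p) I z))

theorem mass_mono [Nonempty κ] (a : ι → κ → ℝ) {I0 : κ → ι} (h0 : dt a I0 ≠ 0) (p : ι → ℕ)
    {t : ℝ} (ht : 2 ≤ t) : ∑ I, mass a p t I ≤ ∑ I, mass a p 2 I := by
  obtain ⟨C, hC, hCU, hρ⟩ := exists_compact a h0 p
  set n := Fintype.card κ with hn
  have hn0 : n ≠ 0 := Fintype.card_ne_zero
  have hn' : (n : ℝ) ≠ 0 := by exact_mod_cast hn0
  have hU := isOpen_dom a isOpen_lensO
  have hG := differentiableOn_Gp p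
  have hd : ∀ u s : ℝ, HasDerivAt (fun s => u ^ n * Lam n (u * s)) (u ^ (n + 1) * Lam' n (u * s))
      s := by
    intro u s
    have := ((hasDerivAt_Lam hn0 (u * s)).comp s ((hasDerivAt_id s).const_mul u)).const_mul (u ^ n)
    refine this.congr_deriv ?_
    ring
  have hbig : ∀ u s : ℝ, 2 ≤ u → 1 / 2 < s → u ^ n * Lam n (u * s) = (s ^ n)⁻¹ / (n * (n + 1)) ∧
      u ^ (n + 1) * Lam' n (u * s) = -(s ^ (n + 1))⁻¹ / (n + 1) := by
    intro u s hu hs
    have h1 : 1 < u * s := by nlinarith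
    have hu0 : u ≠ 0 := by linarith
    have hs0 : s ≠ 0 := by linarith
    rw [Lam, if_neg (not_le.mpr h1), Lam', max_eq_right h1.le, mul_pow, mul_pow]
    constructor <;> field_simp
  have key := mono_ineq a isOpen_lensO hG hC hCU
    (χ := fun s => t ^ n * Lam n (t * s) - 2 ^ n * Lam n (2 * s))
    (χ' := fun s => t ^ (n + 1) * Lam' n (t * s) - 2 ^ (n + 1) * Lam' n (2 * s))
    (fun s => (hd t s).sub (hd 2 s))
    ((continuous_const.mul ((continuous_Lam' n).comp (by fun_prop))).sub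
      (continuous_const.mul ((continuous_Lam' n).comp (by fun_prop))))
    (fun s hs => by
      have e : ∀ u : ℝ, u ^ (n + 1) * Lam' n (u * s) = -((u / max 1 (u * s)) ^ (n + 1) / (n + 1)) :=
        fun u => by rw [Lam', div_pow]; ring
      have h1 : 2 / max 1 (2 * s) ≤ t / max 1 (t * s) := by
        rw [div_le_div_iff₀ (by positivity) (by positivity), mul_max_of_nonneg _ _ zero_le_two,
          mul_max_of_nonneg _ _ (by linarith : 0 ≤ t)]
        exact max_le_max (by linarith) (le_of_eq (by ring))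
      rw [e, e, sub_nonpos, neg_le_neg_iff]
      gcongr)
    (fun z hz => by
      obtain ⟨e1, e2⟩ := hbig t _ ht (hρ z hz)
      obtain ⟨e3, e4⟩ := hbig 2 _ le_rfl (hρ z hz)
      exact ⟨by rw [e1, e3, sub_self], by rw [e2, e4, sub_self]⟩)
  have hint : ∀ u : ℝ, 2 ≤ u → ∀ I, IntegrableOn
      (fun z => u ^ n * (psi (u * rho a (Gp p) z) * term a (Gp p) I z)) (dom a lensO) :=
    fun u hu I => integrableOn_of_vanish hU hC hCU
      (continuousOn_const.mul ((continuous_psi.comp_continuousOn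
        (continuousOn_const.mul (continuousOn_rho a hG))).mul
        (continuousOn_term a isOpen_lensO hG I)))
      fun z hz => by rw [psi_eq_zero (by nlinarith [hρ z hz])]; simp
  have hsum : ∀ u : ℝ, 2 ≤ u → ∑ I, mass a p u I = ENNReal.ofReal (∫ z in dom a lensO,
      ∑ I, u ^ n * (psi (u * rho a (Gp p) z) * term a (Gp p) I z)) := by
    intro u hu
    have hnn : ∀ I z, 0 ≤ u ^ n * (psi (u * rho a (Gp p) z) * term a (Gp p) I z) := fun I z =>
      mul_nonneg (by positivity) (mul_nonneg (psi_nonneg _) (term_nonneg _ _ _ _))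
    rw [integral_finsetSum _ fun I _ => hint u hu I,
      ENNReal.ofReal_sum_of_nonneg fun I _ => integral_nonneg (hnn I)]
    exact Finset.sum_congr rfl fun I _ =>
      (ofReal_integral_eq_lintegral_ofReal (hint u hu I) (Eventually.of_forall (hnn I))).symm
  rw [hsum t ht, hsum 2 le_rfl]
  refine ENNReal.ofReal_le_ofReal (sub_nonpos.mp ?_)
  rw [← integral_sub (integrable_finsetSum _ fun I _ => hint t ht I)
    (integrable_finsetSum _ fun I _ => hint 2 le_rfl I)]
  refine le_of_eq_of_le (integral_congr_ae (Eventually.of_forall fun z => ?_)) key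
  simp only [← Finset.mul_sum, ← Lam_ode hn0]
  ring

/-- the point of the disc with logarithmic coordinates `τ`. -/
noncomputable def zeta (p : ℕ) (t : ℝ) (τ : ℂ) : ℂ :=
  exp (((τ.re - Real.log t / 2) / p : ℝ) + τ.im * Complex.I)

/-- the parametrisation attached to a basis. -/
noncomputable def Psi (a : ι → κ → ℝ) (p : ι → ℕ) (t : ℝ) (I : κ → ι) (τ : κ → ℂ) : κ → ℂ :=
  sol a I fun i => lensF (zeta (p (I i)) t (τ i))

/-- the parameter domain. -/
def par (κ : Type*) (t : ℝ) : Set (κ → ℂ) :=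
  {τ | ∀ i, (τ i).re < Real.log t / 2 ∧ (τ i).im ∈ Ioc (-π) π}

theorem norm_zeta (p : ℕ) (t : ℝ) (τ : ℂ) :
    ‖zeta p t τ‖ = Real.exp ((τ.re - Real.log t / 2) / p) := by
  rw [zeta, norm_exp]; simp

theorem zeta_mem {p : ℕ} (hp : p ≠ 0) {t : ℝ} {τ : ℂ} (h : τ.re < Real.log t / 2) :
    zeta p t τ ∈ ball (0 : ℂ) 1 := by
  rw [mem_ball_zero_iff, norm_zeta, Real.exp_lt_one_iff]
  exact div_neg_of_neg_of_pos (by linarith) (by positivity)

theorem mul_normSq_zeta_pow {p : ℕ} (hp : p ≠ 0) {t : ℝ} (ht : 0 < t) (τ : ℂ) :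
    t * normSq (zeta p t τ ^ p) = Real.exp (2 * τ.re) := by
  have hp' : (p : ℝ) ≠ 0 := by exact_mod_cast hp
  rw [normSq_eq_norm_sq, norm_pow, norm_zeta, ← Real.exp_nat_mul, ← Real.exp_nat_mul]
  conv_lhs => enter [1]; rw [← Real.exp_log ht]
  rw [← Real.exp_add]
  congr 1
  push_cast
  field_simp
  ring

omit [DecidableEq κ] in
theorem measurableSet_par (t : ℝ) : MeasurableSet (par κ t) := by
  rw [par, ofPred_forall]
  exact MeasurableSet.iInter fun i =>
    (measurableSet_lt (by fun_prop : Measurable fun τ : κ → ℂ => (τ i).re) measurable_const).inter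
      (measurableSet_Ioc.preimage (by fun_prop : Measurable fun τ : κ → ℂ => (τ i).im))

/-- the real linear part of the logarithmic coordinates. -/
noncomputable def scaleRe (p : ℕ) : ℂ →L[ℝ] ℂ :=
  (p : ℝ)⁻¹ • ofRealCLM.comp reCLM + imCLM.smulRight Complex.I

theorem det_scaleRe (p : ℕ) : (scaleRe p).det = (p : ℝ)⁻¹ := by
  rw [ContinuousLinearMap.det, ← LinearMap.det_toMatrix basisOneI, Matrix.det_fin_two]
  simp [LinearMap.toMatrix_apply, scaleRe]

theorem det_mul_complex (c : ℂ) : (ContinuousLinearMap.mul ℝ ℂ c).det = normSq c := by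
  rw [← Algebra.norm_complex_apply, Algebra.norm_apply]
  rfl

theorem hasFDerivAt_lensF_zeta {p : ℕ} (hp : p ≠ 0) {t : ℝ} {τ : ℂ} (h : τ.re < Real.log t / 2) :
    HasFDerivAt (fun τ => lensF (zeta p t τ))
      ((ContinuousLinearMap.mul ℝ ℂ (deriv lensF (zeta p t τ) * zeta p t τ)).comp (scaleRe p)) τ := by
  let c : ℂ := (Real.log t / 2 / p : ℝ)
  have e : ∀ τ, zeta p t τ = exp (scaleRe p τ - c) := by
    intro τ
    rw [zeta]
    congr 1
    simp [scaleRe, c]
    ring
  have h1 : HasDerivAt (fun w => lensF (exp w)) (deriv lensF (zeta p t τ) * zeta p t τ)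
      (scaleRe p τ - c) := by
    have := (hasDerivAt_lensF (zeta_mem hp h)).differentiableAt.hasDerivAt
    rw [e] at this ⊢
    exact this.comp _ (hasDerivAt_exp _)
  have h2 := (h1.hasFDerivAt.restrictScalars ℝ).comp τ ((scaleRe p).hasFDerivAt.sub_const c)
  simp only [e]
  refine h2.congr_fderiv ?_
  ext
  simp [mul_comm, e]

theorem mass_eq (a : ι → κ → ℝ) {p : ι → ℕ} (hp : ∀ j, 2 ≤ p j) {t : ℝ} (ht : 0 < t) {I : κ → ι}
    (hI : dt a I ≠ 0) :
    mass a p t I = ∫⁻ τ in par κ t, (dom a lensO).indicator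
      (fun z => ENNReal.ofReal (psi (t * rho a (Gp p) z))) (Psi a p t I τ) *
        ENNReal.ofReal (∏ i, p (I i) * Real.exp (2 * (τ i).re)) := by
  have hp0 : ∀ j, p j ≠ 0 := fun j => by have := hp j; omega
  let S : (κ → ℂ) →L[ℝ] (κ → ℂ) :=
    LinearMap.toContinuousLinearMap ((Matrix.toLin' (Mc a I)⁻¹).restrictScalars ℝ)
  have hS : S.det = (dt a I ^ 2)⁻¹ := by
    rw [ContinuousLinearMap.det, LinearMap.coe_toContinuousLinearMap, LinearMap.det_restrictScalars,
      LinearMap.det_toLin', Matrix.det_nonsing_inv, Algebra.norm_complex_apply, det_Mc,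
      Ring.inverse_eq_inv', map_inv₀, normSq_ofReal, sq]
  let D : (κ → ℂ) → κ → ℂ →L[ℝ] ℂ := fun τ i => (ContinuousLinearMap.mul ℝ ℂ
    (deriv lensF (zeta (p (I i)) t (τ i)) * zeta (p (I i)) t (τ i))).comp (scaleRe (p (I i)))
  let D' : (κ → ℂ) → (κ → ℂ) →L[ℝ] (κ → ℂ) := fun τ =>
    S.comp (ContinuousLinearMap.pi fun i => (D τ i).comp (ContinuousLinearMap.proj i))
  have hD : ∀ τ ∈ par κ t, HasFDerivWithinAt (Psi a p t I) (D' τ) (par κ t) τ := by
    intro τ hτ
    refine (S.hasFDerivAt.comp τ (hasFDerivAt_pi.mpr fun i => ?_)).hasFDerivWithinAt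
    have := (hasFDerivAt_lensF_zeta (hp0 (I i)) (hτ i).1).comp τ (f := fun σ : κ → ℂ => σ i)
      (ContinuousLinearMap.proj (R := ℝ) (φ := fun _ : κ => ℂ) i).hasFDerivAt
    exact this
  have hdet : ∀ τ, (D' τ).det = (dt a I ^ 2)⁻¹ * ∏ i, normSq
      (deriv lensF (zeta (p (I i)) t (τ i)) * zeta (p (I i)) t (τ i)) * (p (I i) : ℝ)⁻¹ := by
    intro τ
    rw [← hS]
    refine (LinearMap.det_comp _ _).trans ?_
    congr 1
    refine (ContinuousLinearMap.det_pi (D τ)).trans (Finset.prod_congr rfl fun i _ => ?_)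
    rw [← det_mul_complex, ← det_scaleRe]
    exact LinearMap.det_comp _ _
  have hlin : ∀ τ i, lin (a (I i)) (Psi a p t I τ) = lensF (zeta (p (I i)) t (τ i)) :=
    fun τ i => lin_sol hI _ i
  have hinj : InjOn (Psi a p t I) (par κ t) := by
    intro τ hτ σ hσ h
    funext i
    have h1 := hlin τ i
    rw [h, hlin] at h1
    have h2 := injOn_lensF (zeta_mem (hp0 _) (hσ i).1) (zeta_mem (hp0 _) (hτ i).1) h1
    have h3 := exp_inj_of_neg_pi_lt_of_le_pi (by simpa using (hσ i).2.1) (by simpa using (hσ i).2.2)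
      (by simpa using (hτ i).2.1) (by simpa using (hτ i).2.2) h2
    have h4 := congrArg re h3
    have h5 := congrArg im h3
    have hp' : (p (I i) : ℝ) ≠ 0 := by exact_mod_cast hp0 _
    simp only [add_re, ofReal_re, mul_re, I_re, mul_zero, ofReal_im, I_im, mul_one, sub_self,
      add_zero, add_im, mul_im, zero_add] at h4 h5
    rw [div_left_inj' hp', sub_left_inj] at h4
    exact Complex.ext h4.symm h5.symm
  have hderiv : ∀ j, ∀ w ∈ lensO, deriv (Gp p j) w =
      p j * lensP w ^ (p j - 1) * (deriv lensF (lensP w))⁻¹ := fun j w hw =>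
    ((hasDerivAt_lensP hw).pow (p j)).deriv
  rw [mass, ← lintegral_indicator (isOpen_dom a isOpen_lensO).measurableSet,
    ← setLIntegral_eq_of_support_subset (s := Psi a p t I '' par κ t),
    lintegral_image_eq_lintegral_abs_det_fderiv_mul volume (measurableSet_par t) hD hinj]
  · refine setLIntegral_congr_fun (measurableSet_par t) fun τ hτ => ?_
    by_cases hz : Psi a p t I τ ∈ dom a lensO
    swap
    · simp [indicator_of_notMem hz]
    simp only [indicator_of_mem hz]
    rw [← ENNReal.ofReal_mul (abs_nonneg _), ← ENNReal.ofReal_mul (psi_nonneg _), hdet,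
      abs_of_nonneg (mul_nonneg (by positivity) (Finset.prod_nonneg fun i _ =>
        mul_nonneg (normSq_nonneg _) (by positivity))), term]
    congr 1
    have e : ∀ i, (p (I i) : ℝ) * Real.exp (2 * (τ i).re) =
        (normSq (deriv lensF (zeta (p (I i)) t (τ i)) * zeta (p (I i)) t (τ i)) *
          (p (I i) : ℝ)⁻¹) * (t * normSq (deriv (Gp p (I i)) (lin (a (I i)) (Psi a p t I τ)))) := by
      intro i
      have hm := zeta_mem (hp0 (I i)) (hτ i).1
      have hp' : (p (I i) : ℝ) ≠ 0 := by exact_mod_cast hp0 _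
      have hd := normSq_eq_zero.not.mpr (deriv_lensF_ne_zero hm)
      rw [hderiv _ _ (hz _), hlin, lensP_lensF hm, ← mul_normSq_zeta_pow (hp0 (I i)) ht]
      conv_lhs => rw [← Nat.sub_add_cancel (Nat.pos_of_ne_zero (hp0 (I i))), pow_succ,
        Nat.sub_add_cancel (Nat.pos_of_ne_zero (hp0 (I i)))]
      simp only [map_mul, map_inv₀, normSq_natCast]
      field_simp
    rw [Finset.prod_congr rfl fun i _ => e i, Finset.prod_mul_distrib (s := Finset.univ)
      (g := fun i => t * normSq (deriv (Gp p (I i)) (lin (a (I i)) (Psi a p t I τ)))),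
      Finset.prod_mul_distrib (f := fun _ => t), Finset.prod_const, Finset.card_univ]
    field_simp
  · intro z hz
    by_cases hzd : z ∈ dom a lensO
    swap
    · exact absurd (indicator_of_notMem hzd _) hz
    have hne : ∀ i, lensP (lin (a (I i)) z) ≠ 0 := by
      intro i h
      apply hz
      rw [indicator_of_mem hzd, term, Finset.prod_eq_zero (Finset.mem_univ i)]
      · simp
      · rw [hderiv _ _ (hzd _), h, zero_pow (by have := hp (I i); omega)]
        simp
    let τ : κ → ℂ := fun i => ⟨p (I i) * Real.log ‖lensP (lin (a (I i)) z)‖ + Real.log t / 2,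
      arg (lensP (lin (a (I i)) z))⟩
    have hz' : ∀ i, zeta (p (I i)) t (τ i) = lensP (lin (a (I i)) z) := by
      intro i
      have hp' : (p (I i) : ℝ) ≠ 0 := by exact_mod_cast hp0 _
      rw [zeta, ← exp_log (hne i)]
      congr 1
      simp only [τ, add_sub_cancel_right, mul_div_cancel_left₀ _ hp']
      rfl
    refine ⟨τ, fun i => ⟨?_, neg_pi_lt_arg _, arg_le_pi _⟩, ?_⟩
    · have h1 := Real.log_neg (norm_pos_iff.mpr (hne i))
        (mem_ball_zero_iff.mp (lensP_mem (hzd (I i))))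
      have h2 : (0 : ℝ) < p (I i) := by exact_mod_cast Nat.pos_of_ne_zero (hp0 _)
      simp only [τ]
      nlinarith
    · rw [Psi]
      simp only [hz', lensF_lensP (hzd _)]
      exact sol_lin hI z

end Vale.Agent.P248
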