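import Mathlib

/-! A finite Dynkin system with the parallelogram and exclusion properties splits. -/

namespace Vale.Agent.P248

open Set

variable {β : Type*} {𝒯 : Set (Set β)}

/-- minimal nonempty members. -/
def Atom (𝒯 : Set (Set β)) (T : Set β) : Prop :=
  T ∈ 𝒯 ∧ T.Nonempty ∧ ∀ S ∈ 𝒯, S ⊆ T → S = ∅ ∨ S = T

/-- adjacent members. -/
def Adj (𝒯 : Set (Set β)) (R S : Set β) : Prop :=
  R ≠ S ∧ ∀ T ∈ 𝒯, R ∩ S ⊆ T → T ⊆ R ∪ S → T = R ∨ T = S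

/-- `a` lies in the face spanned by `b` and `c`. -/
def Fc (𝒯 : Set (Set β)) (a b c : β) : Prop := ∀ S ∈ 𝒯, b ∈ S → c ∈ S → a ∈ S

/-- the axioms. -/
structure Dyn (𝒯 : Set (Set β)) : Prop where
  empty : ∅ ∈ 𝒯
  compl : ∀ S ∈ 𝒯, Sᶜ ∈ 𝒯
  union : ∀ S ∈ 𝒯, ∀ T ∈ 𝒯, Disjoint S T → S ∪ T ∈ 𝒯
  par : ∀ T, Atom 𝒯 T → ∀ a ∈ T, ∀ a' ∈ T, a ≠ a' → ∃ b ∉ T, ∃ b' ∉ T, ∀ S ∈ 𝒯,
    (a ∈ S ∧ b ∈ S ↔ a' ∈ S ∧ b' ∈ S) ∧ (a ∈ S ∨ b ∈ S ↔ a' ∈ S ∨ b' ∈ S)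
  ex : ∀ R ∈ 𝒯, ∀ R₁ ∈ 𝒯, ∀ R₂ ∈ 𝒯, ∀ C ∈ 𝒯, ∀ C₁ ∈ 𝒯, ∀ C₂ ∈ 𝒯, Disjoint R R₁ → Disjoint R R₂ →
    Disjoint R₁ R₂ → Disjoint C C₁ → Disjoint C C₂ → Disjoint C₁ C₂ → ∀ a₁ ∈ R ∩ C₁,
    ∀ a₂ ∈ R ∩ C₂, ∀ b₁ ∈ R₁ ∩ C, ∀ b₂ ∈ R₂ ∩ C, ∀ a, Fc 𝒯 a a₁ b₁ → Fc 𝒯 a a₂ b₂ → False

/-- partitions of `S` into atoms. -/
structure Prt (𝒯 P : Set (Set β)) (S : Set β) : Prop where
  atom : ∀ R ∈ P, Atom 𝒯 R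
  disj : ∀ R ∈ P, ∀ R' ∈ P, R ≠ R' → Disjoint R R'
  cover : ⋃₀ P = S

theorem Atom.eq_of_subset {S T : Set β} (hT : Atom 𝒯 T) (hS : Atom 𝒯 S) (h : S ⊆ T) : S = T :=
  (hT.2.2 S hS.1 h).resolve_left hS.2.1.ne_empty

theorem Atom.prt {T : Set β} (hT : Atom 𝒯 T) : Prt 𝒯 {T} T :=
  ⟨by simpa using hT, by simp, by simp⟩

theorem Prt.union {P P' : Set (Set β)} {S S' : Set β} (h : Prt 𝒯 P S) (h' : Prt 𝒯 P' S')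
    (hd : Disjoint S S') : Prt 𝒯 (P ∪ P') (S ∪ S') := by
  have := fun R (hR : R ∈ P) R' (hR' : R' ∈ P') => hd.mono (h.cover ▸ subset_sUnion_of_mem hR)
    (h'.cover ▸ subset_sUnion_of_mem hR')
  refine ⟨fun R hR => hR.elim (h.atom R) (h'.atom R), ?_, by rw [sUnion_union, h.cover, h'.cover]⟩
  rintro R (hR | hR) R' (hR' | hR') hne
  exacts [h.disj R hR R' hR' hne, this R hR R' hR', (this R' hR' R hR).symm,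
    h'.disj R hR R' hR' hne]

theorem Prt.diff {P X : Set (Set β)} (h : Prt 𝒯 P univ) (hX : X ⊆ P) :
    Prt 𝒯 (P \ X) (⋃₀ X)ᶜ := by
  refine ⟨fun R hR => h.atom R hR.1, fun R hR R' hR' => h.disj R hR.1 R' hR'.1, ?_⟩
  ext a
  constructor
  · rintro ⟨R, hR, ha⟩ ⟨R', hR', ha'⟩
    exact disjoint_left.mp (h.disj R hR.1 R' (hX hR') fun e => hR.2 (e ▸ hR')) ha ha'
  · intro ha
    obtain ⟨R, hR, ha'⟩ : a ∈ ⋃₀ P := h.cover ▸ mem_univ a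
    exact ⟨R, ⟨hR, fun hR' => ha ⟨R, hR', ha'⟩⟩, ha'⟩

theorem Prt.row {P : Set (Set β)} (h : Prt 𝒯 P univ) (a : β) : ∃ R ∈ P, a ∈ R :=
  (h.cover ▸ mem_univ a : a ∈ ⋃₀ P)

theorem Prt.eq {P : Set (Set β)} {S : Set β} (h : Prt 𝒯 P S) {R R' : Set β} (hR : R ∈ P)
    (hR' : R' ∈ P) {a : β} (ha : a ∈ R) (ha' : a ∈ R') : R = R' :=
  by_contra fun hne => disjoint_left.mp (h.disj R hR R' hR' hne) ha ha'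

namespace Dyn

variable (h : Dyn 𝒯)
include h

theorem diff {S T : Set β} (hS : S ∈ 𝒯) (hT : T ∈ 𝒯) (hST : S ⊆ T) : T \ S ∈ 𝒯 := by
  have := h.compl _ (h.union _ (h.compl T hT) S hS (disjoint_compl_left.mono_right hST))
  rwa [compl_union, compl_compl] at this

theorem not_atom {S : Set β} (hS : S ∈ 𝒯) (h0 : S.Nonempty) (hA : ¬Atom 𝒯 S) :
    ∃ S₁ ∈ 𝒯, ∃ S₂ ∈ 𝒯, S₁.Nonempty ∧ S₂.Nonempty ∧ Disjoint S₁ S₂ ∧ S = S₁ ∪ S₂ := by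
  by_contra hc
  refine hA ⟨hS, h0, fun U hU hUS => by_contra fun h1 => hc ⟨U, hU, S \ U, h.diff hU hS hUS,
    nonempty_iff_ne_empty.mpr fun h2 => h1 (Or.inl h2), nonempty_iff_ne_empty.mpr fun h2 =>
    h1 (Or.inr (hUS.antisymm (sdiff_eq_empty.mp h2))), disjoint_sdiff_right,
    (union_sdiff_cancel hUS).symm⟩⟩

theorem induction [Finite β] {p : Set β → Prop} (h0 : p ∅) (ha : ∀ T, Atom 𝒯 T → p T)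
    (hu : ∀ S ∈ 𝒯, ∀ T ∈ 𝒯, Disjoint S T → p S → p T → p (S ∪ T)) {S : Set β} (hS : S ∈ 𝒯) :
    p S := by
  induction S using WellFoundedLT.induction with | ind S ih =>
  rcases S.eq_empty_or_nonempty with rfl | h1
  · exact h0
  by_cases hA : Atom 𝒯 S
  · exact ha S hA
  obtain ⟨S₁, h2, S₂, h3, ⟨a, h4⟩, ⟨b, h5⟩, h6, rfl⟩ := h.not_atom hS h1 hA
  refine hu _ h2 _ h3 h6 (ih _ ⟨subset_union_left, fun h7 => ?_⟩ h2)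
    (ih _ ⟨subset_union_right, fun h7 => ?_⟩ h3)
  · exact disjoint_left.mp h6 (h7 (Or.inr h5)) h5
  · exact disjoint_left.mp h6 h4 (h7 (Or.inl h4))

theorem exists_prt [Finite β] {S : Set β} (hS : S ∈ 𝒯) : ∃ P, Prt 𝒯 P S :=
  h.induction (p := fun S => ∃ P, Prt 𝒯 P S) ⟨∅, by simp, by simp, by simp⟩
    (fun _ hT => ⟨_, hT.prt⟩) (fun _ _ _ _ hd ⟨_, h1⟩ ⟨_, h2⟩ => ⟨_, h1.union h2 hd⟩) hS

theorem inter_mem [Finite β] {D : Set β} (hD : ∀ T, Atom 𝒯 T → T ⊆ D ∨ T ⊆ Dᶜ) {S : Set β}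
    (hS : S ∈ 𝒯) : S ∩ D ∈ 𝒯 := by
  refine h.induction (p := fun S => S ∩ D ∈ 𝒯) (by simpa using h.empty) (fun T hT => ?_)
    (fun S _ T _ hd h1 h2 => ?_) hS
  · rcases hD T hT with h1 | h1
    · rw [inter_eq_left.mpr h1]; exact hT.1
    · rw [(subset_compl_iff_disjoint_right.mp h1).inter_eq]; exact h.empty
  · rw [union_inter_distrib_right]
    exact h.union _ h1 _ h2 (hd.mono inter_subset_left inter_subset_left)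

theorem g2 {P : Set (Set β)} (hP : Prt 𝒯 P univ) {T : Set β} (hT : T ∈ P) {S S' : Set β}
    (hS : S ∈ 𝒯) (hS' : S' ∈ 𝒯) (hd : Disjoint S S') {a a' : β} (ha : a ∈ T ∩ S)
    (ha' : a' ∈ T ∩ S') : ∃ T' ∈ P, T' ≠ T ∧ (T' ∩ S').Nonempty ∧ ∃ b ∈ T' ∩ S, Fc 𝒯 a a' b := by
  have h1 := disjoint_left.mp hd ha.2
  have h2 := disjoint_right.mp hd ha'.2
  obtain ⟨b, hb, b', hb', h3⟩ := h.par T (hP.atom T hT) a ha.1 a' ha'.1 fun e => h1 (e ▸ ha'.2)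
  obtain ⟨T', hT', hb2⟩ := hP.row b
  have hne : T' ≠ T := fun e => hb (e ▸ hb2)
  refine ⟨T', hT', hne, ⟨b, hb2, ((h3 S' hS').2.mpr (Or.inl ha'.2)).resolve_left h1⟩, b',
    ⟨((h3 T' (hP.atom _ hT').1).2.mp (Or.inr hb2)).resolve_left fun h4 =>
      hne (hP.eq hT' hT h4 ha'.1), ((h3 S hS).2.mp (Or.inl ha.2)).resolve_left h2⟩,
    fun U hU h4 h5 => ((h3 U hU).1.mpr ⟨h4, h5⟩).1⟩

theorem g1 {P Q : Set (Set β)} (hP : Prt 𝒯 P univ) (hQ : Prt 𝒯 Q univ) {R R₁ R₂ C C₁ C₂ : Set β}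
    (hR : R ∈ P) (hR₁ : R₁ ∈ P) (hR₂ : R₂ ∈ P) (hC : C ∈ Q) (hC₁ : C₁ ∈ Q) (hC₂ : C₂ ∈ Q)
    (r1 : R₁ ≠ R) (r2 : R₂ ≠ R) (r3 : R₁ ≠ R₂) (c1 : C₁ ≠ C) (c2 : C₂ ≠ C) (c3 : C₁ ≠ C₂)
    (h0 : (R ∩ C).Nonempty) (h1 : (R ∩ C₁).Nonempty) (h2 : (R ∩ C₂).Nonempty)
    (h3 : (R₁ ∩ C).Nonempty) (h4 : (R₂ ∩ C).Nonempty) : False := by
  obtain ⟨a, ha⟩ := h0
  have key : ∀ R₁ ∈ P, ∀ R₂ ∈ P, ∀ C₁ ∈ Q, ∀ C₂ ∈ Q, R₁ ≠ R → R₂ ≠ R → R₁ ≠ R₂ → C₁ ≠ C → C₂ ≠ C →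
      C₁ ≠ C₂ → ∀ a₁ ∈ R ∩ C₁, ∀ a₂ ∈ R ∩ C₂, ∀ b₁ ∈ R₁ ∩ C, ∀ b₂ ∈ R₂ ∩ C,
      Fc 𝒯 a a₁ b₁ → Fc 𝒯 a a₂ b₂ → False :=
    fun R₁ hR₁ R₂ hR₂ C₁ hC₁ C₂ hC₂ r1 r2 r3 c1 c2 c3 a₁ h1 a₂ h2 b₁ h3 b₂ h4 =>
      h.ex R (hP.atom _ hR).1 R₁ (hP.atom _ hR₁).1 R₂ (hP.atom _ hR₂).1 C (hQ.atom _ hC).1 C₁
        (hQ.atom _ hC₁).1 C₂ (hQ.atom _ hC₂).1 (hP.disj _ hR _ hR₁ r1.symm)
        (hP.disj _ hR _ hR₂ r2.symm) (hP.disj _ hR₁ _ hR₂ r3) (hQ.disj _ hC _ hC₁ c1.symm)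
        (hQ.disj _ hC _ hC₂ c2.symm) (hQ.disj _ hC₁ _ hC₂ c3) a₁ h1 a₂ h2 b₁ h3 b₂ h4 a
  obtain ⟨a₁, ha₁⟩ := h1
  obtain ⟨a₂, ha₂⟩ := h2
  obtain ⟨R', hR', e1, -, β₁, hβ₁, f1⟩ := h.g2 hP hR (hQ.atom _ hC).1 (hQ.atom _ hC₁).1
    (hQ.disj _ hC _ hC₁ c1.symm) ha ha₁
  obtain ⟨R'', hR'', e2, -, β₂, hβ₂, f2⟩ := h.g2 hP hR (hQ.atom _ hC).1 (hQ.atom _ hC₂).1
    (hQ.disj _ hC _ hC₂ c2.symm) ha ha₂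
  by_cases e : R' = R''
  swap
  · exact key R' hR' R'' hR'' C₁ hC₁ C₂ hC₂ e1 e2 e c1 c2 c3 a₁ ha₁ a₂ ha₂ β₁ hβ₁ β₂ hβ₂ f1 f2
  subst e
  obtain ⟨R₃, hR₃, e3, e4, b, hb⟩ : ∃ R₃ ∈ P, R₃ ≠ R ∧ R' ≠ R₃ ∧ (R₃ ∩ C).Nonempty := by
    by_cases e : R' = R₁
    exacts [⟨R₂, hR₂, r2, e ▸ r3, h4⟩, ⟨R₁, hR₁, r1, e, h3⟩]
  obtain ⟨C', hC', e5, -, α, hα, f3⟩ := h.g2 hQ hC (hP.atom _ hR).1 (hP.atom _ hR₃).1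
    (hP.disj _ hR _ hR₃ e3.symm) ha.symm hb.symm
  have f4 : Fc 𝒯 a α b := fun U hU h5 h6 => f3 U hU h6 h5
  by_cases e : C₁ = C'
  · exact key R' hR' R₃ hR₃ C₂ hC₂ C' hC' e1 e3 e4 c2 e5 (e ▸ c3.symm) a₂ ha₂ α hα.symm β₂ hβ₂
      b hb f2 f4
  · exact key R' hR' R₃ hR₃ C₁ hC₁ C' hC' e1 e3 e4 c1 e5 e a₁ ha₁ α hα.symm β₁ hβ₁ b hb f1 f4

theorem extend [Finite β] {X : Set (Set β)} {S : Set β} (hX : Prt 𝒯 X S) (hS : S ∈ 𝒯) :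
    ∃ Q, Prt 𝒯 Q univ ∧ X ⊆ Q := by
  obtain ⟨Y, hY⟩ := h.exists_prt (h.compl S hS)
  exact ⟨_, union_compl_self S ▸ hX.union hY disjoint_compl_right, subset_union_left⟩

theorem two_rows [Finite β] {P : Set (Set β)} (hP : Prt 𝒯 P univ)
    (hmin : ∀ P', Prt 𝒯 P' univ → P.ncard ≤ P'.ncard) {C : Set β} (hC : Atom 𝒯 C)
    {R₁ R₂ R₃ : Set β} (h1 : R₁ ∈ P) (h2 : R₂ ∈ P) (h3 : R₃ ∈ P) (e1 : R₁ ≠ R₂) (e2 : R₁ ≠ R₃)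
    (e3 : R₂ ≠ R₃) (m1 : (R₁ ∩ C).Nonempty) (m2 : (R₂ ∩ C).Nonempty) (m3 : (R₃ ∩ C).Nonempty) :
    False := by
  obtain ⟨Q, hQ, hCQ⟩ := h.extend hC.prt hC.1
  have hC' : C ∈ Q := hCQ rfl
  have ha : ∀ R ∈ P, (R ∩ C).Nonempty → ∀ C₁ ∈ Q, ∀ C₂ ∈ Q, C₁ ≠ C → C₂ ≠ C →
      (R ∩ C₁).Nonempty → (R ∩ C₂).Nonempty → C₁ = C₂ := by
    intro R hR m C₁ hC₁ C₂ hC₂ c1 c2 n1 n2
    by_contra c3
    by_cases e : R₁ = R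
    · exact h.g1 hP hQ hR h2 h3 hC' hC₁ hC₂ (e ▸ e1.symm) (e ▸ e2.symm) e3 c1 c2 c3 m n1 n2 m2 m3
    by_cases e' : R₂ = R
    · exact h.g1 hP hQ hR h1 h3 hC' hC₁ hC₂ e (e' ▸ e3.symm) e2 c1 c2 c3 m n1 n2 m1 m3
    · exact h.g1 hP hQ hR h1 h2 hC' hC₁ hC₂ e e' e1 c1 c2 c3 m n1 n2 m1 m2
  have hb : ∀ T ∈ Q, ∀ R ∈ P, R₁ ≠ R → (R₁ ∩ T).Nonempty → (R ∩ T).Nonempty →
      ∃ T' ∈ Q, T' ≠ T ∧ (R₁ ∩ T').Nonempty ∧ (R ∩ T').Nonempty := by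
    rintro T hT R hR e ⟨a, ha⟩ ⟨a', ha'⟩
    obtain ⟨T', hT', e', ⟨b', hb'⟩, b, hb, -⟩ := h.g2 hQ hT (hP.atom _ h1).1 (hP.atom _ hR).1
      (hP.disj _ h1 _ hR e) ha.symm ha'.symm
    exact ⟨T', hT', e', ⟨b, hb.symm⟩, ⟨b', hb'.symm⟩⟩
  obtain ⟨D, hD, eD, n1, -⟩ := hb C hC' R₂ h2 e1 m1 m2
  have hc : ⋃₀ {R ∈ P | (R ∩ C).Nonempty} = C ∪ D := by
    refine Subset.antisymm ?_ (union_subset (fun a ha => ?_) fun a ha => ?_)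
    · rintro a ⟨R, ⟨hR, m⟩, haR⟩
      have n : (R ∩ D).Nonempty := by
        by_cases e : R₁ = R
        · exact e ▸ n1
        · obtain ⟨T', hT', e', n2, n3⟩ := hb C hC' R hR e m1 m
          exact ha R₁ h1 m1 T' hT' D hD e' eD n2 n1 ▸ n3
      obtain ⟨T, hT, haT⟩ := hQ.row a
      by_cases e : T = C
      · exact Or.inl (e ▸ haT)
      · exact Or.inr (ha R hR m T hT D hD e eD ⟨a, haR, haT⟩ n ▸ haT)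
    · obtain ⟨R, hR, haR⟩ := hP.row a
      exact ⟨R, ⟨hR, a, haR, ha⟩, haR⟩
    · rename_i haD
      obtain ⟨R, hR, haR⟩ := hP.row a
      refine ⟨R, ⟨hR, ?_⟩, haR⟩
      by_cases e : R₁ = R
      · exact e ▸ m1
      obtain ⟨T', hT', e', n2, n3⟩ := hb D hD R hR e n1 ⟨a, haR, ha⟩
      by_cases e'' : T' = C
      · exact e'' ▸ n3
      · exact absurd (haD R₁ h1 m1 T' hT' D hD e'' eD n2 n1) e'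
  have hX : {R ∈ P | (R ∩ C).Nonempty} ⊆ P := sep_subset _ _
  have hn := (hP.diff hX).union (hC.prt.union (hQ.atom D hD).prt (hQ.disj _ hC' _ hD eD.symm))
    (hc ▸ disjoint_compl_left)
  rw [hc, compl_union_self] at hn
  have c1 := (hmin _ hn).trans (ncard_union_le _ _)
  have c2 := ncard_union_le {C} {D}
  have c3 := ncard_sdiff_add_ncard_of_subset hX
  have c4 : 2 < {R ∈ P | (R ∩ C).Nonempty}.ncard :=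
    (two_lt_ncard_iff (toFinite _)).mpr ⟨R₁, R₂, R₃, ⟨h1, m1⟩, ⟨h2, m2⟩, ⟨h3, m3⟩, e1, e2, e3⟩
  simp only [ncard_singleton] at c2
  omega

theorem matching [Finite β] {P : Set (Set β)} (hP : Prt 𝒯 P univ)
    (hmin : ∀ P', Prt 𝒯 P' univ → P.ncard ≤ P'.ncard) {C D : Set β} (hC : Atom 𝒯 C)
    (hD : Atom 𝒯 D) {R R' R'' : Set β} (h1 : R ∈ P) (h2 : R' ∈ P) (h3 : R'' ∈ P) (e1 : R ≠ R')
    (e2 : R ≠ R'') (e3 : R' ≠ R'') (m1 : (R ∩ C).Nonempty) (m2 : (R' ∩ C).Nonempty)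
    (m3 : (R ∩ D).Nonempty) (m4 : (R'' ∩ D).Nonempty) : False := by
  have d1 := hP.disj _ h1 _ h2 e1
  have hCs : C ⊆ R ∪ R' := fun a ha => by
    obtain ⟨T, hT, haT⟩ := hP.row a
    by_contra hc
    exact h.two_rows hP hmin hC h1 h2 hT e1 (fun e => hc (Or.inl (e ▸ haT)))
      (fun e => hc (Or.inr (e ▸ haT))) m1 m2 ⟨a, haT, ha⟩
  have d2 : Disjoint D R' := disjoint_left.mpr fun a ha ha' =>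
    h.two_rows hP hmin hD h1 h2 h3 e1 e2 e3 m3 ⟨a, ha', ha⟩ m4
  obtain ⟨Y, hY⟩ := h.exists_prt (h.diff hC.1 (h.union _ (hP.atom _ h1).1 _ (hP.atom _ h2).1 d1)
    hCs)
  have hP1 := (hP.diff (X := {R, R'}) (pair_subset h1 h2)).union
    (hC.prt.union hY disjoint_sdiff_right) (by
      rw [union_sdiff_cancel hCs, sUnion_pair]; exact disjoint_compl_left)
  rw [union_sdiff_cancel hCs, sUnion_pair, compl_union_self] at hP1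
  obtain ⟨Q, hQ, hsub⟩ := h.extend (hD.prt.union (hP.atom _ h2).prt d2)
    (h.union _ hD.1 _ (hP.atom _ h2).1 d2)
  have q1 : D ∈ Q := hsub (Or.inl rfl)
  have q2 : R' ∈ Q := hsub (Or.inr rfl)
  have p1 : C ∈ P \ {R, R'} ∪ ({C} ∪ Y) := Or.inr (Or.inl rfl)
  obtain ⟨c, hc⟩ := m2
  obtain ⟨c', hc1, hc2⟩ : ∃ c' ∈ R', c' ∉ C := not_subset.mp fun hs => by
    obtain ⟨a, ha⟩ := m1
    exact disjoint_left.mp d1 ha.1 (hC.eq_of_subset (hP.atom _ h2) hs ▸ ha.2)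
  obtain ⟨C₁, p2, hc3⟩ := hP1.row c'
  have e4 : C₁ ≠ C := fun e => hc2 (e ▸ hc3)
  obtain ⟨D₁, q3, e5, n1, b, hb, -⟩ := h.g2 hQ q2 hC.1 (hP1.atom _ p2).1
    (hP1.disj _ p1 _ p2 e4.symm) hc ⟨hc1, hc3⟩
  have d3 := hQ.disj _ q3 _ q2 e5
  obtain ⟨d, hd1, hd2⟩ : ∃ d ∈ D₁, d ∉ R := not_subset.mp fun hs => by
    obtain ⟨a, ha⟩ := m3
    obtain ⟨a', ha'⟩ := m4
    have e := (hP.atom _ h1).eq_of_subset (hQ.atom _ q3) hs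
    exact e2 (hP.eq h1 h3 (e ▸ hQ.eq q1 q3 ha.2 (e ▸ ha.1) ▸ ha'.2) ha'.1)
  obtain ⟨R₃, h4, hd3⟩ := hP.row d
  have e6 : R₃ ≠ R' := fun e => disjoint_left.mp d3 hd1 (e ▸ hd3)
  have p3 : R₃ ∈ P \ {R, R'} ∪ ({C} ∪ Y) :=
    Or.inl ⟨h4, fun e => e.elim (fun e => hd2 (e ▸ hd3)) e6⟩
  have e7 : R₃ ≠ C := fun e => (hCs (e ▸ hd3)).elim hd2 (disjoint_left.mp d3 hd1)
  obtain ⟨D₂, q4, e8, ⟨x, hx⟩, b', hb', -⟩ := h.g2 hQ q3 hC.1 (hP.atom _ h4).1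
    (hP1.disj _ p1 _ p3 e7.symm) hb ⟨hd1, hd3⟩
  exact h.g1 hP1 hQ p1 p2 p3 q3 q2 q4 e4 e7 (fun e => e6 (hP.eq h4 h2 (e ▸ hc3) hc1)) e5.symm e8
    (fun e => e6 (hP.eq h4 h2 hx.2 (e ▸ hx.1))) ⟨b, hb.symm⟩ ⟨c, hc.symm⟩ ⟨b', hb'.symm⟩
    (inter_comm D₁ C₁ ▸ n1) ⟨d, hd3, hd1⟩

theorem split [Finite β] [Nonempty β] : Atom 𝒯 univ ∨ (∃ R, Atom 𝒯 R ∧ Atom 𝒯 Rᶜ) ∨
    ∃ D : Set β, D.Nonempty ∧ Dᶜ.Nonempty ∧ ∀ T, Atom 𝒯 T → T ⊆ D ∨ T ⊆ Dᶜ := by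
  obtain ⟨P, hP, hmin⟩ := exists_min_image {P | Prt 𝒯 P univ} ncard (toFinite _)
    (h.exists_prt (compl_empty (α := β) ▸ h.compl _ h.empty))
  obtain ⟨R, hR, a0, ha0⟩ : ∃ R ∈ P, R.Nonempty := by
    obtain ⟨R, hR, ha⟩ := hP.row (Classical.arbitrary β)
    exact ⟨R, hR, _, ha⟩
  by_cases hc : ∀ T, Atom 𝒯 T → T ⊆ R ∨ T ⊆ Rᶜ
  · rcases Rᶜ.eq_empty_or_nonempty with h1 | h1
    · exact Or.inl (compl_empty_iff.mp h1 ▸ hP.atom R hR)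
    · exact Or.inr (Or.inr ⟨R, ⟨a0, ha0⟩, h1, hc⟩)
  right
  simp only [not_forall, not_or, not_subset, mem_compl_iff, not_not] at hc
  obtain ⟨C, hC, ⟨c', hc1, hc2⟩, c, hc3, hc4⟩ := hc
  obtain ⟨R', hR', hc5⟩ := hP.row c'
  have e1 : R ≠ R' := fun e => hc2 (e ▸ hc5)
  rcases (R ∪ R')ᶜ.eq_empty_or_nonempty with h1 | h1
  · refine Or.inl ⟨R, hP.atom R hR, ?_⟩
    rw [(IsCompl.mk (hP.disj _ hR _ hR' e1)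
      (codisjoint_iff.mpr (compl_empty_iff.mp h1))).compl_eq]
    exact hP.atom _ hR'
  refine Or.inr ⟨R ∪ R', ⟨a0, Or.inl ha0⟩, h1, fun T hT => by_contra fun hc => ?_⟩
  simp only [not_or, not_subset, mem_compl_iff, not_not] at hc
  obtain ⟨⟨t', ht1, ht2⟩, t, ht3, ht4⟩ := hc
  obtain ⟨R'', hR'', ht5⟩ := hP.row t'
  have e2 : R ≠ R'' := fun e => ht2 (Or.inl (e ▸ ht5))
  have e3 : R' ≠ R'' := fun e => ht2 (Or.inr (e ▸ ht5))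
  rcases ht4 with ht4 | ht4
  · exact h.matching hP hmin hC hT hR hR' hR'' e1 e2 e3 ⟨c, hc4, hc3⟩ ⟨c', hc5, hc1⟩
      ⟨t, ht4, ht3⟩ ⟨t', ht5, ht1⟩
  · exact h.matching hP hmin hC hT hR' hR hR'' e1.symm e3 e2 ⟨c', hc5, hc1⟩ ⟨c, hc4, hc3⟩
      ⟨t, ht4, ht3⟩ ⟨t', ht5, ht1⟩

theorem adj_core {R S : Set β} (hR : Atom 𝒯 R) (hR' : Atom 𝒯 Rᶜ) (hS : S ∈ 𝒯) (h0 : S.Nonempty)
    (h1 : Sᶜ.Nonempty) (hA : ¬Atom 𝒯 S) : Adj 𝒯 R S := by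
  refine ⟨fun e => hA (e ▸ hR), fun T hT h2 h3 => ?_⟩
  obtain ⟨S₁, s1, S₂, s2, n1, n2, hd, rfl⟩ := h.not_atom hS h0 hA
  have aux : ∀ S₁ ∈ 𝒯, ∀ S₂ ∈ 𝒯, S₁.Nonempty → S₂.Nonempty → Disjoint S₁ S₂ →
      (S₁ ∪ S₂)ᶜ.Nonempty → ¬S₁ ⊆ R := fun S₁ s1 S₂ s2 n1 n2 hd h1 hs => by
    obtain rfl := (hR.2.2 _ s1 hs).resolve_left n1.ne_empty
    obtain rfl := (hR'.2.2 _ s2 hd.subset_compl_left).resolve_left n2.ne_empty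
    simp at h1
  obtain ⟨b₁, hb1, hb2⟩ := not_subset.mp (aux _ s1 _ s2 n1 n2 hd h1)
  obtain ⟨b₂, hb3, hb4⟩ := not_subset.mp (aux _ s2 _ s1 n2 n1 hd.symm (union_comm S₁ S₂ ▸ h1))
  have key : ∀ x ∈ S₁, x ∉ R → ∀ y ∈ S₂, y ∉ R → (x ∈ T ↔ y ∈ T) ∧ (R ∩ (S₁ ∪ S₂)).Nonempty := by
    intro x hx hx' y hy hy'
    have d1 := disjoint_left.mp hd hx
    have d2 := disjoint_right.mp hd hy
    obtain ⟨α, hα, α', hα', h4⟩ := h.par _ hR' x hx' y hy' fun e => d1 (e ▸ hy)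
    have t1 : α ∈ R ∩ (S₁ ∪ S₂) :=
      ⟨not_not.mp hα, Or.inr (((h4 _ s2).2.mpr (Or.inl hy)).resolve_left d1)⟩
    have t2 : α' ∈ T :=
      h2 ⟨not_not.mp hα', Or.inl (((h4 _ s1).2.mp (Or.inl hx)).resolve_left d2)⟩
    exact ⟨by simpa [h2 t1, t2] using (h4 T hT).1, α, t1⟩
  obtain ⟨α, hα⟩ := (key b₁ hb1 hb2 b₂ hb3 hb4).2
  have hc : ∀ x ∈ S₁ ∪ S₂, x ∉ R → (x ∈ T ↔ b₁ ∈ T) := by
    rintro x (hx | hx) hx'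
    · exact (key x hx hx' b₂ hb3 hb4).1.trans (key b₁ hb1 hb2 b₂ hb3 hb4).1.symm
    · exact (key b₁ hb1 hb2 x hx hx').1.symm
  by_cases hb : b₁ ∈ T
  · have h4 : S₁ ∪ S₂ ⊆ T := fun x hx => by
      by_cases hx' : x ∈ R
      exacts [h2 ⟨hx', hx⟩, (hc x hx hx').mpr hb]
    rcases hR.2.2 _ (h.diff hS hT h4) (fun x hx => (h3 hx.1).resolve_right hx.2) with h5 | h5
    · exact Or.inr ((sdiff_eq_empty.mp h5).antisymm h4)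
    · exact absurd hα.2 (h5 ▸ hα.1 : α ∈ T \ (S₁ ∪ S₂)).2
  · refine Or.inl ((hR.2.2 T hT fun x hx => by_contra fun hx' =>
      hb ((hc x ((h3 hx).resolve_left hx') hx').mp hx)).resolve_left
      (Nonempty.ne_empty ⟨α, h2 hα⟩))

theorem adj_compl {R S : Set β} (hA : Adj 𝒯 R S) : Adj 𝒯 Rᶜ Sᶜ := by
  refine ⟨fun e => hA.1 (compl_injective e), fun T hT h1 h2 => ?_⟩
  rw [← compl_union, compl_subset_comm] at h1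
  rw [← compl_inter, subset_compl_comm] at h2
  rcases hA.2 _ (h.compl T hT) h2 h1 with rfl | rfl <;> simp

theorem adj {R S : Set β} (hR : Atom 𝒯 R) (hR' : Atom 𝒯 Rᶜ) (hS : S ∈ 𝒯) (h0 : S.Nonempty)
    (h1 : Sᶜ.Nonempty) (hA : ¬(Atom 𝒯 S ∧ Atom 𝒯 Sᶜ)) : Adj 𝒯 R S := by
  rcases not_and_or.mp hA with hA | hA
  · exact h.adj_core hR hR' hS h0 h1 hA
  · simpa using h.adj_compl
      (h.adj_core hR' (by simpa using hR) (h.compl S hS) h1 (by simpa using h0) hA)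

end Dyn

end Vale.Agent.P248
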