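import Vale.Agent.P248.Poly
import Vale.Agent.P248.Dynkin

/-! One of the two dual polytopes splits as a product. -/

namespace Vale.Agent.P248

open Function Set
open scoped Matrix

variable {n : ℕ}

/-- the vertices of the dual facet. -/
abbrev BB (E : Set (Fin n → ℝ)) (x : Fin n → ℝ) : Type := {a : Fin n → ℝ // a ∈ E ∧ a ⬝ᵥ x = 1}

/-- the set attached to a vertex. -/
def TT (E : Set (Fin n → ℝ)) (x w : Fin n → ℝ) : Set (BB E x) := {a | a.1 ⬝ᵥ w = -1}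

/-- edges. -/
def Edge (V E : Set (Fin n → ℝ)) (v w : Fin n → ℝ) : Prop :=
  v ≠ w ∧ ∀ u ∈ V, (∀ e ∈ E, e ⬝ᵥ v = e ⬝ᵥ w → e ⬝ᵥ u = e ⬝ᵥ v) → u = v ∨ u = w

/-- the functionals split along a direct sum. -/
def Splits (E : Set (Fin n → ℝ)) : Prop :=
  ∃ X Y : Submodule ℝ (Fin n → ℝ), IsCompl X Y ∧ X ≠ ⊥ ∧ Y ≠ ⊥ ∧
    ∀ e ∈ E, (∀ y ∈ X, e ⬝ᵥ y = 0) ∨ ∀ y ∈ Y, e ⬝ᵥ y = 0

theorem atom_iff_adj {β : Type*} {𝒯 : Set (Set β)} {T : Set β} (hT : T ∈ 𝒯) :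
    Atom 𝒯 T ↔ Adj 𝒯 ∅ T := by
  simp [Atom, Adj, hT, nonempty_iff_ne_empty, eq_comm]

namespace Pair

variable {V E : Set (Fin n → ℝ)} (h : Pair V E)
include h

theorem neg {v : Fin n → ℝ} (hv : v ∈ V) : -v ∈ V := h.clos _ fun e he => by
  rcases h.pair v hv e he with h1 | h1 <;> simp [h1]

theorem le {v e : Fin n → ℝ} (hv : v ∈ V) (he : e ∈ E) : e ⬝ᵥ v ≤ 1 := by
  rcases h.pair v hv e he with h1 | h1 <;> linarith

theorem eq_top {X : Submodule ℝ (Fin n → ℝ)} (hX : ∀ e ∈ E, e ∈ X) : X = ⊤ := by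
  by_contra hne
  obtain ⟨f, hf, h1⟩ := X.exists_le_ker_of_lt_top (lt_top_iff_ne_top.mpr hne)
  have e : ∀ z, z ⬝ᵥ (fun i => f (Pi.single i 1)) = f z := fun z => by
    conv_rhs => rw [pi_eq_sum_univ' z]
    simp [dotProduct]
  have := h.sep _ fun a ha => (e a).trans (h1 (hX a ha))
  exact hf (LinearMap.ext fun z => by rw [← e, this]; simp)

theorem notMem_TT {x w : Fin n → ℝ} (hw : w ∈ V) {a : BB E x} : a ∉ TT E x w ↔ a.1 ⬝ᵥ w = 1 :=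
  ⟨fun h1 => (h.pair w hw _ a.2.1).resolve_right h1, fun h1 h2 => by
    have := h1.symm.trans h2; norm_num at this⟩

theorem TT_neg {x w : Fin n → ℝ} (hw : w ∈ V) : TT E x (-w) = (TT E x w)ᶜ := by
  ext a
  rw [mem_compl_iff, h.notMem_TT hw]
  simp [TT]

variable (h' : Pair E V)
include h'

theorem par {v w a a' : Fin n → ℝ} (hv : v ∈ V) (hw : w ∈ V) (hvw : Edge V E v w) (ha : a ∈ E)
    (ha' : a' ∈ E) (h1 : a ⬝ᵥ v = 1) (h2 : a' ⬝ᵥ v = 1) (h3 : a ⬝ᵥ w = -1) (h4 : a' ⬝ᵥ w = -1)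
    (hne : a ≠ a') : ∃ b ∈ E, ∃ b' ∈ E, b ⬝ᵥ v = 1 ∧ b ⬝ᵥ w = 1 ∧ b' ⬝ᵥ v = 1 ∧ b' ⬝ᵥ w = 1 ∧
      a + b = a' + b' := by
  have hu : ∀ z, ((1 / 2 : ℝ) • (a - a')) ⬝ᵥ z = (a ⬝ᵥ z - a' ⬝ᵥ z) / 2 := fun z => by
    rw [smul_dotProduct, sub_dotProduct, smul_eq_mul]; ring
  have hu1 : ∀ z ∈ V, ((1 / 2 : ℝ) • (a - a')) ⬝ᵥ z ≤ 1 := fun z hz => by
    have := h.le (h.neg hz) ha'
    rw [dotProduct_neg] at this
    linarith [hu z, h.le hz ha]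
  obtain ⟨y, y1, y2, y3⟩ := h.mid v hv w hw _ hu1
  have hp : ∀ e : Fin n → ℝ, e ⬝ᵥ ((1 / 2 : ℝ) • (v + w) + y) =
      (e ⬝ᵥ v + e ⬝ᵥ w) / 2 + e ⬝ᵥ y := fun e => by
    rw [dotProduct_add, dotProduct_smul, dotProduct_add, smul_eq_mul]; ring
  have p1 : (1 / 2 : ℝ) • (v + w) + y ∈ convexHull ℝ V := h.hull _ fun e he => by
    rw [hp]
    by_cases e1 : e ⬝ᵥ v = e ⬝ᵥ w
    · linarith [y1 e he e1, h.le hv he]
    · have := (abs_le.mp (y2 e he)).2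
      rcases h.pair v hv e he with h5 | h5 <;> rcases h.pair w hw e he with h6 | h6 <;>
        first | linarith | exact absurd (h5.trans h6.symm) e1
  have p2 := mem_convexHull_face (Z := {e ∈ E | e ⬝ᵥ v = 1 ∧ e ⬝ᵥ w = 1}) p1
    (fun s hs z hz => dotProduct_comm z s ▸ h.le hs hz.1) fun z hz => by
      rw [dotProduct_comm, hp, y1 z hz.1 (hz.2.1.trans hz.2.2.symm), hz.2.1, hz.2.2]; norm_num
  have p3 : ∀ s ∈ {s ∈ V | ∀ z ∈ {e ∈ E | e ⬝ᵥ v = 1 ∧ e ⬝ᵥ w = 1}, s ⬝ᵥ z = 1},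
      a ⬝ᵥ s = a' ⬝ᵥ s := fun s hs => by
    rcases hvw.2 s hs.1 (fun e he e1 => by
      rcases h.pair v hv e he with h5 | h5
      · rw [h5, dotProduct_comm]
        exact hs.2 e ⟨he, h5, e1 ▸ h5⟩
      · have := hs.2 (-e) ⟨h'.neg he, by simp [h5], by simp [← e1, h5]⟩
        rw [dotProduct_neg, dotProduct_comm] at this
        linarith) with rfl | rfl
    exacts [h1.trans h2.symm, h3.trans h4.symm]
  have p4 := dot_le_of_mem_convexHull (z := a - a') (c := 0) p2 fun s hs => by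
    rw [dotProduct_comm, sub_dotProduct, p3 s hs, sub_self]
  have p5 := dot_le_of_mem_convexHull (z := a' - a) (c := 0) p2 fun s hs => by
    rw [dotProduct_comm, sub_dotProduct, p3 s hs, sub_self]
  rw [dotProduct_comm, sub_dotProduct, hp, hp] at p4 p5
  have p6 := mem_convexHull_face (Z := {z ∈ V | a ⬝ᵥ z = 1 ∧ a' ⬝ᵥ z = -1})
    (y3 (by rw [hu]; linarith)) (by
      rintro s (rfl | hs) z hz
      · simp
      · exact h.le hz.1 hs.1) fun z hz => by rw [hu, hz.2.1, hz.2.2]; norm_num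
  have hZ : ∀ z ∈ V, a ⬝ᵥ z ≠ a' ⬝ᵥ z → ∀ s : Fin n → ℝ,
      (∀ z ∈ {z ∈ V | a ⬝ᵥ z = 1 ∧ a' ⬝ᵥ z = -1}, s ⬝ᵥ z = 1) →
      s ⬝ᵥ z = a ⬝ᵥ z := fun z hz e1 s hs => by
    rcases h.pair z hz a ha with h5 | h5 <;> rcases h.pair z hz a' ha' with h6 | h6
    · exact absurd (h5.trans h6.symm) e1
    · rw [h5, hs z ⟨hz, h5, h6⟩]
    · have := hs (-z) ⟨h.neg hz, by simp [h5], by simp [h6]⟩
      rw [dotProduct_neg] at this
      linarith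
    · exact absurd (h5.trans h6.symm) e1
  obtain ⟨z0, hz0, e0⟩ : ∃ z ∈ V, a ⬝ᵥ z ≠ a' ⬝ᵥ z := by
    by_contra! hc
    exact hne (sub_eq_zero.mp (h'.sep _ fun z hz => by
      rw [dotProduct_comm, sub_dotProduct, hc z hz, sub_self]))
  obtain ⟨b', hb1, hb2⟩ : ∃ s ∈ {s ∈ insert 0 {e ∈ E | e ⬝ᵥ v = e ⬝ᵥ w} |
      ∀ z ∈ {z ∈ V | a ⬝ᵥ z = 1 ∧ a' ⬝ᵥ z = -1}, s ⬝ᵥ z = 1}, ¬s ⬝ᵥ v ≤ -1 := by
    by_contra! hc
    have := dot_le_of_mem_convexHull p6 hc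
    rw [hu] at this
    linarith
  have hb3 : b' ∈ E ∧ b' ⬝ᵥ v = b' ⬝ᵥ w := hb1.1.resolve_left fun e => by
    have := hZ z0 hz0 e0 b' hb1.2
    rw [e, zero_dotProduct] at this
    rcases h.pair z0 hz0 a ha with h5 | h5 <;> linarith
  have hb4 : b' ⬝ᵥ v = 1 := (h.pair v hv b' hb3.1).resolve_right fun e => hb2 e.le
  refine ⟨a' + b' - a, h'.clos _ fun z hz => ?_, b', hb3.1, ?_, ?_, hb4, hb3.2 ▸ hb4, by abel⟩
  · rw [dotProduct_comm, sub_dotProduct, add_dotProduct]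
    by_cases e1 : a ⬝ᵥ z = a' ⬝ᵥ z
    · simpa [e1] using h.pair z hz b' hb3.1
    · simpa [hZ z hz e1 b' hb1.2] using h.pair z hz a' ha'
  · rw [sub_dotProduct, add_dotProduct]; linarith
  · rw [sub_dotProduct, add_dotProduct]; linarith [hb3.2]

variable {x : Fin n → ℝ} (hx : x ∈ V)
include hx

theorem exists_BB {e : Fin n → ℝ} (he : e ∈ E) : ∃ a : BB E x, e = a.1 ∨ e = -a.1 := by
  rcases h.pair x hx e he with h1 | h1
  exacts [⟨⟨e, he, h1⟩, Or.inl rfl⟩, ⟨⟨-e, h'.neg he, by simp [h1]⟩, Or.inr (neg_neg e).symm⟩]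

theorem clos_BB {w : Fin n → ℝ} (hw : ∀ a : BB E x, a.1 ⬝ᵥ w = 1 ∨ a.1 ⬝ᵥ w = -1) : w ∈ V :=
  h.clos w fun e he => by
    obtain ⟨a, rfl | rfl⟩ := h.exists_BB h' hx he
    · exact hw a
    · rcases hw a with h1 | h1 <;> simp [h1]

theorem sep_BB {w : Fin n → ℝ} (hw : ∀ a : BB E x, a.1 ⬝ᵥ w = 0) : w = 0 :=
  h.sep w fun e he => by
    obtain ⟨a, rfl | rfl⟩ := h.exists_BB h' hx he <;> simp [hw a]

theorem TT_inj {w z : Fin n → ℝ} (hw : w ∈ V) (hz : z ∈ V) (e : TT E x w = TT E x z) : w = z :=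
  sub_eq_zero.mp (h.sep_BB h' hx fun a => by
    rw [dotProduct_sub, sub_eq_zero]
    by_cases ha : a ∈ TT E x w
    · exact ha.trans (e ▸ ha : a ∈ TT E x z).symm
    · exact ((h.notMem_TT hw).mp ha).trans ((h.notMem_TT hz).mp (e ▸ ha)).symm)

theorem adj_iff {w z : Fin n → ℝ} (hw : w ∈ V) (hz : z ∈ V) :
    Adj (TT E x '' V) (TT E x w) (TT E x z) ↔ Edge V E w z := by
  have key : ∀ u ∈ V, (∀ e ∈ E, e ⬝ᵥ w = e ⬝ᵥ z → e ⬝ᵥ u = e ⬝ᵥ w) ↔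
      TT E x w ∩ TT E x z ⊆ TT E x u ∧ TT E x u ⊆ TT E x w ∪ TT E x z := fun u hu => by
    constructor
    · refine fun h1 => ⟨fun a ha => (h1 _ a.2.1 (ha.1.trans ha.2.symm)).trans ha.1,
        fun a ha => by_contra fun h2 => ?_⟩
      have h3 := (h.notMem_TT hw).mp fun h3 => h2 (Or.inl h3)
      have h4 := (h.notMem_TT hz).mp fun h3 => h2 (Or.inr h3)
      exact (h.notMem_TT hu).mpr ((h1 _ a.2.1 (h3.trans h4.symm)).trans h3) ha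
    · rintro ⟨h1, h2⟩ e he
      have : ∀ a : BB E x, a.1 ⬝ᵥ w = a.1 ⬝ᵥ z → a.1 ⬝ᵥ u = a.1 ⬝ᵥ w := fun a e1 => by
        rcases h.pair w hw _ a.2.1 with h3 | h3
        · exact ((h.notMem_TT hu).mp fun h4 => (h2 h4).elim ((h.notMem_TT hw).mpr h3)
            ((h.notMem_TT hz).mpr (e1.symm.trans h3))).trans h3.symm
        · exact (h1 ⟨h3, e1.symm.trans h3⟩).trans h3.symm
      obtain ⟨a, rfl | rfl⟩ := h.exists_BB h' hx he
      · exact this a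
      · simpa using this a
  refine and_congr (not_congr ⟨h.TT_inj h' hx hw hz, congrArg _⟩) ?_
  rw [forall_mem_image]
  refine forall₂_congr fun u hu => ?_
  rw [key u hu, and_imp]
  exact imp_congr_right fun _ => imp_congr_right fun _ => or_congr
    ⟨h.TT_inj h' hx hu hw, congrArg _⟩ ⟨h.TT_inj h' hx hu hz, congrArg _⟩

omit h h' hx in
theorem TT_self : TT E x x = ∅ := eq_empty_of_forall_notMem fun a ha => by
  have := a.2.2.symm.trans ha; norm_num at this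

theorem atom_iff {w : Fin n → ℝ} (hw : w ∈ V) : Atom (TT E x '' V) (TT E x w) ↔ Edge V E x w := by
  rw [atom_iff_adj (mem_image_of_mem _ hw), ← h.adj_iff h' hx hx hw, TT_self]

theorem dyn : Dyn (TT E x '' V) where
  empty := ⟨x, hx, TT_self⟩
  compl := by
    rintro _ ⟨w, hw, rfl⟩
    exact ⟨-w, h.neg hw, h.TT_neg hw⟩
  union := by
    rintro _ ⟨w, hw, rfl⟩ _ ⟨z, hz, rfl⟩ hd
    have key : ∀ a : BB E x, (a.1 ⬝ᵥ (w + z - x) = 1 ∧ a ∉ TT E x w ∪ TT E x z) ∨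
        (a.1 ⬝ᵥ (w + z - x) = -1 ∧ a ∈ TT E x w ∪ TT E x z) := fun a => by
      rw [dotProduct_sub, dotProduct_add, a.2.2]
      rcases h.pair w hw _ a.2.1 with h1 | h1 <;> rcases h.pair z hz _ a.2.1 with h2 | h2
      · exact Or.inl ⟨by linarith, fun h3 => h3.elim ((h.notMem_TT hw).mpr h1)
          ((h.notMem_TT hz).mpr h2)⟩
      · exact Or.inr ⟨by linarith, Or.inr h2⟩
      · exact Or.inr ⟨by linarith, Or.inl h1⟩
      · exact absurd h2 (disjoint_left.mp hd h1)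
    have hm := h.clos_BB h' hx fun a => (key a).imp And.left And.left
    refine ⟨_, hm, Set.ext fun a => ?_⟩
    rcases key a with h1 | h1
    · exact iff_of_false ((h.notMem_TT hm).mpr h1.1) h1.2
    · exact iff_of_true h1.1 h1.2
  par := by
    intro T hT a ha a' ha' hne
    obtain ⟨w, hw, rfl⟩ := hT.1
    obtain ⟨b, hb, b', hb', h1, h2, h3, h4, h5⟩ := h.par h' hx hw ((h.atom_iff h' hx hw).mp hT)
      a.2.1 a'.2.1 a.2.2 a'.2.2 ha ha' fun e => hne (Subtype.ext e)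
    refine ⟨⟨b, hb, h1⟩, (h.notMem_TT hw).mpr h2, ⟨b', hb', h3⟩, (h.notMem_TT hw).mpr h4, ?_⟩
    rintro _ ⟨z, hz, rfl⟩
    have h6 := congrArg (· ⬝ᵥ z) h5
    simp only [add_dotProduct] at h6
    simp only [TT, mem_ofPred_eq]
    rcases h.pair z hz _ a.2.1 with e1 | e1 <;> rcases h.pair z hz _ a'.2.1 with e2 | e2 <;>
      rcases h.pair z hz _ hb with e3 | e3 <;> rcases h.pair z hz _ hb' with e4 | e4 <;>
      first | (exfalso; linarith) | (rw [e1, e2, e3, e4]; norm_num)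
  ex := by
    rintro _ ⟨r, hr, rfl⟩ _ ⟨r₁, hr₁, rfl⟩ _ ⟨r₂, hr₂, rfl⟩ _ ⟨c, hc, rfl⟩ _ ⟨c₁, hc₁, rfl⟩
      _ ⟨c₂, hc₂, rfl⟩ d1 d2 d3 d4 d5 d6 a₁ ha₁ a₂ ha₂ b₁ hb₁ b₂ hb₂ a f1 f2
    have hu : ∀ z, ((1 / 2 : ℝ) • (a₁.1 + b₁.1 - a₂.1 - b₂.1)) ⬝ᵥ z =
        (a₁.1 ⬝ᵥ z + b₁.1 ⬝ᵥ z - a₂.1 ⬝ᵥ z - b₂.1 ⬝ᵥ z) / 2 := fun z => by
      simp only [smul_dotProduct, sub_dotProduct, add_dotProduct, smul_eq_mul]; ring
    have nm : ∀ {s t : Fin n → ℝ}, t ∈ V → Disjoint (TT E x s) (TT E x t) → ∀ {a : BB E x},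
        a ∈ TT E x s → a.1 ⬝ᵥ t = 1 := fun ht hd _ ha =>
      (h.notMem_TT ht).mp (disjoint_left.mp hd ha)
    obtain ⟨y, y1, -, y3⟩ := h.mid (-r) (h.neg hr) c hc _ fun z hz => by
      rw [hu]
      by_contra hlt
      have e1 : a₁.1 ⬝ᵥ z = 1 ∧ b₁.1 ⬝ᵥ z = 1 ∧ a₂.1 ⬝ᵥ z = -1 ∧ b₂.1 ⬝ᵥ z = -1 := by
        rcases h.pair z hz _ a₁.2.1 with e1 | e1 <;> rcases h.pair z hz _ a₂.2.1 with e2 | e2 <;>
          rcases h.pair z hz _ b₁.2.1 with e3 | e3 <;> rcases h.pair z hz _ b₂.2.1 with e4 | e4 <;>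
          first | exact ⟨e1, e3, e2, e4⟩ | exact absurd (by linarith) hlt
      have e2 := f1 _ ⟨-z, h.neg hz, rfl⟩ (by simp [TT, e1.1]) (by simp [TT, e1.2.1])
      rw [h.TT_neg hz] at e2
      exact e2 (f2 _ ⟨z, hz, rfl⟩ e1.2.2.1 e1.2.2.2)
    have ya : ∀ a : BB E x, a ∈ TT E x r → a.1 ⬝ᵥ c = 1 → a.1 ⬝ᵥ y = 0 := fun a h1 h2 =>
      y1 _ a.2.1 (by rw [dotProduct_neg, h2, show a.1 ⬝ᵥ r = -1 from h1, neg_neg])
    have yb : ∀ a : BB E x, a ∈ TT E x c → a.1 ⬝ᵥ r = 1 → a.1 ⬝ᵥ y = 0 := fun a h1 h2 =>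
      y1 _ a.2.1 (by rw [dotProduct_neg, h2, show a.1 ⬝ᵥ c = -1 from h1])
    have hz : ∀ e : Fin n → ℝ, e ⬝ᵥ (c₂ - c₁ + r₂ - r₁) =
        e ⬝ᵥ c₂ - e ⬝ᵥ c₁ + e ⬝ᵥ r₂ - e ⬝ᵥ r₁ := fun e => by
      simp only [dotProduct_sub, dotProduct_add]
    have key := dot_le_of_mem_convexHull (z := c₂ - c₁ + r₂ - r₁) (c := 2) (y3 (by
      rw [hu, ya a₁ ha₁.1 (nm hc d4.symm ha₁.2), ya a₂ ha₂.1 (nm hc d5.symm ha₂.2),
        yb b₁ hb₁.2 (nm hr d1.symm hb₁.1), yb b₂ hb₂.2 (nm hr d2.symm hb₂.1)]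
      norm_num)) (by
      have : ∀ a : BB E x, a.1 ⬝ᵥ (-r) = a.1 ⬝ᵥ c → |a.1 ⬝ᵥ (c₂ - c₁ + r₂ - r₁)| ≤ 2 :=
        fun a e1 => by
          rw [hz, abs_le]
          by_cases h1 : a ∈ TT E x r
          · rw [nm hr₁ d1 h1, nm hr₂ d2 h1]
            rcases h.pair c₁ hc₁ _ a.2.1 with e2 | e2 <;>
              rcases h.pair c₂ hc₂ _ a.2.1 with e3 | e3 <;> constructor <;> linarith
          · have h2 : a ∈ TT E x c := by
              rw [dotProduct_neg, (h.notMem_TT hr).mp h1] at e1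
              exact e1.symm
            rw [nm hc₁ d4 h2, nm hc₂ d5 h2]
            rcases h.pair r₁ hr₁ _ a.2.1 with e2 | e2 <;>
              rcases h.pair r₂ hr₂ _ a.2.1 with e3 | e3 <;> constructor <;> linarith
      rintro s (rfl | ⟨hs, hs'⟩)
      · simp
      obtain ⟨a, rfl | rfl⟩ := h.exists_BB h' hx hs
      · exact (le_abs_self _).trans (this a hs')
      · rw [neg_dotProduct]
        exact (neg_le_abs _).trans (this a (by simpa [neg_eq_iff_eq_neg] using hs')))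
    rw [hu, hz, hz, hz, hz, nm hc₂ d6 ha₁.2, show a₁.1 ⬝ᵥ c₁ = -1 from ha₁.2, nm hr₂ d2 ha₁.1,
      nm hr₁ d1 ha₁.1, nm hc₂ d5 hb₁.2, nm hc₁ d4 hb₁.2, nm hr₂ d3 hb₁.1,
      show b₁.1 ⬝ᵥ r₁ = -1 from hb₁.1, show a₂.1 ⬝ᵥ c₂ = -1 from ha₂.2, nm hc₁ d6.symm ha₂.2,
      nm hr₂ d2 ha₂.1, nm hr₁ d1 ha₂.1, nm hc₂ d5 hb₂.2, nm hc₁ d4 hb₂.2,
      show b₂.1 ⬝ᵥ r₂ = -1 from hb₂.1, nm hr₁ d3.symm hb₂.1] at key
    norm_num at key

omit h hx in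
theorem finite_BB : Finite (BB E x) :=
  (h'.fin.subset (sep_subset _ _) : {a ∈ E | a ⬝ᵥ x = 1}.Finite)

theorem splits {D : Set (BB E x)} (h0 : D.Nonempty) (h1 : Dᶜ.Nonempty)
    (hD : ∀ T, Atom (TT E x '' V) T → T ⊆ D ∨ T ⊆ Dᶜ) : Splits E := by
  have := h'.finite_BB (x := x)
  have hd := h.dyn h' hx
  let X : Set (BB E x) → Submodule ℝ (Fin n → ℝ) := fun D =>
    { carrier := {y | ∀ a ∈ D, a.1 ⬝ᵥ y = 0}
      add_mem' := fun hy hz a ha => by rw [dotProduct_add, hy a ha, hz a ha, add_zero]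
      zero_mem' := fun a _ => dotProduct_zero _
      smul_mem' := fun c y hy a ha => by rw [dotProduct_smul, hy a ha, smul_zero] }
  obtain ⟨d, hd1, hd2⟩ := hd.inter_mem hD (compl_empty (α := BB E x) ▸ hd.compl _ hd.empty)
  rw [univ_inter] at hd2
  have v1 : ∀ a ∈ D, a.1 ⬝ᵥ d = -1 := fun a ha => (hd2.symm ▸ ha : a ∈ TT E x d)
  have v2 : ∀ a ∈ Dᶜ, a.1 ⬝ᵥ d = 1 := fun a ha => (h.notMem_TT hd1).mp (hd2.symm ▸ ha)
  refine ⟨X D, X Dᶜ, ⟨Submodule.disjoint_def.mpr fun y hy hy' => h.sep_BB h' hx fun a => ?_,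
    codisjoint_iff.mpr (h'.eq_top fun w hw => ?_)⟩, ?_, ?_, fun e he => ?_⟩
  · by_cases ha : a ∈ D
    exacts [hy a ha, hy' a ha]
  · obtain ⟨z, hz1, hz2⟩ := hd.inter_mem hD ⟨w, hw, rfl⟩
    refine Submodule.mem_sup.mpr ⟨w - (z - (1 / 2 : ℝ) • (x + d)), fun a ha => ?_,
      z - (1 / 2 : ℝ) • (x + d), fun a ha => ?_, by abel⟩
    · simp only [dotProduct_sub, dotProduct_smul, dotProduct_add, a.2.2, v1 a ha]
      by_cases h2 : a ∈ TT E x w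
      · rw [show a.1 ⬝ᵥ w = -1 from h2, show a.1 ⬝ᵥ z = -1 from
          (hz2.symm ▸ ⟨h2, ha⟩ : a ∈ TT E x z)]
        simp
      · rw [(h.notMem_TT hw).mp h2, (h.notMem_TT hz1).mp fun h3 => h2 (hz2 ▸ h3).1]
        simp
    · simp only [dotProduct_sub, dotProduct_smul, dotProduct_add, a.2.2, v2 a ha]
      rw [(h.notMem_TT hz1).mp fun h3 => ha (hz2 ▸ h3).2]
      norm_num
  · obtain ⟨a, ha⟩ := h1
    refine (Submodule.ne_bot_iff _).mpr ⟨x + d, fun a ha => ?_, fun e => ?_⟩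
    · rw [dotProduct_add, a.2.2, v1 a ha]; norm_num
    · have := congrArg (a.1 ⬝ᵥ ·) e
      simp only [dotProduct_add, a.2.2, v2 a ha, dotProduct_zero] at this
      norm_num at this
  · obtain ⟨a, ha⟩ := h0
    refine (Submodule.ne_bot_iff _).mpr ⟨x - d, fun a ha => ?_, fun e => ?_⟩
    · rw [dotProduct_sub, a.2.2, v2 a ha]; norm_num
    · have := congrArg (a.1 ⬝ᵥ ·) e
      simp only [dotProduct_sub, a.2.2, v1 a ha, dotProduct_zero] at this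
      norm_num at this
  · obtain ⟨a, rfl | rfl⟩ := h.exists_BB h' hx he <;> by_cases ha : a ∈ D
    · exact Or.inl fun y hy => hy a ha
    · exact Or.inr fun y hy => hy a ha
    · exact Or.inl fun y hy => by rw [neg_dotProduct, hy a ha, neg_zero]
    · exact Or.inr fun y hy => by rw [neg_dotProduct, hy a ha, neg_zero]

theorem edge_trans {v z : Fin n → ℝ} (hv : v ∈ V) (hz : z ∈ V)
    (h1 : Edge V E x v ∧ Edge V E x (-v)) (h2 : ¬(Edge V E x z ∧ Edge V E x (-z))) :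
    Edge V E (-v) z := by
  rw [← h.atom_iff h' hx hv, ← h.atom_iff h' hx (h.neg hv), h.TT_neg hv] at h1
  rw [← h.atom_iff h' hx hz, ← h.atom_iff h' hx (h.neg hz), h.TT_neg hz] at h2
  rw [← h.adj_iff h' hx (h.neg hv) hz, h.TT_neg hv]
  have hd := h.dyn h' hx
  have comm : ∀ R S : Set (BB E x), Adj (TT E x '' V) R S → Adj (TT E x '' V) S R :=
    fun R S h3 => ⟨h3.1.symm, fun T hT h4 h5 =>
      (h3.2 T hT (inter_comm S R ▸ h4) (union_comm S R ▸ h5)).symm⟩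
  rcases (TT E x z).eq_empty_or_nonempty with h3 | h3
  · rw [h3]
    exact comm _ _ ((atom_iff_adj h1.2.1).mp h1.2)
  rcases (TT E x z)ᶜ.eq_empty_or_nonempty with h4 | h4
  · rw [compl_empty_iff.mp h4, ← compl_empty]
    exact hd.adj_compl (comm _ _ ((atom_iff_adj h1.1.1).mp h1.1))
  · exact hd.adj h1.2 (by simpa using h1.1) ⟨z, hz, rfl⟩ h3 h4 h2

theorem dichotomy (hn : 2 ≤ n) : Splits E ∨ Splits V := by
  have := h'.finite_BB (x := x)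
  obtain ⟨a0, ha0⟩ : E.Nonempty := nonempty_iff_ne_empty.mpr fun e => by
    simpa using congrFun (h.sep 1 (by simp [e])) ⟨0, by omega⟩
  have : Nonempty (BB E x) := let ⟨a, _⟩ := h.exists_BB h' hx ha0; ⟨a⟩
  rcases (h.dyn h' hx).split with h1 | ⟨R, h1, h2⟩ | ⟨D, h1, h2, h3⟩
  · exfalso
    have h2 : Submodule.span ℝ {x} = ⊤ := h'.eq_top fun w hw => by
      rcases h1.2.2 _ ⟨w, hw, rfl⟩ (subset_univ _) with h3 | h3
      · rw [h.TT_inj h' hx hw hx (h3.trans TT_self.symm)]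
        exact Submodule.mem_span_singleton_self x
      · rw [h.TT_inj h' hx hw (h.neg hx) (by rw [h3, h.TT_neg hx, TT_self, compl_empty])]
        exact Submodule.neg_mem _ (Submodule.mem_span_singleton_self x)
    have h3 := finrank_span_le_card (R := ℝ) ({x} : Set (Fin n → ℝ))
    rw [h2, finrank_top, Module.finrank_fin_fun] at h3
    simp at h3
    omega
  · obtain ⟨w, hw, rfl⟩ := h1.1
    rw [← h.TT_neg hw, h.atom_iff h' hx (h.neg hw)] at h2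
    rw [h.atom_iff h' hx hw] at h1
    refine Or.inr (h'.splits h ha0 (D := {v | Edge V E x v.1 ∧ Edge V E x (-v.1)}) ?_ ?_
      fun T hT => by_contra fun hc => ?_)
    · obtain ⟨v, rfl | rfl⟩ := h'.exists_BB h ha0 hw
      exacts [⟨v, h1, h2⟩, ⟨v, neg_neg v.1 ▸ h2, h1⟩]
    · obtain ⟨v, e | e⟩ := h'.exists_BB h ha0 hx
      exacts [⟨v, fun h3 => h3.1.1 e⟩, ⟨v, fun h3 => h3.2.1 e⟩]
    simp only [not_or, not_subset, mem_compl_iff, not_not] at hc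
    obtain ⟨⟨z, hz1, hz2⟩, v, hv1, hv2⟩ := hc
    have h3 := h.edge_trans h' hx v.2.1 z.2.1 hv2 hz2
    obtain ⟨a1, ha1, rfl⟩ := hT.1
    obtain ⟨b, hb, b', hb', e1, e2, -, -, e5⟩ := h'.par h ha0 ha1 ((h'.atom_iff h ha0 ha1).mp hT)
      v.2.1 z.2.1 v.2.2 z.2.2 hv1 hz1 fun e => hz2 (Subtype.ext e ▸ hv2)
    rcases h3.2 b hb (fun e he e6 => by
      have e7 := congrArg (e ⬝ᵥ ·) e5
      simp only [dotProduct_add, dotProduct_neg] at e6 e7 ⊢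
      rcases h.pair _ v.2.1 e he with p1 | p1 <;> rcases h.pair _ hb e he with p2 | p2 <;>
        rcases h.pair _ hb' e he with p3 | p3 <;> linarith) with rfl | rfl
    · rw [neg_dotProduct, v.2.2] at e1
      norm_num at e1
    · have := e2.symm.trans hz1
      norm_num at this
  · exact Or.inl (h.splits h' hx h1 h2 h3)

end Pair

end Vale.Agent.P248
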