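import Mathlib

/-! Polar bodies and Hanner polytopes. -/

namespace Vale.Agent.P248

/-- The polar set of `K` with respect to the origin and the Euclidean inner product. -/
def polar {n : ℕ} (K : Set (Fin n → ℝ)) : Set (Fin n → ℝ) :=
  {y | ∀ x ∈ K, ∑ i, y i * x i ≤ 1}

/-- Hanner polytopes: segments, products and convex hulls of unions. -/
inductive IsHanner : (n : ℕ) → Set (Fin n → ℝ) → Prop
  | segment (a : ℝ) (ha : 0 < a) : IsHanner 1 {x | -a ≤ x 0 ∧ x 0 ≤ a}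
  | prod {k l : ℕ} {H₁ : Set (Fin k → ℝ)} {H₂ : Set (Fin l → ℝ)} :
      IsHanner k H₁ → IsHanner l H₂ →
      IsHanner (k + l) {z | ∃ x ∈ H₁, ∃ y ∈ H₂, z = Fin.append x y}
  | join {k l : ℕ} {H₁ : Set (Fin k → ℝ)} {H₂ : Set (Fin l → ℝ)} :
      IsHanner k H₁ → IsHanner l H₂ →
      IsHanner (k + l) (convexHull ℝ ({z | ∃ x ∈ H₁, z = Fin.append x (0 : Fin l → ℝ)} ∪
        {z | ∃ y ∈ H₂, z = Fin.append (0 : Fin k → ℝ) y}))

end Vale.Agent.P248
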