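import Vale.Agent.P248.Comb

/-! The case of equality. -/

namespace Vale.Agent.P248

open Function Set MeasureTheory Filter Topology Module
open scoped Matrix ENNReal

variable {n k : ℕ}

/-- linear images of Hanner polytopes. -/
def LinH (K : Set (Fin n → ℝ)) : Prop :=
  ∃ H, IsHanner n H ∧ ∃ T : (Fin n → ℝ) ≃ₗ[ℝ] (Fin n → ℝ), K = T '' H

theorem LinH.polar {K : Set (Fin n → ℝ)} (h : LinH K) : LinH (polar K) := by
  obtain ⟨H, hH, T, rfl⟩ := h
  obtain ⟨T', -, h2⟩ := exists_dual T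
  exact ⟨_, hH.spec.2.1, T', h2 H⟩

theorem LinH.mp_eq {K : Set (Fin n → ℝ)} (h : LinH K) : mp K = 4 ^ n := by
  obtain ⟨H, hH, T, rfl⟩ := h
  rw [mp_image, hH.spec.2.2]

theorem Body.preimage {K : Set (Fin n → ℝ)} (hK : Body K) {f : (Fin k → ℝ) →ₗ[ℝ] (Fin n → ℝ)}
    (hf : Injective f) : Body (f ⁻¹' K) where
  compact := (f.isClosedEmbedding_of_injective
    (LinearMap.ker_eq_bot.mpr hf)).isCompact_preimage hK.compact
  convex := hK.convex.linear_preimage f
  symm := fun x hx => by rw [mem_preimage, map_neg]; exact hK.symm _ hx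
  nhds := f.continuous_of_finiteDimensional.continuousAt.preimage_mem_nhds
    (by rw [map_zero]; exact hK.nhds)

theorem Body.linH_one {K : Set (Fin 1 → ℝ)} (hK : Body K) : LinH K := by
  obtain ⟨⟨x, hx, e⟩, h⟩ := hK.supp_spec 1
  obtain ⟨ρ, hρ, h1⟩ := hK.exists_single
  simp only [e, dotProduct, Fin.sum_univ_one, Pi.one_apply, one_mul] at h
  have ha : 0 < x 0 := hρ.trans_le (by simpa using h _ (h1 0))
  refine ⟨_, .segment _ ha, .refl _ _, ?_⟩
  refine Eq.trans ?_ (image_id _).symm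
  refine Subset.antisymm (fun z hz => ⟨neg_le.mp (h _ (hK.symm z hz)), h z hz⟩) fun z hz => ?_
  have := hK.convex hx (hK.symm x hx) (a := (1 + z 0 / x 0) / 2) (b := (1 - z 0 / x 0) / 2)
    (by have := (le_div_iff₀ ha).mpr (show -1 * x 0 ≤ z 0 by linarith [hz.1]); linarith)
    (by have := (div_le_one ha).mpr hz.2; linarith) (by ring)
  refine (congrArg (· ∈ K) (funext fun i => ?_)).mp this
  rw [Subsingleton.elim i 0]
  simp only [Pi.add_apply, Pi.smul_apply, Pi.neg_apply, smul_eq_mul]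
  field_simp
  ring

theorem Body.linH_of_splits
    (ih : ∀ m < n, 1 ≤ m → ∀ K : Set (Fin m → ℝ), Body K → mp K = 4 ^ m → LinH K)
    {K E : Set (Fin n → ℝ)} (hK : Body K) (h : mp K = 4 ^ n) (hE : P248.polar E = K)
    (hs : Splits E) : LinH K := by
  obtain ⟨X, Y, hc, hX, hY, hs⟩ := hs
  have hn := Submodule.finrank_add_eq_of_isCompl hc
  have hk := Nat.pos_of_ne_zero (mt Submodule.finrank_eq_zero.mp hX)
  have hl := Nat.pos_of_ne_zero (mt Submodule.finrank_eq_zero.mp hY)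
  have eX := (finBasis ℝ X).equivFun.symm
  have eY := (finBasis ℝ Y).equivFun.symm
  generalize finrank ℝ X = k at hn hk eX
  generalize finrank ℝ Y = l at hn hl eY
  rw [finrank_fin_fun] at hn
  subst hn
  have : NeZero k := ⟨hk.ne'⟩
  have : NeZero l := ⟨hl.ne'⟩
  have b1 := hK.preimage (f := X.subtype ∘ₗ eX.toLinearMap) (X.injective_subtype.comp eX.injective)
  have b2 := hK.preimage (f := Y.subtype ∘ₗ eY.toLinearMap) (Y.injective_subtype.comp eY.injective)
  let T := (app k l).symm ≪≫ₗ eX.prodCongr eY ≪≫ₗ X.prodEquivOfIsCompl Y hc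
  have hT : K = T '' prodS ((X.subtype ∘ₗ eX.toLinearMap) ⁻¹' K)
      ((Y.subtype ∘ₗ eY.toLinearMap) ⁻¹' K) := by
    ext z
    obtain ⟨z, rfl⟩ := T.surjective z
    obtain ⟨⟨u, v⟩, rfl⟩ := (app k l).surjective z
    have e : T (app k l (u, v)) = eX u + eY v := by simp [T]
    rw [T.injective.mem_set_image, app_mem_prodS, e]
    change _ ↔ (eX u : Fin (k + l) → ℝ) ∈ K ∧ (eY v : Fin (k + l) → ℝ) ∈ K
    simp only [← hE, mem_polar, ← forall_and, dotProduct_comm _ (_ : Fin (k + l) → ℝ)]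
    refine forall₂_congr fun e he => ?_
    rcases hs e he with h1 | h1
    · simp [h1 _ (eX u).2]
    · simp [h1 _ (eY v).2]
  rw [hT, mp_image, b1.mp_prod b2, pow_add] at h
  obtain ⟨H₁, p1, T₁, q1⟩ := ih k (by omega) hk _ b1 (le_antisymm ((ENNReal.mul_le_mul_iff_left
    (by simp) (by simp)).mp ((mul_le_mul_right b2.le_mp _).trans_eq h)) b1.le_mp)
  obtain ⟨H₂, p2, T₂, q2⟩ := ih l (by omega) hl _ b2 (le_antisymm ((ENNReal.mul_le_mul_iff_right
    (by simp) (by simp)).mp ((mul_le_mul_left b1.le_mp _).trans_eq h)) b2.le_mp)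
  refine ⟨_, .prod p1 p2, ((app k l).symm ≪≫ₗ T₁.prodCongr T₂ ≪≫ₗ app k l) ≪≫ₗ T, ?_⟩
  rw [hT, q1, q2, prodS_eq, prodS, prodS, prod_image_image_eq, image_image, image_image,
    image_image]
  exact image_congr fun p _ => by simp

theorem Body.linH : ∀ n, 1 ≤ n → ∀ K : Set (Fin n → ℝ), Body K → mp K = 4 ^ n → LinH K := by
  intro n
  induction n using Nat.strong_induction_on with | h n ih =>
  intro hn K hK h
  rcases hn.eq_or_lt with rfl | hn
  · exact hK.linH_one
  have : NeZero n := ⟨by omega⟩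
  obtain ⟨p1, e1⟩ := hK.pair h
  obtain ⟨p2, e2⟩ := hK.polar.pair (hK.mp_polar.trans h)
  rw [hK.bipolar] at p2 e2
  obtain ⟨x, hx⟩ := hK.compact.extremePoints_nonempty ⟨0, hK.zero_mem⟩
  rcases p1.dichotomy p2 hx hn with hs | hs
  · exact hK.linH_of_splits ih h e1 hs
  · exact hK.bipolar ▸ (hK.polar.linH_of_splits ih (hK.mp_polar.trans h) e2 hs).polar

end Vale.Agent.P248
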