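import Vale.Agent.P248.Limits

/-! From angles to volumes: vertices of the fibre polytopes and their normal simplices. -/

namespace Vale.Agent.P248

open Function Set MeasureTheory Filter Topology
open scoped Real Matrix ENNReal

variable {κ ι : Type*} [Fintype κ] [DecidableEq κ]

theorem volume_eq_zero_of_update {S : Set (κ → ℝ)} (hS : MeasurableSet S) (k : κ)
    (h : ∀ x, {s | update x k s ∈ S}.Subsingleton) : volume S = 0 := by
  rw [← lintegral_indicator_one hS, volume_pi, lintegral_eq_lmarginal_univ 0,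
    lmarginal_erase' _ (measurable_one.indicator hS) (Finset.mem_univ k)]
  have : (fun x : κ → ℝ => ∫⁻ s, S.indicator (1 : (κ → ℝ) → ℝ≥0∞) (update x k s)) = 0 := by
    funext x
    refine le_antisymm ((lintegral_indicator_one_le {s | update x k s ∈ S}).trans_eq
      ((h x).measure_zero _)) zero_le
  rw [this]
  simp [lmarginal]

theorem volume_hyperplane {a : κ → ℝ} {c : ℝ} (h : a ≠ 0 ∨ c ≠ 0) :
    volume {x : κ → ℝ | a ⬝ᵥ x = c} = 0 := by
  by_cases ha : a = 0
  · simp [ha, (h.resolve_left (not_not.mpr ha)).symm]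
  obtain ⟨k, hk⟩ := Function.ne_iff.mp ha
  refine volume_eq_zero_of_update (measurableSet_eq_fun (by unfold dotProduct; fun_prop)
    measurable_const) k fun x s hs s' hs' => ?_
  have : a ⬝ᵥ (update x k s - update x k s') = 0 := by
    rw [dotProduct_sub, sub_eq_zero]; exact hs.trans hs'.symm
  rw [← Function.update_sub, sub_self] at this
  change a ⬝ᵥ Pi.single k (s - s') = 0 at this
  rw [dotProduct_single] at this
  exact sub_eq_zero.mp ((mul_eq_zero.mp this).resolve_left hk)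

/-- a sign. -/
def sg (b : Bool) : ℝ := if b then 1 else -1

theorem abs_sg (b : Bool) : |sg b| = 1 := by cases b <;> simp [sg]

theorem sg_mul_sg (b : Bool) : sg b * sg b = 1 := by cases b <;> simp [sg]

theorem sg_injective : Injective sg := by
  intro b c h
  cases b <;> cases c <;> first | rfl | norm_num [sg] at h

/-- the standard full-dimensional simplex. -/
def Smp (κ : Type*) [Fintype κ] : Set (κ → ℝ) := {l | (∀ i, 0 ≤ l i) ∧ ∑ i, l i ≤ 1}

omit [DecidableEq κ] in
theorem isCompact_Smp : IsCompact (Smp κ) := by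
  refine (isCompact_Icc (a := (0 : κ → ℝ)) (b := 1)).of_isClosed_subset ?_ fun l hl =>
    ⟨hl.1, fun i => (Finset.single_le_sum (fun j _ => hl.1 j) (Finset.mem_univ i)).trans hl.2⟩
  exact (isClosed_Ici (a := (0 : κ → ℝ))).inter
    (isClosed_le (f := fun l : κ → ℝ => ∑ i, l i) (by fun_prop) continuous_const)

theorem abs_det_diagonal_sg (s : κ → Bool) (c : ℝ) :
    |(Matrix.diagonal fun i => sg (s i) * c).det| = |c| ^ Fintype.card κ := by
  simp [Finset.abs_prod, abs_mul, abs_sg]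

theorem volume_Smp : 1 ≤ ((Fintype.card κ).factorial : ℝ≥0∞) * volume (Smp κ) := by
  have h := volume_sum_rpow_lt_one κ (le_refl (1 : ℝ))
  have h2 : {x : κ → ℝ | ∑ i, |x i| ^ (1 : ℝ) < 1} ⊆
      ⋃ s : κ → Bool, Matrix.toLin' (Matrix.diagonal fun i => sg (s i) * 1) '' Smp κ := by
    intro x hx
    refine mem_iUnion.mpr ⟨fun i => decide (0 ≤ x i), fun i => |x i|,
      ⟨fun i => abs_nonneg _, le_of_lt (by simpa using hx)⟩, funext fun i => ?_⟩
    by_cases hi : 0 ≤ x i
    · simp [Matrix.mulVec_diagonal, sg, hi, abs_of_nonneg hi]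
    · simp [Matrix.mulVec_diagonal, sg, hi, abs_of_neg (not_le.mp hi)]
  have h3 := (measure_mono (μ := volume) h2).trans (measure_iUnion_fintype_le _ _)
  simp only [Measure.addHaar_image_linearMap, LinearMap.det_toLin', abs_det_diagonal_sg] at h3
  rw [h] at h3
  have h4 : Real.Gamma (1 + 1) = 1 := by simpa using Real.Gamma_nat_eq_factorial 1
  simp only [div_one, h4, Real.Gamma_nat_eq_factorial, abs_one, one_pow, ENNReal.ofReal_one,
    one_mul, mul_one, Finset.sum_const, Finset.card_univ, Fintype.card_fun, Fintype.card_bool,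
    nsmul_eq_mul] at h3
  rw [ENNReal.ofReal_div_of_pos (by positivity), ENNReal.ofReal_natCast,
    ENNReal.ofReal_pow zero_le_two, ENNReal.ofReal_ofNat, Nat.cast_pow, Nat.cast_ofNat,
    div_eq_mul_inv, ENNReal.mul_le_mul_iff_right (by simp) (by simp)] at h3
  have hf : ((Fintype.card κ).factorial : ℝ≥0∞) ≠ 0 := by
    exact_mod_cast Nat.factorial_ne_zero _
  rw [← ENNReal.mul_inv_cancel hf (ENNReal.natCast_ne_top _)]
  gcongr

/-- the fibre conditions. -/
def Feas (a : ι → κ → ℝ) (x y : κ → ℝ) : Prop :=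
  ∀ j, |a j ⬝ᵥ x| ≤ 1 ∧ |a j ⬝ᵥ y| ≤ lensG (a j ⬝ᵥ x)

/-- the selected constraints are tight. -/
def Tight (a : ι → κ → ℝ) (I : κ → ι) (s : κ → Bool) (x y : κ → ℝ) : Prop :=
  ∀ i, a (I i) ⬝ᵥ y = sg (s i) * lensG (a (I i) ⬝ᵥ x)

/-- the candidate vertex. -/
noncomputable def vtx (a : ι → κ → ℝ) (I : κ → ι) (c : κ → ℝ) : κ → ℝ :=
  (Matrix.of fun i => a (I i))⁻¹ *ᵥ c

theorem eq_vtx_iff {a : ι → κ → ℝ} {I : κ → ι} (hI : dt a I ≠ 0) {c y : κ → ℝ} :
    y = vtx a I c ↔ ∀ i, a (I i) ⬝ᵥ y = c i := by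
  rw [← funext_iff]
  change _ ↔ (Matrix.of fun i => a (I i)) *ᵥ y = c
  constructor
  · rintro rfl
    rw [vtx, Matrix.mulVec_mulVec, Matrix.mul_nonsing_inv _ hI.isUnit, Matrix.one_mulVec]
  · rintro rfl
    rw [vtx, Matrix.mulVec_mulVec, Matrix.nonsing_inv_mul _ hI.isUnit, Matrix.one_mulVec]

/-- base points over which the basis gives a vertex. -/
def XX (a : ι → κ → ℝ) (I : κ → ι) (s : κ → Bool) : Set (κ → ℝ) :=
  {x | Feas a x (vtx a I fun i => sg (s i) * lensG (a (I i) ⬝ᵥ x))}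

/-- the normal simplex. -/
def Del (a : ι → κ → ℝ) (I : κ → ι) (s : κ → Bool) : Set (κ → ℝ) :=
  (fun l : κ → ℝ => ∑ i, l i • sg (s i) • a (I i)) '' Smp κ

theorem isClosed_XX (a : ι → κ → ℝ) (I : κ → ι) (s : κ → Bool) : IsClosed (XX a I s) := by
  have := continuous_lensG
  rw [XX]
  simp only [Feas, ofPred_forall]
  refine isClosed_iInter fun j => IsClosed.and (isClosed_le ?_ continuous_const)
    (isClosed_le ?_ ?_)
  · fun_prop
  · unfold vtx; fun_prop
  · fun_prop

omit [DecidableEq κ] in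
theorem isCompact_Del (a : ι → κ → ℝ) (I : κ → ι) (s : κ → Bool) : IsCompact (Del a I s) :=
  isCompact_Smp.image (by fun_prop)

theorem volume_Del (a : ι → κ → ℝ) (I : κ → ι) (s : κ → Bool) :
    ENNReal.ofReal |dt a I| ≤ (Fintype.card κ).factorial * volume (Del a I s) := by
  have : (fun l : κ → ℝ => ∑ i, l i • sg (s i) • a (I i)) = Matrix.toLin'
      ((Matrix.of fun i => a (I i))ᵀ * Matrix.diagonal fun i => sg (s i) * 1) := by
    funext l k
    simp only [Matrix.toLin'_apply, Matrix.mulVec, dotProduct, Matrix.mul_diagonal]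
    simp [mul_comm, mul_left_comm]
  rw [Del, this, Measure.addHaar_image_linearMap, LinearMap.det_toLin', Matrix.det_mul, abs_mul,
    abs_det_diagonal_sg, Matrix.det_transpose, abs_one, one_pow, mul_one, mul_left_comm]
  exact le_mul_of_one_le_right' volume_Smp

omit [DecidableEq κ] in
theorem lin_re (a : κ → ℝ) (z : κ → ℂ) : (lin a z).re = a ⬝ᵥ fun k => (z k).re := by
  simp [lin, dotProduct]

omit [DecidableEq κ] in
theorem lin_im (a : κ → ℝ) (z : κ → ℂ) : (lin a z).im = a ⬝ᵥ fun k => (z k).im := by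
  simp [lin, dotProduct]

theorem volume_feas_le (a : ι → κ → ℝ) {I : κ → ι} (hI : dt a I ≠ 0) :
    volume (feas a I) ≤ ∑ s : κ → Bool, ENNReal.ofReal (π / 2) ^ Fintype.card κ *
      (ENNReal.ofReal |dt a I| * volume (XX a I s)) := by
  have hπ := Real.pi_pos
  have h : feas a I ⊆ ⋃ s : κ → Bool, (fun θ => θ + fun i => sg (s i) * -(π / 2)) ⁻¹'
      (Matrix.toLin' ((Matrix.diagonal fun i => sg (s i) * -(π / 2)) *
        Matrix.of fun i => a (I i)) '' XX a I s) := by
    rintro θ ⟨hθ, hz⟩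
    let s : κ → Bool := fun i => decide (0 ≤ θ i)
    let t : κ → ℝ := fun i => 1 - 2 * |θ i| / π
    have ht : ∀ i, |t i| ≤ 1 := fun i => by
      have h1 : |θ i| ≤ π := abs_le.mpr ⟨(hθ i trivial).1.le, (hθ i trivial).2⟩
      have h2 : 2 * |θ i| / π ≤ 2 := by rw [div_le_iff₀ hπ]; linarith
      have h3 : 0 ≤ 2 * |θ i| / π := by positivity
      exact abs_le.mpr ⟨by simp only [t]; linarith, by simp only [t]; linarith⟩
    have h1 : ∀ i, θ i = sg (s i) * (π * (1 - t i) / 2) ∧ lensF (Complex.exp (θ i * Complex.I)) =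
        t i + (sg (s i) * lensG (t i) : ℝ) * Complex.I := fun i => by
      have e : π * (1 - t i) / 2 = |θ i| := by simp only [t]; field_simp; ring
      rw [e]
      by_cases hi : 0 ≤ θ i
      · have := lensF_upper (ht i)
        rw [e, abs_of_nonneg hi] at this
        simp [s, sg, hi, abs_of_nonneg hi, this]
      · have := lensF_lower (ht i)
        rw [e, abs_of_neg (not_le.mp hi), neg_neg] at this
        simp [s, sg, hi, abs_of_neg (not_le.mp hi), this, sub_eq_add_neg]
    set z := sol a I fun i => lensF (Complex.exp (θ i * Complex.I)) with hzdef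
    have hre : ∀ i, a (I i) ⬝ᵥ (fun k => (z k).re) = t i := fun i => by
      rw [← lin_re, lin_sol hI, (h1 i).2]; simp
    have him : ∀ i, a (I i) ⬝ᵥ (fun k => (z k).im) = sg (s i) * lensG (t i) := fun i => by
      rw [← lin_im, lin_sol hI, (h1 i).2]; simp
    refine mem_iUnion.mpr ⟨s, fun k => (z k).re, ?_, funext fun i => ?_⟩
    · rw [XX, mem_ofPred_eq, ← (eq_vtx_iff hI).mpr fun i => by rw [him, hre]]
      intro j
      simpa only [lensL, mem_ofPred_eq, lin_re, lin_im] using hz j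
    · rw [Matrix.toLin'_apply, ← Matrix.mulVec_mulVec, Matrix.mulVec_diagonal]
      change _ * (a (I i) ⬝ᵥ _) = θ i + _
      rw [hre, (h1 i).1]
      ring
  refine (measure_mono h).trans ((measure_iUnion_fintype_le _ _).trans (le_of_eq ?_))
  refine Finset.sum_congr rfl fun s _ => ?_
  rw [measure_preimage_add_right, Measure.addHaar_image_linearMap, LinearMap.det_toLin',
    Matrix.det_mul, abs_mul, abs_det_diagonal_sg, abs_neg, abs_of_pos (by positivity),
    ENNReal.ofReal_mul (by positivity), ENNReal.ofReal_pow (by positivity), mul_assoc, dt]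

/-- over almost every base point no extra constraint is tight at a vertex. -/
def Generic (a : ι → κ → ℝ) : Prop :=
  ∀ (I : κ → ι) (s : κ → Bool) (j : ι) (b : Bool), dt a I ≠ 0 → j ∉ range I →
    volume {x | ∃ y, Tight a I s x y ∧ |a j ⬝ᵥ x| ≤ 1 ∧ a j ⬝ᵥ y = sg b * lensG (a j ⬝ᵥ x)} = 0

theorem dt_smul (a : ι → κ → ℝ) (r : ι → ℝ) (I : κ → ι) :
    dt (fun j => r j • a j) I = (∏ i, r (I i)) * dt a I :=
  Matrix.det_mul_column (fun i => r (I i)) (Matrix.of fun i => a (I i))

variable [Fintype ι]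

theorem exists_generic (a : ι → κ → ℝ) {η : ℝ} (hη : 0 < η) (hη1 : η ≤ 1) :
    ∃ r : ι → ℝ, (∀ j, r j ∈ Ioo (1 - η) 1) ∧ Generic fun j => r j • a j := by
  classical
  let N : (κ → ι) → (κ → Bool) → ι → Bool → Set ((ι → ℝ) × (κ → ℝ)) := fun I s j b =>
    {q | 0 < q.1 j ∧ |q.1 j * a j ⬝ᵥ q.2| ≤ 1 ∧ lensG (q.1 j * a j ⬝ᵥ q.2) = q.1 j * (sg b *
      a j ⬝ᵥ vtx a I fun i => sg (s i) * lensG (q.1 (I i) * a (I i) ⬝ᵥ q.2) / q.1 (I i))}
  have hN : ∀ I s j b, MeasurableSet (N I s j b) := fun I s j b => by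
    have := continuous_lensG.measurable
    simp only [N, ofPred_and]
    refine MeasurableSet.inter (measurableSet_lt measurable_const ?_)
      (MeasurableSet.inter (measurableSet_le ?_ measurable_const) (measurableSet_eq_fun ?_ ?_))
    · fun_prop
    · unfold dotProduct; fun_prop
    · unfold dotProduct; fun_prop
    · unfold vtx Matrix.mulVec dotProduct; fun_prop
  have h0 : ∀ᵐ r : ι → ℝ, ∀ I s j b, j ∉ range I → volume (Prod.mk r ⁻¹' N I s j b) = 0 := by
    simp only [ae_all_iff]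
    intro I s j b hj
    refine (Measure.measure_prod_null (hN I s j b)).mp ?_
    rw [Measure.prod_apply_symm (hN I s j b)]
    refine lintegral_eq_zero_of_ae_eq_zero (Eventually.of_forall fun x => ?_)
    refine volume_eq_zero_of_update (measurable_prodMk_right (hN I s j b)) j fun r => ?_
    refine (ray_subsingleton (a j ⬝ᵥ x) (sg b * a j ⬝ᵥ vtx a I fun i => sg (s i) *
      lensG (r (I i) * a (I i) ⬝ᵥ x) / r (I i))).anti fun ρ hρ => ?_
    have e : ∀ i, update r j ρ (I i) = r (I i) := fun i =>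
      update_of_ne (fun h => hj ⟨i, h⟩) _ _
    simpa only [N, mem_ofPred_eq, mem_preimage, update_self, e] using hρ
  have hpos : volume (univ.pi fun _ : ι => Ioo (1 - η) 1) ≠ 0 :=
    ((isOpen_set_pi finite_univ fun _ _ => isOpen_Ioo).measure_pos volume
      ⟨fun _ => 1 - η / 2, fun _ _ => ⟨by linarith, by linarith⟩⟩).ne'
  obtain ⟨r, hr, hr'⟩ := Measure.exists_mem_of_measure_ne_zero_of_ae hpos (ae_restrict_of_ae h0)
  have hr0 : ∀ j, 0 < r j := fun j => lt_of_le_of_lt (by linarith) (hr j trivial).1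
  refine ⟨r, fun j => hr j trivial, fun I s j b hI hj => measure_mono_null ?_ (hr' I s j b hj)⟩
  rintro x ⟨y, h1, h2, h3⟩
  rw [dt_smul] at hI
  simp only [Tight, smul_dotProduct, smul_eq_mul] at h1 h2 h3
  refine ⟨hr0 j, h2, ?_⟩
  rw [← (eq_vtx_iff (right_ne_zero_of_mul hI)).mpr fun i => by
    rw [← h1 i, mul_div_cancel_left₀ _ (hr0 _).ne'], mul_left_comm, h3, ← mul_assoc, sg_mul_sg,
    one_mul]

theorem geom_bound [Nonempty κ] {a : ι → κ → ℝ} {I0 : κ → ι} (h0 : dt a I0 ≠ 0) (hg : Generic a)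
    {Z : Set ((κ → ℝ) × (κ → ℝ))} (hZ : MeasurableSet Z)
    (h : ∀ x y I s, Feas a x y → Tight a I s x y → ∀ u ∈ Del a I s, (x, u) ∈ Z) :
    4 ^ Fintype.card κ ≤ ((Fintype.card κ).factorial : ℝ≥0∞) * volume Z := by
  classical
  set n := Fintype.card κ with hn
  let P : Finset ((κ → ι) × (κ → Bool)) := Finset.univ.filter fun q => dt a q.1 ≠ 0
  have h1 : 4 ^ n ≤ ∑ q ∈ P, volume (Del a q.1 q.2) * volume (XX a q.1 q.2) := by
    have h2 : (n.factorial : ℝ≥0∞) * ENNReal.ofReal (π / 2) ^ n * 4 ^ n ≤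
        n.factorial * ENNReal.ofReal (π / 2) ^ n *
          ∑ q ∈ P, volume (Del a q.1 q.2) * volume (XX a q.1 q.2) := by
      have e : ENNReal.ofReal (π / 2) * 4 = ENNReal.ofReal (2 * π) := by
        rw [← ENNReal.ofReal_ofNat, ← ENNReal.ofReal_mul (by positivity)]
        congr 1; ring
      rw [mul_assoc, ← mul_pow, e, Finset.mul_sum, Finset.sum_filter, Fintype.sum_prod_type]
      refine (feas_bound a h0).trans ?_
      rw [Finset.sum_filter]
      refine Finset.sum_le_sum fun I _ => ?_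
      split_ifs with hI
      · refine (volume_feas_le a hI).trans (Finset.sum_le_sum fun s _ => ?_)
        calc _ ≤ ENNReal.ofReal (π / 2) ^ n *
              (n.factorial * volume (Del a I s) * volume (XX a I s)) := by
              gcongr; exact volume_Del a I s
          _ = _ := by ring
      · exact zero_le
    refine (ENNReal.mul_le_mul_iff_right (mul_ne_zero ?_ (pow_ne_zero _ ?_)) (ENNReal.mul_ne_top
      (ENNReal.natCast_ne_top _) (ENNReal.pow_ne_top ENNReal.ofReal_ne_top))).mp h2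
    · exact_mod_cast n.factorial_ne_zero
    · exact (ENNReal.ofReal_pos.mpr (by positivity)).ne'
  have hX : ∀ I s, MeasurableSet (XX a I s) := fun I s => (isClosed_XX a I s).measurableSet
  have hD : ∀ I s, MeasurableSet (Del a I s) := fun I s => (isCompact_Del a I s).measurableSet
  have g1 : ∀ᵐ x : κ → ℝ, ∀ I s j b, dt a I ≠ 0 → j ∉ range I → ¬∃ y, Tight a I s x y ∧
      |a j ⬝ᵥ x| ≤ 1 ∧ a j ⬝ᵥ y = sg b * lensG (a j ⬝ᵥ x) := by
    simp only [ae_all_iff]
    exact fun I s j b hI hj => measure_eq_zero_iff_ae_notMem.mp (hg I s j b hI hj)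
  have g2 : ∀ᵐ x : κ → ℝ, ∀ j b, a j ⬝ᵥ x ≠ sg b := by
    simp only [ae_all_iff]
    exact fun j b => measure_eq_zero_iff_ae_notMem.mp (volume_hyperplane (Or.inr fun h =>
      by simpa [h] using abs_sg b))
  refine h1.trans ?_
  simp only [← lintegral_indicator_const (hX _ _)]
  rw [← lintegral_finsetSum _ fun q _ => measurable_const.indicator (hX _ _),
    Measure.volume_eq_prod, Measure.prod_apply hZ,
    ← lintegral_const_mul' _ _ (ENNReal.natCast_ne_top _)]
  refine lintegral_mono_ae ?_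
  filter_upwards [g1, g2] with x g1 g2
  let v : (κ → ι) × (κ → Bool) → κ → ℝ := fun q =>
    vtx a q.1 fun i => sg (q.2 i) * lensG (a (q.1 i) ⬝ᵥ x)
  have g3 : ∀ᵐ u : κ → ℝ, ∀ q q', v q ≠ v q' → (v q - v q') ⬝ᵥ u ≠ 0 := by
    simp only [ae_all_iff]
    exact fun q q' hq => measure_eq_zero_iff_ae_notMem.mp
      (volume_hyperplane (Or.inl (sub_ne_zero.mpr hq)))
  have e : ∀ q : (κ → ι) × (κ → Bool), (XX a q.1 q.2).indicator
      (fun _ => volume (Del a q.1 q.2)) x =
      ∫⁻ u, (Del a q.1 q.2).indicator (fun _ => (XX a q.1 q.2).indicator 1 x) u := fun q => by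
    rw [lintegral_indicator_const (hD _ _)]
    by_cases hx : x ∈ XX a q.1 q.2 <;> simp [hx]
  simp only [e]
  rw [← lintegral_finsetSum _ fun q _ => measurable_const.indicator (hD _ _),
    ← lintegral_indicator_const (measurable_prodMk_left hZ)]
  refine lintegral_mono_ae ?_
  filter_upwards [g3] with u g3
  let G := P.filter fun q => x ∈ XX a q.1 q.2 ∧ u ∈ Del a q.1 q.2
  have e2 : ∑ q ∈ P, (Del a q.1 q.2).indicator (fun _ => (XX a q.1 q.2).indicator 1 x) u =
      (G.card : ℝ≥0∞) := by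
    rw [Finset.card_filter]
    push_cast
    refine Finset.sum_congr rfl fun q _ => ?_
    by_cases hx : x ∈ XX a q.1 q.2 <;> by_cases hu : u ∈ Del a q.1 q.2 <;> simp [hx, hu]
  rw [e2]
  rcases G.eq_empty_or_nonempty with hG | ⟨q0, hq0⟩
  · simp [hG]
  have hG : ∀ q ∈ G, dt a q.1 ≠ 0 ∧ Feas a x (v q) ∧ Tight a q.1 q.2 x (v q) ∧
      u ∈ Del a q.1 q.2 := fun q hq => by
    obtain ⟨h1, h2, h3⟩ := Finset.mem_filter.mp hq
    have h4 := (Finset.mem_filter.mp h1).2
    exact ⟨h4, h2, (eq_vtx_iff h4).mp rfl, h3⟩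
  obtain ⟨p1, p2, p3, p4⟩ := hG q0 hq0
  rw [indicator_of_mem (show u ∈ Prod.mk x ⁻¹' Z from h x _ _ _ p2 p3 u p4), Nat.cast_le,
    ← Fintype.card_perm, ← Finset.card_univ]
  refine le_trans (Finset.card_le_card fun q hq => ?_)
    (Finset.card_image_le (f := fun σ : Equiv.Perm κ => (q0.1 ∘ σ, q0.2 ∘ σ)))
  have hle : ∀ q ∈ G, ∀ q' ∈ G, 0 ≤ (v q - v q') ⬝ᵥ u := fun q hq q' hq' => by
    obtain ⟨-, -, h3, l, hl, rfl⟩ := hG q hq
    rw [dotProduct_sum]
    refine Finset.sum_nonneg fun i _ => ?_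
    rw [dotProduct_smul, dotProduct_smul, dotProduct_comm, dotProduct_sub, h3, smul_eq_mul,
      smul_eq_mul, mul_sub, ← mul_assoc, sg_mul_sg, one_mul]
    refine mul_nonneg (hl.1 i) (sub_nonneg.mpr ((le_abs_self _).trans ?_))
    rw [abs_mul, abs_sg, one_mul]
    exact ((hG q' hq').2.1 _).2
  have hv : v q = v q0 := by
    by_contra hne
    have := hle q0 hq0 q hq
    rw [← neg_sub, neg_dotProduct, neg_nonneg] at this
    exact g3 q q0 hne (le_antisymm this (hle q hq q0 hq0))
  obtain ⟨r1, -, r3, -⟩ := hG q hq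
  rw [hv] at r3
  have hr : ∀ i, q.1 i ∈ range q0.1 := fun i => by_contra fun hi =>
    g1 q0.1 q0.2 (q.1 i) (q.2 i) p1 hi ⟨_, p3, (p2 _).1, r3 i⟩
  choose σ hσ using hr
  have hinj : Injective σ := fun i k hik =>
    injective_of_dt_ne_zero r1 (by rw [← hσ, ← hσ, hik])
  refine Finset.mem_image.mpr ⟨Equiv.ofBijective σ (Finite.injective_iff_bijective.mp hinj),
    Finset.mem_univ _, Prod.ext (funext hσ) (funext fun i => sg_injective ?_)⟩
  have h5 := p3 (σ i)
  rw [hσ, r3] at h5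
  refine (mul_right_cancel₀ (lensG_pos (lt_of_le_of_ne (p2 _).1 fun h6 => ?_)).ne' h5).symm
  rcases (abs_eq zero_le_one).mp h6 with h7 | h7
  · exact g2 _ true h7
  · exact g2 _ false h7

end Vale.Agent.P248
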