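import Mathlib

/-! The conformal map of the disc onto a lens whose boundary values have uniformly distributed
real part. -/

namespace Vale.Agent.P248

open Complex Metric Set Filter Topology
open scoped Real

/-- the dilogarithm series. -/
noncomputable def Li (z : ℂ) : ℂ := ∑' n : ℕ, z ^ n / (n : ℂ) ^ 2

/-- the lens map. -/
noncomputable def lensF (z : ℂ) : ℂ := (4 / π ^ 2 : ℝ) * (Li z - Li (-z))

theorem summable_inv_sq : Summable fun n : ℕ => 1 / (n : ℝ) ^ 2 :=
  Real.summable_one_div_nat_pow.mpr one_lt_two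

theorem norm_Li_term_le (n : ℕ) {z : ℂ} (hz : ‖z‖ ≤ 1) :
    ‖z ^ n / (n : ℂ) ^ 2‖ ≤ 1 / (n : ℝ) ^ 2 := by
  rw [norm_div, norm_pow, norm_pow, Complex.norm_natCast]
  exact div_le_div_of_nonneg_right (pow_le_one₀ (norm_nonneg _) hz) (by positivity)

theorem hasSum_Li {z : ℂ} (hz : ‖z‖ ≤ 1) : HasSum (fun n : ℕ => z ^ n / (n : ℂ) ^ 2) (Li z) :=
  (Summable.of_norm_bounded summable_inv_sq fun n => norm_Li_term_le n hz).hasSum

theorem continuousOn_Li : ContinuousOn Li (closedBall 0 1) :=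
  continuousOn_tsum (fun n => by fun_prop) summable_inv_sq
    fun n _ hz => norm_Li_term_le n (mem_closedBall_zero_iff.mp hz)

theorem differentiableOn_Li : DifferentiableOn ℂ Li (ball 0 1) :=
  differentiableOn_tsum_of_summable_norm summable_inv_sq (fun n => by fun_prop) isOpen_ball
    fun n _ hz => norm_Li_term_le n (mem_ball_zero_iff.mp hz).le

theorem hasSum_deriv_Li {z : ℂ} (hz : z ∈ ball (0 : ℂ) 1) :
    HasSum (fun n : ℕ => (n : ℂ) * z ^ (n - 1) / (n : ℂ) ^ 2) (deriv Li z) := by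
  have := hasSum_deriv_of_summable_norm (F := fun (n : ℕ) (z : ℂ) => z ^ n / (n : ℂ) ^ 2)
    summable_inv_sq (fun n => by fun_prop) isOpen_ball
    (fun n _ hz => norm_Li_term_le n (mem_ball_zero_iff.mp hz).le) hz
  have h2 : (fun n : ℕ => deriv (fun z : ℂ => z ^ n / (n : ℂ) ^ 2) z) =
      fun n : ℕ => (n : ℂ) * z ^ (n - 1) / (n : ℂ) ^ 2 := by
    funext n
    exact ((hasDerivAt_pow n z).div_const _).deriv
  rw [h2] at this
  exact this

theorem mul_deriv_Li {z : ℂ} (hz : z ∈ ball (0 : ℂ) 1) : z * deriv Li z = -log (1 - z) := by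
  have h1 := (hasSum_deriv_Li hz).mul_left z
  have h2 := hasSum_taylorSeries_neg_log (mem_ball_zero_iff.mp hz)
  refine h1.unique ?_
  have : (fun n : ℕ => z * ((n : ℂ) * z ^ (n - 1) / (n : ℂ) ^ 2)) = fun n : ℕ => z ^ n / n := by
    funext n
    rcases n with _ | n
    · simp
    · have : ((n + 1 : ℕ) : ℂ) ≠ 0 := by exact_mod_cast n.succ_ne_zero
      rw [Nat.add_sub_cancel, pow_succ z n]
      field_simp
  rw [this]
  exact h2

theorem deriv_Li_zero : deriv Li 0 = 1 := by
  have h1 := hasSum_deriv_Li (mem_ball_self one_pos)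
  refine h1.unique ?_
  have : (fun n : ℕ => (n : ℂ) * (0 : ℂ) ^ (n - 1) / (n : ℂ) ^ 2) =
      fun n : ℕ => if n = 1 then 1 else 0 := by
    funext n
    rcases n with _ | _ | n <;> simp
  rw [this]
  exact hasSum_ite_eq 1 1

theorem continuousOn_lensF : ContinuousOn lensF (closedBall 0 1) :=
  continuousOn_const.mul (continuousOn_Li.sub (continuousOn_Li.comp continuous_neg.continuousOn
    fun z hz => by simpa using hz))

theorem lensF_neg (z : ℂ) : lensF (-z) = -lensF z := by
  simp only [lensF, neg_neg]; ring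

theorem lensF_zero : lensF 0 = 0 := by simp [lensF]

theorem hasDerivAt_lensF {z : ℂ} (hz : z ∈ ball (0 : ℂ) 1) :
    HasDerivAt lensF ((4 / π ^ 2 : ℝ) * (deriv Li z + deriv Li (-z))) z := by
  have hz' : -z ∈ ball (0 : ℂ) 1 := by simpa using hz
  have h1 := (differentiableOn_Li.differentiableAt (isOpen_ball.mem_nhds hz)).hasDerivAt
  have h2 := ((differentiableOn_Li.differentiableAt (isOpen_ball.mem_nhds hz')).hasDerivAt).comp z
    (hasDerivAt_neg z)
  have := (h1.sub h2).const_mul ((4 / π ^ 2 : ℝ) : ℂ)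
  simp only [mul_neg, mul_one, sub_neg_eq_add] at this
  exact this

theorem differentiableOn_lensF : DifferentiableOn ℂ lensF (ball 0 1) := fun _ hz =>
  (hasDerivAt_lensF hz).differentiableAt.differentiableWithinAt

theorem mul_deriv_lensF {z : ℂ} (hz : z ∈ ball (0 : ℂ) 1) :
    z * deriv lensF z = (4 / π ^ 2 : ℝ) * (log (1 + z) - log (1 - z)) := by
  have hz' : -z ∈ ball (0 : ℂ) 1 := by simpa using hz
  have h1 := mul_deriv_Li hz
  have h2 := mul_deriv_Li hz'
  rw [sub_neg_eq_add] at h2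
  rw [(hasDerivAt_lensF hz).deriv]
  linear_combination ((4 / π ^ 2 : ℝ) : ℂ) * (h1 - h2)

theorem one_add_mem_slitPlane {z : ℂ} (hz : ‖z‖ < 1) : 1 + z ∈ slitPlane :=
  mem_slitPlane_of_norm_lt_one hz

theorem re_inv_one_add_pos {z : ℂ} (hz : ‖z‖ < 1) : 0 < ((1 + z)⁻¹).re := by
  rw [inv_re]
  have h1 : |z.re| < 1 := (abs_re_le_norm z).trans_lt hz
  have h2 : 0 < (1 + z).re := by
    rw [add_re, one_re]; linarith [(abs_lt.mp h1).1]
  exact div_pos h2 (normSq_pos.mpr fun h => by rw [h] at h2; simp at h2)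

theorem re_deriv_lensF_pos {z : ℂ} (hz : z ∈ ball (0 : ℂ) 1) : 0 < (deriv lensF z).re := by
  have hc : (0 : ℝ) < 4 / π ^ 2 := by positivity
  rcases eq_or_ne z 0 with rfl | hz0
  · rw [(hasDerivAt_lensF hz).deriv, neg_zero, deriv_Li_zero, re_ofReal_mul]
    norm_num
    positivity
  have hz1 := mem_ball_zero_iff.mp hz
  let f : ℝ → ℝ := fun t => ((log (1 + t * z) - log (1 - t * z)) / z).re
  have hd : ∀ t ∈ Icc (0 : ℝ) 1, HasDerivAt f (((1 + t * z)⁻¹ + (1 + -(t * z))⁻¹).re) t := by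
    intro t ht
    have hn : ‖(t : ℂ) * z‖ < 1 := by
      rw [norm_mul, norm_real, Real.norm_of_nonneg ht.1]
      nlinarith [ht.1, ht.2, norm_nonneg z]
    have e1 : HasDerivAt (fun w : ℂ => log (1 + w * z)) (z / (1 + t * z)) t := by
      have h0 : HasDerivAt (fun w : ℂ => 1 + w * z) z t := by
        simpa using ((hasDerivAt_id (t : ℂ)).mul_const z).const_add 1
      exact h0.clog (one_add_mem_slitPlane hn)
    have e2 : HasDerivAt (fun w : ℂ => log (1 - w * z)) (-z / (1 - t * z)) t := by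
      have hs : 1 - (t : ℂ) * z ∈ slitPlane := by
        rw [sub_eq_add_neg]; exact one_add_mem_slitPlane (by rwa [norm_neg])
      have h0 : HasDerivAt (fun w : ℂ => 1 - w * z) (-z) t := by
        simpa using ((hasDerivAt_id (t : ℂ)).mul_const z).const_sub 1
      exact h0.clog hs
    have e3 := ((e1.sub e2).div_const z).real_of_complex
    refine e3.congr_deriv ?_
    congr 1
    rw [← sub_eq_add_neg, div_eq_mul_inv z, div_eq_mul_inv (-z)]
    field_simp
    ring
  have hmono : StrictMonoOn f (Icc 0 1) := by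
    refine strictMonoOn_of_deriv_pos (convex_Icc 0 1)
      (fun t ht => (hd t ht).continuousAt.continuousWithinAt) fun t ht => ?_
    have ht' := interior_subset ht
    have hn : ‖(t : ℂ) * z‖ < 1 := by
      rw [norm_mul, norm_real, Real.norm_of_nonneg ht'.1]
      nlinarith [ht'.1, ht'.2, norm_nonneg z]
    rw [(hd t ht').deriv, add_re]
    exact add_pos (re_inv_one_add_pos hn) (re_inv_one_add_pos (by rwa [norm_neg]))
  have h01 := hmono (left_mem_Icc.mpr zero_le_one) (right_mem_Icc.mpr zero_le_one) one_pos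
  have hf0 : f 0 = 0 := by simp [f]
  have : deriv lensF z = (4 / π ^ 2 : ℝ) * ((log (1 + z) - log (1 - z)) / z) := by
    rw [← mul_div_assoc, ← mul_deriv_lensF hz]; field_simp
  rw [this, re_ofReal_mul]
  refine mul_pos hc ?_
  simpa [f, hf0] using h01

theorem deriv_lensF_ne_zero {z : ℂ} (hz : z ∈ ball (0 : ℂ) 1) : deriv lensF z ≠ 0 := fun h => by
  have := re_deriv_lensF_pos hz
  rw [h] at this
  simp at this

theorem injOn_lensF : InjOn lensF (ball 0 1) := by
  intro z hz w hw h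
  by_contra hne
  have hd0 : w - z ≠ 0 := sub_ne_zero.mpr (Ne.symm hne)
  let f : ℝ → ℝ := fun t => (lensF (z + t * (w - z)) / (w - z)).re
  have hmem : ∀ t ∈ Icc (0 : ℝ) 1, z + t * (w - z) ∈ ball (0 : ℂ) 1 := by
    intro t ht
    have := (convex_ball (0 : ℂ) 1).add_smul_sub_mem hz hw ht
    simpa using this
  have hd : ∀ t ∈ Icc (0 : ℝ) 1, HasDerivAt f ((deriv lensF (z + t * (w - z))).re) t := by
    intro t ht
    have e1 := (hasDerivAt_lensF (hmem t ht)).differentiableAt.hasDerivAt.comp (t : ℂ)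
      (((hasDerivAt_id (t : ℂ)).mul_const (w - z)).const_add z)
    refine ((e1.div_const (w - z)).real_of_complex).congr_deriv ?_
    congr 1
    field_simp
  have hmono : StrictMonoOn f (Icc 0 1) := by
    refine strictMonoOn_of_deriv_pos (convex_Icc 0 1)
      (fun t ht => (hd t ht).continuousAt.continuousWithinAt) fun t ht => ?_
    rw [(hd t (interior_subset ht)).deriv]
    exact re_deriv_lensF_pos (hmem t (interior_subset ht))
  have h01 := hmono (left_mem_Icc.mpr zero_le_one) (right_mem_Icc.mpr zero_le_one) one_pos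
  simp [f, h] at h01

/-- the open lens. -/
def lensO : Set ℂ := lensF '' ball 0 1

/-- the inverse of the lens map. -/
noncomputable def lensP : ℂ → ℂ := Function.invFunOn lensF (ball 0 1)

theorem lensP_lensF {z : ℂ} (hz : z ∈ ball (0 : ℂ) 1) : lensP (lensF z) = z :=
  injOn_lensF.leftInvOn_invFunOn hz

theorem lensP_mem {w : ℂ} (hw : w ∈ lensO) : lensP w ∈ ball (0 : ℂ) 1 := by
  obtain ⟨z, hz, rfl⟩ := hw
  rwa [lensP_lensF hz]

theorem lensF_lensP {w : ℂ} (hw : w ∈ lensO) : lensF (lensP w) = w := by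
  obtain ⟨z, hz, rfl⟩ := hw
  rw [lensP_lensF hz]

theorem map_lensF_nhds {z : ℂ} (hz : z ∈ ball (0 : ℂ) 1) : map lensF (𝓝 z) = 𝓝 (lensF z) :=
  (differentiableOn_lensF.analyticAt
    (isOpen_ball.mem_nhds hz)).hasStrictDerivAt.map_nhds_eq (deriv_lensF_ne_zero hz)

theorem isOpen_lensO : IsOpen lensO := by
  rw [isOpen_iff_mem_nhds]
  rintro _ ⟨z, hz, rfl⟩
  rw [← map_lensF_nhds hz]
  exact image_mem_map (isOpen_ball.mem_nhds hz)

theorem hasDerivAt_lensP {w : ℂ} (hw : w ∈ lensO) :
    HasDerivAt lensP (deriv lensF (lensP w))⁻¹ w := by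
  have hz := lensP_mem hw
  refine HasDerivAt.of_local_left_inverse ?_ (hasDerivAt_lensF hz).differentiableAt.hasDerivAt
    (deriv_lensF_ne_zero hz) ?_
  · obtain ⟨z, hz', rfl⟩ := hw
    rw [ContinuousAt, ← map_lensF_nhds hz', lensP_lensF hz', tendsto_map'_iff]
    refine tendsto_id.congr' ?_
    filter_upwards [isOpen_ball.mem_nhds hz'] with u hu
    exact (lensP_lensF hu).symm
  · filter_upwards [isOpen_lensO.mem_nhds hw] with u hu
    exact lensF_lensP hu

theorem differentiableOn_lensP : DifferentiableOn ℂ lensP lensO := fun _ hw =>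
  (hasDerivAt_lensP hw).differentiableAt.differentiableWithinAt

theorem zero_mem_lensO : (0 : ℂ) ∈ lensO := ⟨0, mem_ball_self one_pos, lensF_zero⟩

theorem lensP_zero : lensP 0 = 0 := by
  conv_lhs => rw [← lensF_zero]
  exact lensP_lensF (mem_ball_self one_pos)

end Vale.Agent.P248
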