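import Vale.Agent.P248.CoV

/-! The two limits of the normalised mass. -/

namespace Vale.Agent.P248

open Complex Function Set MeasureTheory Filter Topology Metric
open scoped Real Matrix ENNReal

theorem measurable_lensF : Measurable lensF := by
  have : Measurable Li := Measurable.tsum fun n => by fun_prop
  unfold lensF
  fun_prop

variable {κ ι : Type*} [Fintype κ] [DecidableEq κ]

/-- the radial kernel. -/
noncomputable def kerE (u : κ → ℝ) : ℝ≥0∞ :=
  ENNReal.ofReal (psi (∑ i, Real.exp (2 * u i))) * ENNReal.ofReal (∏ i, Real.exp (2 * u i))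

/-- the box of angles. -/
def box (κ : Type*) : Set (κ → ℝ) := univ.pi fun _ => Ioc (-π) π

/-- the feasible angles of a basis. -/
def feas (a : ι → κ → ℝ) (I : κ → ι) : Set (κ → ℝ) :=
  box κ ∩ {θ | sol a I (fun i => lensF (exp (θ i * Complex.I))) ∈ dom a lensL}

omit [DecidableEq κ] in
theorem measurable_kerE : Measurable (kerE : (κ → ℝ) → ℝ≥0∞) := by
  have := continuous_psi
  unfold kerE
  fun_prop

omit [DecidableEq κ] in
theorem lintegral_kerE_ne_zero : ∫⁻ u : κ → ℝ, kerE u ≠ 0 := by
  refine ((lintegral_pos_iff_support measurable_kerE).mpr ?_).ne'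
  have hU : IsOpen {u : κ → ℝ | ∑ i, Real.exp (2 * u i) < 1} :=
    isOpen_lt (by fun_prop) continuous_const
  refine (hU.measure_pos volume ⟨fun _ => -(Fintype.card κ : ℝ), ?_⟩).trans_le
    (measure_mono fun u hu => ?_)
  · simp only [mem_ofPred_eq, Finset.sum_const, Finset.card_univ, nsmul_eq_mul]
    rw [mul_neg, Real.exp_neg, ← div_eq_mul_inv, div_lt_one (Real.exp_pos _)]
    have := Real.add_one_le_exp (2 * (Fintype.card κ : ℝ))
    have : (0 : ℝ) ≤ Fintype.card κ := by positivity
    linarith
  · refine mul_ne_zero ?_ ?_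
    · exact (ENNReal.ofReal_pos.mpr (lt_max_of_lt_left (sub_pos.mpr hu))).ne'
    · exact (ENNReal.ofReal_pos.mpr (by positivity)).ne'

omit [DecidableEq κ] in
theorem lintegral_kerE_ne_top : ∫⁻ u : κ → ℝ, kerE u ≠ ∞ := by
  have h : Integrable (fun u : κ → ℝ => ∏ i, (Iic (0 : ℝ)).indicator
      (fun s => Real.exp (2 * s)) (u i)) :=
    Integrable.fintype_prod (f := fun _ => (Iic (0 : ℝ)).indicator fun s => Real.exp (2 * s))
      fun _ => (integrable_indicator_iff measurableSet_Iic).mpr
        (integrableOn_exp_mul_Iic two_pos 0)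
  refine ne_top_of_le_ne_top h.lintegral_lt_top.ne (lintegral_mono fun u => ?_)
  by_cases hu : ∀ i, u i ≤ 0
  · simp only [kerE, indicator_of_mem (mem_Iic.mpr (hu _))]
    refine mul_le_of_le_one_left' (ENNReal.ofReal_le_one.mpr (max_le ?_ zero_le_one))
    have : 0 ≤ ∑ i, Real.exp (2 * u i) := by positivity
    linarith
  · obtain ⟨i, hi⟩ := not_forall.mp hu
    have h1 : 1 ≤ Real.exp (2 * u i) := Real.one_le_exp (by linarith [not_le.mp hi])
    simp only [kerE]
    rw [psi_eq_zero (h1.trans (Finset.single_le_sum (f := fun i => Real.exp (2 * u i))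
      (fun _ _ => (Real.exp_pos _).le) (Finset.mem_univ i)))]
    simp

omit [DecidableEq κ] in
theorem lintegral_split {S : Set (κ → ℝ)} (hS : MeasurableSet S) :
    ∫⁻ τ : κ → ℂ, kerE (fun i => (τ i).re) * S.indicator 1 (fun i => (τ i).im) =
      (∫⁻ u : κ → ℝ, kerE u) * volume S := by
  have h := (volume_measurePreserving_arrowProdEquivProdArrow ℝ ℝ κ).comp
    (volume_preserving_pi fun _ : κ => Complex.volume_preserving_equiv_real_prod)
  have h2 := h.lintegral_comp (f := fun x : (κ → ℝ) × (κ → ℝ) => kerE x.1 * S.indicator 1 x.2)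
    ((measurable_kerE.comp measurable_fst).mul
      ((measurable_one.indicator hS).comp measurable_snd))
  refine h2.trans ?_
  rw [Measure.volume_eq_prod, lintegral_prod_mul measurable_kerE.aemeasurable
    (measurable_one.indicator hS).aemeasurable, lintegral_indicator_one hS]

omit [DecidableEq κ] in
theorem measurableSet_box : MeasurableSet (box κ) :=
  MeasurableSet.univ_pi fun _ => measurableSet_Ioc

omit [DecidableEq κ] in
theorem volume_box : volume (box κ) = ENNReal.ofReal (2 * π) ^ Fintype.card κ := by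
  rw [box, volume_pi_pi]
  simp [two_mul]

omit [DecidableEq κ] in
theorem isClosed_dom (a : ι → κ → ℝ) {Ω : Set ℂ} (h : IsClosed Ω) : IsClosed (dom a Ω) := by
  rw [dom, ofPred_forall]
  exact isClosed_iInter fun j => h.preimage (continuous_lin _)

theorem measurableSet_feas (a : ι → κ → ℝ) (I : κ → ι) : MeasurableSet (feas a I) := by
  refine measurableSet_box.inter ((isClosed_dom a isClosed_lensL).preimage
    ((continuous_sol a I).comp (continuous_pi fun i => ?_))).measurableSet
  exact continuous_lensF_exp.comp (continuous_apply i)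

theorem measurable_Psi (a : ι → κ → ℝ) (p : ι → ℕ) (t : ℝ) (I : κ → ι) :
    Measurable (Psi a p t I) := by
  refine (continuous_sol a I).measurable.comp (measurable_pi_lambda _ fun i =>
    measurable_lensF.comp ?_)
  unfold zeta
  fun_prop

theorem mul_normSq_Gp {a : ι → κ → ℝ} {p : ι → ℕ} (hp : ∀ j, 2 ≤ p j) {t : ℝ} (ht : 0 < t)
    {I : κ → ι} (hI : dt a I ≠ 0) {τ : κ → ℂ} (hτ : τ ∈ par κ t) (i : κ) :
    t * normSq (Gp p (I i) (lin (a (I i)) (Psi a p t I τ))) = Real.exp (2 * (τ i).re) := by
  have hp0 : p (I i) ≠ 0 := by have := hp (I i); omega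
  rw [Psi, lin_sol hI, Gp, lensP_lensF (zeta_mem hp0 (hτ i).1), mul_normSq_zeta_pow hp0 ht]

variable [Fintype ι]

theorem mass_upper (a : ι → κ → ℝ) {p : ℕ → ι → ℕ} (hp : ∀ q j, q ≤ p q j ∧ p q j ≤ q + 1)
    {I : κ → ι} (hI : dt a I ≠ 0) :
    ∃ ε : ℕ → ℝ≥0∞, Tendsto ε atTop (𝓝 0) ∧ ∀ q, 2 ≤ q → mass a (p q) 2 I ≤
      ((q + 1 : ℕ) : ℝ≥0∞) ^ Fintype.card κ * ((∫⁻ u : κ → ℝ, kerE u) * volume (feas a I) + ε q) := by
  let f : (κ → ℂ) → ℝ≥0∞ := fun τ => kerE (fun i => (τ i).re) * (box κ \ feas a I).indicator 1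
    (fun i => (τ i).im)
  have hm : MeasurableSet (box κ \ feas a I) := measurableSet_box.diff (measurableSet_feas a I)
  have hre : Measurable fun (τ : κ → ℂ) i => (τ i).re := by fun_prop
  have him : Measurable fun (τ : κ → ℂ) i => (τ i).im := by fun_prop
  have hf : Measurable f := (measurable_kerE.comp hre).mul ((measurable_one.indicator hm).comp him)
  let B : ℕ → Set (κ → ℂ) := fun q => par κ 2 ∩ Psi a (p q) 2 I ⁻¹' dom a lensL
  have hB : ∀ q, MeasurableSet (B q) := fun q => (measurableSet_par 2).inter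
    (measurable_Psi _ _ _ _ (isClosed_dom a isClosed_lensL).measurableSet)
  refine ⟨fun q => ∫⁻ τ, (B q).indicator f τ, ?_, fun q hq => ?_⟩
  · have := tendsto_lintegral_of_dominated_convergence (μ := volume)
      (F := fun q => (B q).indicator f) (f := fun _ => 0) f (fun q => hf.indicator (hB q))
      (fun q => Eventually.of_forall fun τ => indicator_le_self _ _ _) ?_
      (Eventually.of_forall fun τ => ?_)
    · simpa using this
    · rw [lintegral_split hm]
      refine ENNReal.mul_ne_top lintegral_kerE_ne_top (ne_top_of_le_ne_top ?_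
        (measure_mono sdiff_subset))
      rw [volume_box]
      exact ENNReal.pow_ne_top ENNReal.ofReal_ne_top
    · refine tendsto_const_nhds.congr' ?_
      by_cases h1 : (fun i => (τ i).im) ∈ box κ \ feas a I
      swap
      · exact Eventually.of_forall fun q => (le_zero_iff.mp ((indicator_le_self _ _ _).trans
          (by simp [f, indicator_of_notMem h1]))).symm
      by_cases h2 : τ ∈ par κ 2
      swap
      · exact Eventually.of_forall fun q => (indicator_of_notMem (fun h => h2 h.1) _).symm
      have h3 : Tendsto (fun q => Psi a (p q) 2 I τ) atTop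
          (𝓝 (sol a I fun i => lensF (exp ((τ i).im * Complex.I)))) := by
        refine ((continuous_sol a I).tendsto _).comp (tendsto_pi_nhds.mpr fun i => ?_)
        refine (continuousOn_lensF (exp ((τ i).im * Complex.I)) (by simp)).tendsto.comp
          (tendsto_nhdsWithin_iff.mpr ⟨?_, ?_⟩)
        · have h4 : Tendsto (fun q => (((τ i).re - Real.log 2 / 2) / p q (I i) : ℝ)) atTop (𝓝 0) :=
            tendsto_const_nhds.div_atTop (tendsto_natCast_atTop_atTop.comp
              (tendsto_atTop_mono (fun q => (hp q _).1) tendsto_id))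
          have h5 : Continuous fun s : ℝ => exp (s + (τ i).im * Complex.I) := by fun_prop
          have h6 := (h5.tendsto 0).comp h4
          rw [ofReal_zero, zero_add] at h6
          exact h6
        · filter_upwards [eventually_gt_atTop 0] with q hq
          exact ball_subset_closedBall (zeta_mem (hq.trans_le (hp q _).1).ne' (h2 i).1)
      filter_upwards [h3.eventually ((isClosed_dom a isClosed_lensL).isOpen_compl.mem_nhds
        fun h => h1.2 ⟨h1.1, h⟩)] with q hq
      exact (indicator_of_notMem (fun h => hq h.2) _).symm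
  · have hp2 : ∀ j, 2 ≤ p q j := fun j => hq.trans (hp q j).1
    rw [mass_eq a hp2 two_pos hI, ← lintegral_split (measurableSet_feas a I),
      ← lintegral_add_right _ (hf.indicator (hB q)),
      ← lintegral_const_mul' _ _ (ENNReal.pow_ne_top (ENNReal.natCast_ne_top _)),
      ← lintegral_indicator (measurableSet_par 2)]
    refine lintegral_mono fun τ => ?_
    by_cases h2 : τ ∈ par κ 2
    swap
    · simp [indicator_of_notMem h2]
    by_cases h3 : Psi a (p q) 2 I τ ∈ dom a lensO
    swap
    · simp [indicator_of_mem h2, indicator_of_notMem h3]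
    have h4 : τ ∈ B q := ⟨h2, fun j => lensO_subset_lensL (h3 j)⟩
    have h5 : (fun i => (τ i).im) ∈ box κ := fun i _ => (h2 i).2
    have h6 : kerE (fun i => (τ i).re) * (feas a I).indicator 1 (fun i => (τ i).im) + f τ =
        kerE (fun i => (τ i).re) := by
      by_cases h : (fun i => (τ i).im) ∈ feas a I
      · simp [f, h]
      · simp [f, h, h5]
    simp only [indicator_of_mem h2, indicator_of_mem h3, indicator_of_mem h4, h6]
    rw [kerE, mul_left_comm]
    refine mul_le_mul' (ENNReal.ofReal_le_ofReal (psi_anti ?_)) ?_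
    · simp only [← mul_normSq_Gp hp2 two_pos hI h2, rho, ← Finset.mul_sum]
      classical
      rw [← Finset.sum_image (f := fun j => normSq (Gp (p q) j (lin (a j) (Psi a (p q) 2 I τ))))
        (injective_of_dt_ne_zero hI).injOn]
      exact mul_le_mul_of_nonneg_left (Finset.sum_le_sum_of_subset_of_nonneg (Finset.subset_univ _)
        fun _ _ _ => normSq_nonneg _) zero_le_two
    · rw [← ENNReal.ofReal_natCast, ← ENNReal.ofReal_pow (by positivity),
        ← ENNReal.ofReal_mul (by positivity), Finset.prod_mul_distrib]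
      refine ENNReal.ofReal_le_ofReal (mul_le_mul_of_nonneg_right ?_ (by positivity))
      rw [← Finset.card_univ, ← Finset.prod_const]
      exact Finset.prod_le_prod (fun _ _ => by positivity) fun i _ => by
        exact_mod_cast (hp q _).2

theorem mass_lower (a : ι → κ → ℝ) {p : ι → ℕ} {q : ℕ} (hq : 2 ≤ q) {I : κ → ι} (hI : dt a I ≠ 0)
    (hp : ∀ i, p (I i) = q) (hp' : ∀ j, j ∉ range I → p j = q + 1) :
    (q : ℝ≥0∞) ^ Fintype.card κ * ((∫⁻ u : κ → ℝ, kerE u) * volume (box κ)) ≤
      liminf (fun t : ℝ => mass a p t I) atTop := by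
  classical
  have hp2 : ∀ j, 2 ≤ p j := fun j => by
    by_cases h : j ∈ range I
    · obtain ⟨i, rfl⟩ := h
      rw [hp i]; exact hq
    · rw [hp' j h]; omega
  have hq0 : (0 : ℝ) < q := by exact_mod_cast (by omega : 0 < q)
  let g : ℝ → (κ → ℂ) → ℝ≥0∞ := fun t => (dom a lensO).indicator
    fun z => ENNReal.ofReal (psi (t * rho a (Gp p) z))
  let F : ℝ → (κ → ℂ) → ℝ≥0∞ := fun t => (par κ t).indicator fun τ => g t (Psi a p t I τ) *
    ENNReal.ofReal (∏ i, p (I i) * Real.exp (2 * (τ i).re))
  have hg : ∀ t, Measurable (g t) := fun t => by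
    have hU := isOpen_dom a isOpen_lensO
    have := ContinuousOn.measurable_piecewise (g := 0) (ENNReal.continuous_ofReal.comp_continuousOn
      (continuous_psi.comp_continuousOn ((continuousOn_const (c := t)).mul
        (continuousOn_rho a (differentiableOn_Gp p))))) (continuousOn_const (c := 0))
      hU.measurableSet
    rwa [piecewise_eq_indicator] at this
  have hF : ∀ t, Measurable (F t) := fun t => Measurable.indicator
    (((hg t).comp (measurable_Psi a p t I)).mul (by fun_prop)) (measurableSet_par t)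
  have e : (fun t : ℝ => mass a p t I) =ᶠ[atTop] fun t => ∫⁻ τ, F t τ := by
    filter_upwards [eventually_gt_atTop 0] with t ht
    rw [mass_eq a hp2 ht hI, ← lintegral_indicator (measurableSet_par t)]
  rw [liminf_congr e, ← lintegral_split measurableSet_box,
    ← lintegral_const_mul' _ _ (ENNReal.pow_ne_top (ENNReal.natCast_ne_top _))]
  refine le_trans (lintegral_mono fun τ => ?_) (lintegral_liminf_le hF)
  by_cases h1 : (fun i => (τ i).im) ∈ box κ
  swap
  · simp [h1]
  refine le_of_eq (Tendsto.liminf_eq ?_).symm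
  let ζ : ℝ → κ → ℂ := fun t i => zeta q t (τ i)
  let s : ℝ → ℝ := fun t => Real.exp (-(Real.log t / 2 / q))
  have hs : Tendsto s atTop (𝓝 0) := Real.tendsto_exp_neg_atTop_nhds_zero.comp
    ((Real.tendsto_log_atTop.atTop_div_const two_pos).atTop_div_const hq0)
  have hζ : ζ =O[atTop] s := by
    refine Asymptotics.isBigO_pi.mpr fun i => Asymptotics.IsBigO.of_bound
      (Real.exp ((τ i).re / q)) (Eventually.of_forall fun t => le_of_eq ?_)
    simp only [ζ, s, norm_zeta, Real.norm_eq_abs, Real.abs_exp, ← Real.exp_add]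
    congr 1; ring
  have hζ0 : Tendsto ζ atTop (𝓝 0) := hζ.trans_tendsto hs
  let W : (κ → ℂ) → κ → ℂ := fun w => sol a I fun i => lensF (w i)
  have hW0 : W 0 = 0 := by simp [W, lensF_zero, sol, ← Pi.zero_def]
  have hW : DifferentiableAt ℂ W 0 := by
    refine (Matrix.toLin' (Mc a I)⁻¹).toContinuousLinearMap.differentiableAt.comp (0 : κ → ℂ)
      (differentiableAt_pi.mpr fun i => ?_)
    exact DifferentiableAt.comp (f := fun w : κ → ℂ => w i) (0 : κ → ℂ)
      (hasDerivAt_lensF (mem_ball_self one_pos)).differentiableAt (by fun_prop)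
  have hPsi : ∀ t, Psi a p t I τ = W (ζ t) := fun t => by simp only [Psi, W, ζ, hp]
  have hpar : ∀ᶠ t in atTop, τ ∈ par κ t := by
    refine eventually_all.mpr fun i => ?_
    filter_upwards [(Real.tendsto_log_atTop.atTop_div_const two_pos).eventually_gt_atTop (τ i).re]
      with t ht
    exact ⟨ht, h1 i trivial⟩
  have hdom : ∀ᶠ t in atTop, Psi a p t I τ ∈ dom a lensO := by
    simp only [hPsi]
    refine (hW.continuousAt.tendsto.comp hζ0).eventually
      ((isOpen_dom a isOpen_lensO).mem_nhds fun j => ?_)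
    simpa [hW0, lin] using zero_mem_lensO
  have hrho : Tendsto (fun t => t * rho a (Gp p) (Psi a p t I τ)) atTop
      (𝓝 (∑ i, Real.exp (2 * (τ i).re))) := by
    have h2 : ∀ j ∈ (Finset.univ.image I)ᶜ, Tendsto
        (fun t => t * normSq (Gp p j (lin (a j) (Psi a p t I τ)))) atTop (𝓝 0) := by
      intro j hj
      have hj' : p j = q + 1 := hp' j (by simpa using hj)
      have hl : lin (a j) (W 0) = 0 := by simp [hW0, lin]
      have hd : DifferentiableAt ℂ (fun w => lensP (lin (a j) (W w))) 0 := by
        refine DifferentiableAt.comp (g := lensP) 0 ?_ (DifferentiableAt.comp (g := lin (a j)) 0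
          (by unfold lin; fun_prop) hW)
        rw [hl]
        exact (hasDerivAt_lensP zero_mem_lensO).differentiableAt
      have h3 := hd.isBigO_sub.comp_tendsto hζ0
      simp only [hl, lensP_zero, sub_zero, comp_def] at h3
      have h4 := ((h3.trans hζ).norm_left.pow (2 * (q + 1))).const_mul_left 1
      have h5 := (Asymptotics.isBigO_refl (fun t : ℝ => t) atTop).mul h4
      have h6 : Tendsto (fun t => t * s t ^ (2 * (q + 1))) atTop (𝓝 0) := by
        have := hs.pow 2
        rw [zero_pow two_ne_zero] at this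
        refine this.congr' ?_
        filter_upwards [eventually_gt_atTop 0] with t ht
        simp only [s, ← Real.exp_nat_mul]
        conv_rhs => enter [1]; rw [← Real.exp_log ht]
        rw [← Real.exp_add]
        congr 1
        push_cast
        field_simp
        ring
      refine (h5.trans_tendsto h6).congr fun t => ?_
      rw [hPsi, Gp, hj', normSq_eq_norm_sq, norm_pow]
      ring
    have h3 := (tendsto_finsetSum _ h2).const_add (∑ i, Real.exp (2 * (τ i).re))
    rw [Finset.sum_const_zero, add_zero] at h3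
    refine h3.congr' ?_
    filter_upwards [hpar, eventually_gt_atTop 0] with t ht ht0
    rw [rho, Finset.mul_sum, ← Finset.sum_add_sum_compl (Finset.univ.image I),
      Finset.sum_image (injective_of_dt_ne_zero hI).injOn]
    simp only [mul_normSq_Gp hp2 ht0 hI ht]
  have h7 := ENNReal.Tendsto.mul_const (b := ENNReal.ofReal (∏ i, p (I i) *
    Real.exp (2 * (τ i).re))) (ENNReal.tendsto_ofReal ((continuous_psi.tendsto _).comp hrho))
    (Or.inr ENNReal.ofReal_ne_top)
  have e2 : (q : ℝ≥0∞) ^ Fintype.card κ * (kerE (fun i => (τ i).re) *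
      (box κ).indicator 1 fun i => (τ i).im) = ENNReal.ofReal (psi (∑ i, Real.exp (2 * (τ i).re))) *
      ENNReal.ofReal (∏ i, p (I i) * Real.exp (2 * (τ i).re)) := by
    simp only [indicator_of_mem h1, Pi.one_apply, mul_one, kerE, hp, Finset.prod_mul_distrib,
      Finset.prod_const, Finset.card_univ]
    rw [ENNReal.ofReal_mul (by positivity), ENNReal.ofReal_pow hq0.le, ENNReal.ofReal_natCast]
    ring
  rw [e2]
  refine h7.congr' ?_
  filter_upwards [hpar, hdom] with t h2 h3
  simp only [F, g, indicator_of_mem h2, indicator_of_mem h3, comp_def]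

theorem mass_comp_perm (a : ι → κ → ℝ) (p : ι → ℕ) (t : ℝ) (I : κ → ι) (σ : Equiv.Perm κ) :
    mass a p t (I ∘ σ) = mass a p t I := by
  have : ∀ z, term a (Gp p) (I ∘ σ) z = term a (Gp p) I z := fun z => by
    rw [term, term, dt_comp_perm, mul_pow]
    congr 1
    · rcases Int.units_eq_one_or (Equiv.Perm.sign σ) with h | h <;> simp [h]
    · exact Equiv.prod_comp σ fun i => normSq (deriv (Gp p (I i)) (lin (a (I i)) z))
  simp only [mass, this]

theorem feas_bound [Nonempty κ] (a : ι → κ → ℝ) {I0 : κ → ι} (h0 : dt a I0 ≠ 0) :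
    ((Fintype.card κ).factorial : ℝ≥0∞) * ENNReal.ofReal (2 * π) ^ Fintype.card κ ≤
      ∑ I with dt a I ≠ 0, volume (feas a I) := by
  classical
  set n := Fintype.card κ with hn
  set c := ∫⁻ u : κ → ℝ, kerE u with hc
  let p : ℕ → ι → ℕ := fun q j => if j ∈ range I0 then q else q + 1
  have hp : ∀ q j, q ≤ p q j ∧ p q j ≤ q + 1 := fun q j => by
    simp only [p]; split_ifs <;> omega
  choose ε hε hε' using fun I (hI : dt a I ≠ 0) => mass_upper a hp hI
  have hf0 : (n.factorial : ℝ≥0∞) ≠ 0 := by exact_mod_cast n.factorial_ne_zero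
  let δ : (κ → ι) → ℕ → ℝ≥0∞ := fun I q => if h : dt a I ≠ 0 then ε I h q else 0
  have key : ∀ q : ℕ, 2 ≤ q → (q : ℝ≥0∞) ^ n * (c * (n.factorial * volume (box κ))) ≤
      ((q + 1 : ℕ) : ℝ≥0∞) ^ n * ∑ I with dt a I ≠ 0, (c * volume (feas a I) + δ I q) := by
    intro q hq
    have h1 : ∑ I, mass a (p q) 2 I ≤
        ((q + 1 : ℕ) : ℝ≥0∞) ^ n * ∑ I with dt a I ≠ 0, (c * volume (feas a I) + δ I q) := by
      rw [Finset.mul_sum, Finset.sum_filter]
      refine Finset.sum_le_sum fun I _ => ?_
      split_ifs with hI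
      · simp only [δ, dif_pos hI]
        exact hε' I hI q hq
      · simp [mass, term, not_not.mp hI]
    have h2 : ∀ t : ℝ, 2 ≤ t → mass a (p q) t I0 * n.factorial ≤ ∑ I, mass a (p q) 2 I := by
      intro t ht
      refine le_trans ?_ (mass_mono a h0 (p q) ht)
      have hinj : Injective fun σ : Equiv.Perm κ => I0 ∘ σ := fun σ σ' h =>
        Equiv.ext fun i => injective_of_dt_ne_zero h0 (congrFun h i)
      refine le_trans (le_of_eq ?_) (Finset.sum_le_sum_of_subset
        (Finset.subset_univ (Finset.univ.image fun σ : Equiv.Perm κ => I0 ∘ σ)))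
      rw [Finset.sum_image hinj.injOn]
      simp [mass_comp_perm, Fintype.card_perm, mul_comm, hn]
    have h3 := (mass_lower a (p := p q) hq h0 (fun i => if_pos ⟨i, rfl⟩)
      fun j hj => if_neg hj).trans (liminf_le_of_frequently_le' (Eventually.frequently
        ((eventually_ge_atTop 2).mono fun t ht => (ENNReal.le_div_iff_mul_le (Or.inl hf0)
          (Or.inl (ENNReal.natCast_ne_top _))).mpr (h2 t ht))))
    refine le_trans (le_of_eq ?_) ((ENNReal.mul_le_of_le_div h3).trans h1)
    ring
  have lim1 : Tendsto (fun q => ∑ I with dt a I ≠ 0, (c * volume (feas a I) + δ I q)) atTop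
      (𝓝 (c * ∑ I with dt a I ≠ 0, volume (feas a I))) := by
    rw [Finset.mul_sum]
    refine tendsto_finsetSum _ fun I hI => ?_
    have hI' := (Finset.mem_filter.mp hI).2
    simpa only [δ, dif_pos hI', add_zero] using (hε I hI').const_add (c * volume (feas a I))
  have lim2 : Tendsto (fun q : ℕ => ENNReal.ofReal ((1 + 1 / (q : ℝ)) ^ n)) atTop (𝓝 1) := by
    have := ENNReal.tendsto_ofReal
      (((tendsto_const_div_atTop_nhds_zero_nat (1 : ℝ)).const_add 1).pow n)
    simpa using this
  have lim := ENNReal.Tendsto.mul lim2 (Or.inl one_ne_zero) lim1 (Or.inr ENNReal.one_ne_top)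
  rw [one_mul] at lim
  rw [← volume_box, ← ENNReal.mul_le_mul_iff_right (lintegral_kerE_ne_zero (κ := κ))
    lintegral_kerE_ne_top]
  refine ge_of_tendsto lim ?_
  filter_upwards [eventually_ge_atTop 2] with q hq
  have hq0 : (0 : ℝ) < q := by exact_mod_cast (by omega : 0 < q)
  have e : ((q + 1 : ℕ) : ℝ≥0∞) ^ n = q ^ n * ENNReal.ofReal ((1 + 1 / (q : ℝ)) ^ n) := by
    rw [← ENNReal.ofReal_natCast, ← ENNReal.ofReal_natCast q, ← ENNReal.ofReal_pow (by positivity),
      ← ENNReal.ofReal_pow hq0.le, ← ENNReal.ofReal_mul (by positivity), ← mul_pow]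
    congr 2
    push_cast
    field_simp
  have := key q hq
  rw [e, mul_assoc, ENNReal.mul_le_mul_iff_right
    (pow_ne_zero _ (by exact_mod_cast (by omega : q ≠ 0)))
    (ENNReal.pow_ne_top (ENNReal.natCast_ne_top _))] at this
  exact this

end Vale.Agent.P248
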