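import Vale.Agent.P248.Alg

/-! Integration by parts and the monotonicity inequality. -/

namespace Vale.Agent.P248

open Complex Function Set MeasureTheory Filter Topology
open scoped ComplexConjugate

section Glue

variable {E : Type*} [NormedAddCommGroup E] [NormedSpace ℝ E] [FiniteDimensional ℝ E]
  [MeasurableSpace E] [BorelSpace E] {μ : Measure E} [μ.IsAddHaarMeasure] {U C : Set E}

omit [NormedSpace ℝ E] [FiniteDimensional ℝ E] in
theorem integrableOn_of_vanish {F : Type*} [NormedAddCommGroup F] (hU : IsOpen U)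
    (hC : IsCompact C) (hCU : C ⊆ U) {f : E → F} (hf : ContinuousOn f U)
    (h0 : ∀ z ∈ U \ C, f z = 0) : IntegrableOn f U μ :=
  ((hf.mono hCU).integrableOn_compact hC).of_forall_sdiff_eq_zero hU.measurableSet h0

theorem setIntegral_lineDeriv_eq_zero (hU : IsOpen U) (hC : IsCompact C) (hCU : C ⊆ U)
    {f f' : E → ℂ} {v : E} (hf : ContinuousOn f U) (hf' : ContinuousOn f' U)
    (hd : ∀ z ∈ U, HasLineDerivAt ℝ f (f' z) z v) (h0 : ∀ z ∈ U \ C, f z = 0)
    (h0' : ∀ z ∈ U \ C, f' z = 0) : ∫ z in U, f' z ∂μ = 0 := by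
  have i1 : Integrable (U.indicator f) μ :=
    (integrable_indicator_iff hU.measurableSet).mpr (integrableOn_of_vanish hU hC hCU hf h0)
  have i2 : Integrable (U.indicator f') μ :=
    (integrable_indicator_iff hU.measurableSet).mpr (integrableOn_of_vanish hU hC hCU hf' h0')
  have hd' : ∀ z, HasLineDerivAt ℝ (U.indicator f) (U.indicator f' z) z v := by
    intro z
    by_cases hz : z ∈ U
    · rw [indicator_of_mem hz]
      refine (hd z hz).congr_of_eventuallyEq ?_
      filter_upwards [hU.mem_nhds hz] with y hy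
      exact indicator_of_mem hy f
    · rw [indicator_of_notMem hz]
      have h1 : HasLineDerivAt ℝ (fun _ : E => (0 : ℂ)) 0 z v := hasDerivAt_const _ _
      refine h1.congr_of_eventuallyEq ?_
      filter_upwards [hC.isClosed.isOpen_compl.mem_nhds fun h => hz (hCU h)] with y hy
      by_cases hyU : y ∈ U
      · rw [indicator_of_mem hyU, h0 y ⟨hyU, hy⟩]
      · rw [indicator_of_notMem hyU]
  have := integral_bilinear_hasLineDerivAt_right_eq_neg_left_of_integrable (μ := μ)
    (f := fun _ : E => (1 : ℂ)) (f' := fun _ => 0) (g := U.indicator f) (g' := U.indicator f')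
    (v := v) (B := ContinuousLinearMap.mul ℝ ℂ) (by simp) (by simpa using i2) (by simpa using i1)
    (fun _ _ => hasDerivAt_const _ _) (fun z _ => hd' z)
  rw [← integral_indicator hU.measurableSet]
  simpa using this

end Glue

variable {κ ι : Type*} [Fintype κ] [DecidableEq κ] [Fintype ι]

/-- the complex extension of a real linear form. -/
noncomputable def lin (a : κ → ℝ) (z : κ → ℂ) : ℂ := ∑ k, a k * z k

/-- the determinant of the forms selected by `I`. -/
noncomputable def dt (a : ι → κ → ℝ) (I : κ → ι) : ℝ := (Matrix.of fun i => a (I i)).det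

/-- the domain. -/
def dom (a : ι → κ → ℝ) (Ω : Set ℂ) : Set (κ → ℂ) := {z | ∀ j, lin (a j) z ∈ Ω}

/-- the exhaustion function. -/
noncomputable def rho (a : ι → κ → ℝ) (G : ι → ℂ → ℂ) (z : κ → ℂ) : ℝ :=
  ∑ j, normSq (G j (lin (a j) z))

/-- one term of the volume density. -/
noncomputable def term (a : ι → κ → ℝ) (G : ι → ℂ → ℂ) (I : κ → ι) (z : κ → ℂ) : ℝ :=
  dt a I ^ 2 * ∏ i, normSq (deriv (G (I i)) (lin (a (I i)) z))

omit [DecidableEq κ] in
theorem continuous_lin (a : κ → ℝ) : Continuous (lin a) := by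
  unfold lin; fun_prop

omit [DecidableEq κ] in
theorem lin_add_smul (a v : κ → ℝ) (z : κ → ℂ) (ξ : ℂ) (t : ℝ) :
    lin a (z + t • fun k => ξ * v k) = lin a z + t * (ξ * (∑ k, a k * v k : ℝ)) := by
  simp only [lin, Pi.add_apply, Pi.smul_apply, real_smul, mul_add, Finset.sum_add_distrib,
    ofReal_sum, ofReal_mul, Finset.mul_sum]
  congr 1
  exact Finset.sum_congr rfl fun k _ => by ring

omit [Fintype ι] in
theorem exists_cross (a : ι → κ → ℝ) (I : κ → ι) (t : κ) :
    ∃ v : κ → ℝ, ∀ l, ∑ k, a l k * v k = dt a (update I t l) := by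
  let M : Matrix κ κ ℝ := Matrix.of fun i => a (I i)
  let ℓ : (κ → ℝ) →ₗ[ℝ] ℝ := (LinearMap.proj t).comp (Matrix.cramer M.transpose)
  refine ⟨fun k => ℓ fun j => if k = j then 1 else 0, fun l => ?_⟩
  have h1 := LinearMap.pi_apply_eq_sum_univ ℓ (a l)
  simp only [smul_eq_mul] at h1
  rw [← h1]
  change Matrix.cramer M.transpose (a l) t = _
  rw [Matrix.cramer_transpose_apply, dt]
  congr 1
  ext i k
  by_cases hi : i = t
  · subst hi; simp
  · simp [M, Matrix.updateRow_ne hi, update_of_ne hi]

omit [Fintype ι] in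
theorem dt_eq_zero (a : ι → κ → ℝ) {I : κ → ι} {s t : κ} (hst : s ≠ t) (h : I s = I t) :
    dt a I = 0 :=
  Matrix.det_zero_of_row_eq hst (by ext k; simp [h])

omit [Fintype ι] in
theorem dt_comp_perm (a : ι → κ → ℝ) (I : κ → ι) (σ : Equiv.Perm κ) :
    dt a (I ∘ σ) = Equiv.Perm.sign σ * dt a I := by
  rw [dt, dt, ← Matrix.det_permute]
  rfl

omit [DecidableEq κ] in
theorem isOpen_dom (a : ι → κ → ℝ) {Ω : Set ℂ} (hΩ : IsOpen Ω) : IsOpen (dom a Ω) := by
  rw [dom, ofPred_forall]
  exact isOpen_iInter_of_finite fun j => hΩ.preimage (continuous_lin _)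

omit [DecidableEq κ] [Fintype ι] in
theorem continuousOn_comp_lin (a : ι → κ → ℝ) {Ω : Set ℂ} {g : ℂ → ℂ} (hg : ContinuousOn g Ω)
    (j : ι) : ContinuousOn (fun z => g (lin (a j) z)) (dom a Ω) :=
  hg.comp (continuous_lin _).continuousOn fun _ hz => hz j

section IBP

variable (a : ι → κ → ℝ) {Ω : Set ℂ} (hΩ : IsOpen Ω) {G : ι → ℂ → ℂ}
  (hG : ∀ j, DifferentiableOn ℂ (G j) Ω)
include hΩ hG

omit [DecidableEq κ] hΩ in
theorem continuousOn_rho : ContinuousOn (rho a G) (dom a Ω) :=
  continuousOn_finsetSum _ fun j _ =>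
    continuous_normSq.comp_continuousOn (continuousOn_comp_lin a (hG j).continuousOn j)

omit [Fintype ι] in
theorem continuousOn_term (I : κ → ι) : ContinuousOn (term a G I) (dom a Ω) :=
  continuousOn_const.mul (continuousOn_finsetProd _ fun i _ =>
    continuous_normSq.comp_continuousOn
      (continuousOn_comp_lin a ((hG (I i)).deriv hΩ).continuousOn (I i)))

theorem ibp {C : Set (κ → ℂ)} (hC : IsCompact C) (hCU : C ⊆ dom a Ω) {χ χ' : ℝ → ℝ}
    (hχ : ∀ s, HasDerivAt χ (χ' s) s) (hχ' : Continuous χ')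
    (h0 : ∀ z ∈ dom a Ω \ C, χ (rho a G z) = 0 ∧ χ' (rho a G z) = 0) (I : κ → ι) (t : κ) :
    ∫ z in dom a Ω, (χ (rho a G z) * ∑ l, term a G (update I t l) z +
      χ' (rho a G z) * normSq (∑ l, conj (G l (lin (a l) z)) *
        (dt a (update I t l) * ∏ i, deriv (G (update I t l i)) (lin (a (update I t l i)) z)))) =
      0 := by
  obtain ⟨v, hv⟩ := exists_cross a I t
  let d : ι → ℝ := fun l => dt a (update I t l)
  let g0 : ι → (κ → ℂ) → ℂ := fun l z => G l (lin (a l) z)
  let g1 : ι → (κ → ℂ) → ℂ := fun l z => deriv (G l) (lin (a l) z)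
  let g2 : ι → (κ → ℂ) → ℂ := fun l z => deriv (deriv (G l)) (lin (a l) z)
  let P : (κ → ℂ) → ℂ := fun z => ∏ i ∈ Finset.univ.erase t, g1 (I i) z
  let h : (κ → ℂ) → ℂ := fun z => ∑ l, conj (g0 l z) * (g1 l z * d l)
  let f : (κ → ℂ) → ℂ := fun z => normSq (P z) * (χ (rho a G z) * h z)
  let f' : ℂ → (κ → ℂ) → ℂ := fun ξ z => normSq (P z) *
    ((χ' (rho a G z) * (2 * (ξ * h z).re) : ℝ) * h z + χ (rho a G z) *
      ∑ l, (conj (g1 l z * (ξ * d l)) * (g1 l z * d l) + conj (g0 l z) * (g2 l z * (ξ * d l) * d l)))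
  have c0 : ∀ l, ContinuousOn (g0 l) (dom a Ω) := fun l =>
    continuousOn_comp_lin a (hG l).continuousOn l
  have c1 : ∀ l, ContinuousOn (g1 l) (dom a Ω) := fun l =>
    continuousOn_comp_lin a ((hG l).deriv hΩ).continuousOn l
  have c2 : ∀ l, ContinuousOn (g2 l) (dom a Ω) := fun l =>
    continuousOn_comp_lin a (((hG l).deriv hΩ).deriv hΩ).continuousOn l
  have cP : ContinuousOn (fun z => (normSq (P z) : ℂ)) (dom a Ω) :=
    continuous_ofReal.comp_continuousOn (continuous_normSq.comp_continuousOn
      (continuousOn_finsetProd _ fun i _ => c1 (I i)))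
  have ch : ContinuousOn h (dom a Ω) := continuousOn_finsetSum _ fun l _ =>
    (continuous_conj.comp_continuousOn (c0 l)).mul ((c1 l).mul continuousOn_const)
  have cχ : Continuous χ := continuous_iff_continuousAt.mpr fun s => (hχ s).continuousAt
  have cρ := continuousOn_rho a hG
  have cf : ContinuousOn f (dom a Ω) :=
    cP.mul ((continuous_ofReal.comp_continuousOn (cχ.comp_continuousOn cρ)).mul ch)
  have cf' : ∀ ξ, ContinuousOn (f' ξ) (dom a Ω) := fun ξ =>
    cP.mul (((continuous_ofReal.comp_continuousOn ((hχ'.comp_continuousOn cρ).mul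
      (continuousOn_const.mul (continuous_re.comp_continuousOn
        (continuousOn_const.mul ch))))).mul ch).add
      ((continuous_ofReal.comp_continuousOn (cχ.comp_continuousOn cρ)).mul
        (continuousOn_finsetSum _ fun l _ =>
          ((continuous_conj.comp_continuousOn ((c1 l).mul continuousOn_const)).mul
            ((c1 l).mul continuousOn_const)).add
          ((continuous_conj.comp_continuousOn (c0 l)).mul
            (((c2 l).mul continuousOn_const).mul continuousOn_const)))))
  have hd : ∀ ξ : ℂ, ∀ z ∈ dom a Ω, HasLineDerivAt ℝ f (f' ξ z) z fun k => ξ * v k := by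
    intro ξ z hz
    have key : ∀ (l : ι) (g : ℂ → ℂ), DifferentiableOn ℂ g Ω →
        HasDerivAt (fun s : ℝ => g (lin (a l) (z + s • fun k => ξ * v k)))
          (deriv g (lin (a l) z) * (ξ * d l)) 0 := by
      intro l g hg
      simp only [lin_add_smul, hv]
      have e1 : HasDerivAt (fun w : ℂ => lin (a l) z + w * (ξ * d l)) (ξ * d l) ((0 : ℝ) : ℂ) := by
        simpa using ((hasDerivAt_id ((0 : ℝ) : ℂ)).mul_const (ξ * d l)).const_add (lin (a l) z)
      have e2 : HasDerivAt g (deriv g (lin (a l) z)) (lin (a l) z + ((0 : ℝ) : ℂ) * (ξ * d l)) := by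
        simpa using (hg.differentiableAt (hΩ.mem_nhds (hz l))).hasDerivAt
      exact (e2.comp ((0 : ℝ) : ℂ) e1).comp_ofReal
    have d0 := fun l => key l (G l) (hG l)
    have d1 := fun l => key l (deriv (G l)) ((hG l).deriv hΩ)
    have dρ : HasDerivAt (fun s : ℝ => rho a G (z + s • fun k => ξ * v k))
        (2 * (ξ * h z).re) 0 := by
      have := HasDerivAt.fun_sum (u := Finset.univ) fun l _ => (d0 l).norm_sq
      simp only [Complex.sq_norm] at this
      refine this.congr_deriv ?_
      simp only [h, Finset.mul_sum, re_sum, zero_smul, add_zero, Complex.inner]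
      refine Finset.sum_congr rfl fun l _ => ?_
      congr 2
      simp only [g0, g1]
      ring
    have dχ : HasDerivAt (fun s : ℝ => (χ (rho a G (z + s • fun k => ξ * v k)) : ℂ))
        ((χ' (rho a G z) * (2 * (ξ * h z).re) : ℝ)) 0 := by
      have e : HasDerivAt χ (χ' (rho a G z)) (rho a G (z + (0 : ℝ) • fun k => ξ * v k)) := by
        simpa using hχ (rho a G z)
      exact (e.comp (0 : ℝ) dρ).ofReal_comp
    have dh : HasDerivAt (fun s : ℝ => h (z + s • fun k => ξ * v k))
        (∑ l, (conj (g1 l z * (ξ * d l)) * (g1 l z * d l) +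
          conj (g0 l z) * (g2 l z * (ξ * d l) * d l))) 0 := by
      have := HasDerivAt.fun_sum (u := Finset.univ) fun l _ =>
        (d0 l).star.mul ((d1 l).mul_const (d l : ℂ))
      refine this.congr_deriv (Finset.sum_congr rfl fun l _ => ?_)
      simp [g0, g1, g2]
    have hP : ∀ s : ℝ, P (z + s • fun k => ξ * v k) = P z := by
      intro s
      refine Finset.prod_congr rfl fun i hi => ?_
      have hi' := Finset.ne_of_mem_erase hi
      have : dt a (update I t (I i)) = 0 := dt_eq_zero a hi' (by simp [update_of_ne hi'])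
      simp only [g1, lin_add_smul, hv, this]
      simp
    have := (dχ.mul dh).const_mul (normSq (P z) : ℂ)
    simp only [zero_smul, add_zero] at this
    unfold HasLineDerivAt
    simp only [f, hP]
    exact this
  have z0 : ∀ z ∈ dom a Ω \ C, f z = 0 := fun z hz => by simp [f, (h0 z hz).1]
  have z1 : ∀ ξ, ∀ z ∈ dom a Ω \ C, f' ξ z = 0 := fun ξ z hz => by
    simp [f', (h0 z hz).1, (h0 z hz).2]
  have hU := isOpen_dom a hΩ
  have I1 := fun ξ => setIntegral_lineDeriv_eq_zero (μ := volume) hU hC hCU cf (cf' ξ) (hd ξ) z0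
    (z1 ξ)
  have J1 := fun ξ => integrableOn_of_vanish (μ := volume) hU hC hCU (cf' ξ) (z1 ξ)
  have I2 : ∫ z in dom a Ω, (f' 1 z + Complex.I * f' Complex.I z) = 0 := by
    rw [integral_add (J1 1) ((J1 Complex.I).const_mul _), integral_const_mul, I1, I1]; simp
  have hterm : ∀ l z, ∏ i, deriv (G (update I t l i)) (lin (a (update I t l i)) z) =
      g1 l z * P z := by
    intro l z
    rw [← Finset.mul_prod_erase _ _ (Finset.mem_univ t), update_self]
    congr 1
    exact Finset.prod_congr rfl fun i hi => by rw [update_of_ne (Finset.ne_of_mem_erase hi)]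
  have I3 : ∀ z, f' 1 z + Complex.I * f' Complex.I z =
      ((2 * (χ (rho a G z) * ∑ l, term a G (update I t l) z +
      χ' (rho a G z) * normSq (∑ l, conj (G l (lin (a l) z)) *
        (dt a (update I t l) * ∏ i, deriv (G (update I t l i))
          (lin (a (update I t l i)) z)))) : ℝ) : ℂ) := by
    intro z
    have e1 : ∑ l, conj (G l (lin (a l) z)) * (dt a (update I t l) *
        ∏ i, deriv (G (update I t l i)) (lin (a (update I t l i)) z)) = P z * h z := by
      simp only [hterm, h, Finset.mul_sum]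
      exact Finset.sum_congr rfl fun l _ => by simp only [g0, d]; ring
    have e2 : ((∑ l, term a G (update I t l) z : ℝ) : ℂ) =
        normSq (P z) * ∑ l, conj (g1 l z) * g1 l z * d l ^ 2 := by
      rw [Finset.mul_sum, ofReal_sum]
      refine Finset.sum_congr rfl fun l _ => ?_
      rw [term, ← map_prod normSq, hterm, map_mul, ← normSq_eq_conj_mul_self]
      push_cast
      simp only [d]
      ring
    have e3 : ∑ l, (conj (g1 l z * (1 * d l)) * (g1 l z * d l) +
          conj (g0 l z) * (g2 l z * (1 * d l) * d l)) +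
        Complex.I * ∑ l, (conj (g1 l z * (Complex.I * d l)) * (g1 l z * d l) +
          conj (g0 l z) * (g2 l z * (Complex.I * d l) * d l)) =
        2 * ∑ l, conj (g1 l z) * g1 l z * d l ^ 2 := by
      rw [Finset.mul_sum, Finset.mul_sum, ← Finset.sum_add_distrib]
      refine Finset.sum_congr rfl fun l _ => ?_
      simp only [map_mul, conj_ofReal, conj_I, map_one]
      linear_combination (conj (g0 l z) * g2 l z * (d l : ℂ) ^ 2 -
        conj (g1 l z) * g1 l z * (d l : ℂ) ^ 2) * I_mul_I
    have e4 : (((1 * h z).re : ℝ) : ℂ) + Complex.I * ((Complex.I * h z).re : ℝ) = conj (h z) := by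
      apply Complex.ext <;> simp
    rw [e1, map_mul]
    push_cast
    rw [← ofReal_sum, e2, normSq_eq_conj_mul_self (z := h z)]
    simp only [f']
    push_cast
    linear_combination (normSq (P z) * χ (rho a G z) : ℂ) * e3 +
      (2 * normSq (P z) * χ' (rho a G z) * h z : ℂ) * e4
  simp only [I3] at I2
  rw [integral_complex_ofReal, ofReal_eq_zero, integral_const_mul] at I2
  linarith

theorem mono_ineq {C : Set (κ → ℂ)} (hC : IsCompact C) (hCU : C ⊆ dom a Ω) {χ χ' : ℝ → ℝ}
    (hχ : ∀ s, HasDerivAt χ (χ' s) s) (hχ' : Continuous χ') (hneg : ∀ s, 0 ≤ s → χ' s ≤ 0)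
    (h0 : ∀ z ∈ dom a Ω \ C, χ (rho a G z) = 0 ∧ χ' (rho a G z) = 0) :
    ∫ z in dom a Ω, (Fintype.card κ * χ (rho a G z) + rho a G z * χ' (rho a G z)) *
      ∑ I, term a G I z ≤ 0 := by
  have hU := isOpen_dom a hΩ
  have cχ : Continuous χ := continuous_iff_continuousAt.mpr fun s => (hχ s).continuousAt
  have cρ := continuousOn_rho a hG
  let ω : (κ → ℂ) → (κ → ι) → ℂ := fun z I =>
    dt a I * ∏ i, deriv (G (I i)) (lin (a (I i)) z)
  have hω : ∀ z I, normSq (ω z I) = term a G I z := by
    intro z I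
    simp only [ω, term, map_mul, map_prod, normSq_ofReal, sq]
  let H : κ → (κ → ι) → (κ → ℂ) → ℝ := fun t I z =>
    χ (rho a G z) * ∑ l, term a G (update I t l) z +
      χ' (rho a G z) * normSq (∑ l, conj (G l (lin (a l) z)) * ω z (update I t l))
  have iH : ∀ t I, IntegrableOn (H t I) (dom a Ω) := fun t I =>
    integrableOn_of_vanish hU hC hCU
      (((cχ.comp_continuousOn cρ).mul (continuousOn_finsetSum _ fun l _ =>
        continuousOn_term a hΩ hG _)).add ((hχ'.comp_continuousOn cρ).mul
        (continuous_normSq.comp_continuousOn (continuousOn_finsetSum _ fun l _ =>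
          (continuous_conj.comp_continuousOn
            (continuousOn_comp_lin a (hG l).continuousOn l)).mul (continuousOn_const.mul
              (continuousOn_finsetProd _ fun i _ =>
                continuousOn_comp_lin a ((hG _).deriv hΩ).continuousOn _))))))
      fun z hz => by simp [H, (h0 z hz).1, (h0 z hz).2]
  have hsum : ∫ z in dom a Ω, ∑ t, ∑ I, H t I z = 0 := by
    rw [integral_finsetSum _ fun t _ => integrable_finsetSum _ fun I _ => iH t I]
    refine Finset.sum_eq_zero fun t _ => ?_
    rw [integral_finsetSum _ fun I _ => iH t I]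
    exact Finset.sum_eq_zero fun I _ => ibp a hΩ hG hC hCU hχ hχ' h0 I t
  have iL : IntegrableOn (fun z => (Fintype.card κ * χ (rho a G z) + rho a G z * χ' (rho a G z)) *
      ∑ I, term a G I z) (dom a Ω) :=
    integrableOn_of_vanish hU hC hCU
      (((continuousOn_const.mul (cχ.comp_continuousOn cρ)).add
        (cρ.mul (hχ'.comp_continuousOn cρ))).mul
        (continuousOn_finsetSum _ fun I _ => continuousOn_term a hΩ hG _))
      fun z hz => by simp [(h0 z hz).1, (h0 z hz).2]
  rcases isEmpty_or_nonempty ι with hι | hι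
  · rcases isEmpty_or_nonempty κ with hκ | hκ
    · simp [rho]
    · simp
  have hq : (0 : ℝ) < Fintype.card ι := by exact_mod_cast Fintype.card_pos
  refine le_of_mul_le_mul_left ?_ hq
  rw [mul_zero, ← integral_const_mul, ← hsum]
  refine integral_mono (iL.const_mul _)
    (integrable_finsetSum _ fun t _ => integrable_finsetSum _ fun I _ => iH t I) fun z => ?_
  have h1 := alt_ineq (ω z) (fun I s t hst => by
    simp only [ω, dt_comp_perm, Equiv.Perm.sign_swap hst, comp_apply]
    rw [Equiv.prod_comp (Equiv.swap s t) fun i => deriv (G (I i)) (lin (a (I i)) z)]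
    simp) fun l => conj (G l (lin (a l) z))
  simp only [normSq_conj, hω] at h1
  have h2 : ∀ t, ∑ I : κ → ι, ∑ l, term a G (update I t l) z =
      Fintype.card ι * ∑ I, term a G I z := fun t => by
    rw [sum_sum_update t fun I => term a G I z, nsmul_eq_mul]
  have h3 : χ' (rho a G z) ≤ 0 := hneg _ (Finset.sum_nonneg fun _ _ => normSq_nonneg _)
  simp only [H, Finset.sum_add_distrib, ← Finset.mul_sum, h2, Finset.sum_const, Finset.card_univ,
    nsmul_eq_mul]
  have h4 := mul_le_mul_of_nonpos_left h1 h3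
  change χ' (rho a G z) * (Fintype.card ι * rho a G z * _) ≤ _ at h4
  nlinarith

end IBP

end Vale.Agent.P248
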