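import Vale.Agent.P248.Prod

/-! In the case of equality both bodies are polytopes whose vertices pair to plus or minus one. -/

namespace Vale.Agent.P248

open Function Set MeasureTheory Filter Topology Metric
open scoped Real Matrix ENNReal

variable {n : ℕ}

theorem dot_le_of_mem_convexHull {S : Set (Fin n → ℝ)} {p z : Fin n → ℝ} {c : ℝ}
    (hp : p ∈ convexHull ℝ S) (h : ∀ s ∈ S, s ⬝ᵥ z ≤ c) : p ⬝ᵥ z ≤ c := by
  refine convexHull_min (t := {p | p ⬝ᵥ z ≤ c}) h (fun x hx y hy a b ha hb hab => ?_) hp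
  simp only [mem_ofPred_eq, add_dotProduct, smul_dotProduct, smul_eq_mul] at hx hy ⊢
  calc _ ≤ a * c + b * c := by gcongr
    _ = c := by rw [← add_mul, hab, one_mul]

theorem mem_convexHull_face {S Z : Set (Fin n → ℝ)} {p : Fin n → ℝ} (hp : p ∈ convexHull ℝ S)
    (h : ∀ s ∈ S, ∀ z ∈ Z, s ⬝ᵥ z ≤ 1) (h1 : ∀ z ∈ Z, p ⬝ᵥ z = 1) :
    p ∈ convexHull ℝ {s ∈ S | ∀ z ∈ Z, s ⬝ᵥ z = 1} := by
  refine (convexHull_min (t := {p | (∀ z ∈ Z, p ⬝ᵥ z ≤ 1) ∧ ((∀ z ∈ Z, p ⬝ᵥ z = 1) →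
    p ∈ convexHull ℝ {s ∈ S | ∀ z ∈ Z, s ⬝ᵥ z = 1})})
    (fun s hs => ⟨h s hs, fun h2 => subset_convexHull _ _ ⟨hs, h2⟩⟩)
    (fun x hx y hy a b ha hb hab => ⟨fun z hz => ?_, fun h2 => ?_⟩) hp).2 h1
  · simp only [add_dotProduct, smul_dotProduct, smul_eq_mul]
    nlinarith [hx.1 z hz, hy.1 z hz]
  rcases ha.eq_or_lt with rfl | ha'
  · obtain rfl : b = 1 := by linarith
    simp only [zero_smul, one_smul, zero_add] at h2 ⊢
    exact hy.2 h2
  rcases hb.eq_or_lt with rfl | hb'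
  · obtain rfl : a = 1 := by linarith
    simp only [zero_smul, one_smul, add_zero] at h2 ⊢
    exact hx.2 h2
  simp only [add_dotProduct, smul_dotProduct, smul_eq_mul] at h2
  refine convex_convexHull ℝ _ (hx.2 fun z hz => ?_) (hy.2 fun z hz => ?_) ha hb hab
  · nlinarith [hx.1 z hz, hy.1 z hz, h2 z hz]
  · nlinarith [hx.1 z hz, hy.1 z hz, h2 z hz]

theorem sum_mem_of_Smp {S : Set (Fin n → ℝ)} (hS : Convex ℝ S) (h0 : (0 : Fin n → ℝ) ∈ S)
    {c : Fin n → ℝ} (hc : c ∈ Smp (Fin n)) {b : Fin n → Fin n → ℝ} (hb : ∀ i, c i ≠ 0 → b i ∈ S) :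
    ∑ i, c i • b i ∈ S := by
  have := hS.sum_mem (t := Finset.univ) (w := fun o : Option (Fin n) => o.elim (1 - ∑ i, c i) c)
    (z := fun o => o.elim 0 fun i => if c i = 0 then 0 else b i)
    (fun o _ => by cases o; exacts [sub_nonneg.mpr hc.2, hc.1 _]) (by simp)
    (fun o _ => by
      rcases o with _ | i
      · exact h0
      · by_cases h : c i = 0
        · simpa [h] using h0
        · simpa [h] using hb i h)
  simp only [Fintype.sum_option, Option.elim_none, Option.elim_some, smul_zero, zero_add] at this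
  refine (congrArg (· ∈ S) (Finset.sum_congr rfl fun i _ => ?_)).mp this
  by_cases h : c i = 0 <;> simp [h]

/-- farthest points. -/
def Far (K : Set (Fin n → ℝ)) : Set (Fin n → ℝ) :=
  {x ∈ K | ∃ c, ∀ z ∈ K, (z - c) ⬝ᵥ (z - c) ≤ (x - c) ⬝ᵥ (x - c)}

theorem dot_self_nonneg (v : Fin n → ℝ) : 0 ≤ v ⬝ᵥ v :=
  Finset.sum_nonneg fun _ _ => mul_self_nonneg _

namespace Body

variable {K : Set (Fin n → ℝ)} (hK : Body K)
include hK

theorem eq_zero {w : Fin n → ℝ} (h : ∀ t : ℝ, t • w ∈ K) : w = 0 := by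
  obtain ⟨R, hR, h1⟩ := hK.compact.isBounded.exists_pos_norm_le
  by_contra hw
  have := h1 _ (h ((R + 1) / ‖w‖))
  rw [norm_smul, Real.norm_of_nonneg (by positivity), div_mul_cancel₀ _ (norm_ne_zero_iff.mpr hw)]
    at this
  linarith

theorem eq_zero_of_polar {G : Set (Fin n → ℝ)} (hG : P248.polar G = K) {w : Fin n → ℝ}
    (h : ∀ g ∈ G, w ⬝ᵥ g = 0) : w = 0 :=
  hK.eq_zero fun t => hG ▸ mem_polar.mpr fun g hg => by simp [h g hg]

theorem polar_Far : P248.polar (Far K) = P248.polar K := by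
  refine Subset.antisymm (fun u hu => mem_polar.mpr fun x hx => ?_) (polar_anti fun _ h => h.1)
  obtain ⟨M, hM⟩ := hK.compact.bddAbove_image (f := fun z => z ⬝ᵥ z) (by fun_prop)
  refine le_of_forall_pos_le_add fun ε hε => ?_
  obtain ⟨x0, h0, h1⟩ := hK.compact.exists_isMaxOn ⟨x, hx⟩
    (f := fun z => (z - -((M + 1) / ε) • u) ⬝ᵥ (z - -((M + 1) / ε) • u)) (by fun_prop)
  have h2 := mem_polar.mp hu x0 ⟨h0, _, h1⟩
  have h3 : x0 ⬝ᵥ x0 ≤ M := hM ⟨x0, h0, rfl⟩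
  have h4 := h1 hx
  have h5 := dot_self_nonneg x
  have h6 := dot_self_nonneg x0
  simp only [mem_ofPred_eq, sub_dotProduct, dotProduct_sub, smul_dotProduct, dotProduct_smul,
    smul_eq_mul, dotProduct_comm _ u] at h4
  have h7 : (M + 1) / ε * ε = M + 1 := div_mul_cancel₀ _ hε.ne'
  have h8 : 0 < (M + 1) / ε := div_pos (by linarith) hε
  nlinarith

theorem far_zero [NeZero n] {x y : Fin n → ℝ} (hx : x ∈ Far K)
    (hy : ∀ a ∈ P248.polar K, |a ⬝ᵥ y| ≤ lensG (a ⬝ᵥ x)) : y = 0 := by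
  obtain ⟨hxK, c, hc⟩ := hx
  obtain ⟨C, hC, hg⟩ := lensG_holder
  have key : ∀ δ : ℝ, ∀ z ∈ K, (x - c + δ • y) ⬝ᵥ z ≤
      (x - c + δ • y) ⬝ᵥ x + δ ^ 2 * (y ⬝ᵥ y) / 2 := fun δ z hz => by
    have h1 := hc z hz
    have h2 := dot_self_nonneg (x - z + δ • y)
    simp only [sub_dotProduct, dotProduct_sub, add_dotProduct, dotProduct_add, smul_dotProduct,
      dotProduct_smul, smul_eq_mul, dotProduct_comm z x, dotProduct_comm x y, dotProduct_comm z y,
      dotProduct_comm x c, dotProduct_comm z c] at h1 h2 ⊢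
    nlinarith
  have h0 : 0 < (x - c) ⬝ᵥ x := by
    have h1 : ∀ z ∈ K, (x - c) ⬝ᵥ z ≤ (x - c) ⬝ᵥ x := fun z hz => by simpa using key 0 z hz
    refine lt_of_le_of_ne (by simpa using h1 0 hK.zero_mem) fun h2 => ?_
    have h3 : x - c = 0 := hK.polar.eq_zero_of_polar rfl fun z hz => le_antisymm (h2 ▸ h1 z hz)
      (by simpa [← h2] using h1 _ (hK.symm z hz))
    have h4 : ∀ z ∈ K, z = c := fun z hz => sub_eq_zero.mp (dotProduct_self_eq_zero.mp
      (le_antisymm (by simpa [h3] using hc z hz) (dot_self_nonneg _)))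
    obtain ⟨ρ, hρ, h5⟩ := hK.exists_single
    simpa [hρ.ne'] using congrFun ((h4 _ (h5 0)).trans (h4 _ hK.zero_mem).symm) 0
  let H : ℝ → ℝ := fun δ => (x - c + δ • y) ⬝ᵥ x + δ ^ 2 * (y ⬝ᵥ y) / 2
  have hmem : ∀ δ, 0 < H δ → (H δ)⁻¹ • (x - c + δ • y) ∈ P248.polar K := fun δ h =>
    mem_polar.mpr fun z hz => by
      rw [smul_dotProduct, smul_eq_mul, inv_mul_le_iff₀ h, mul_one]
      exact key δ z hz
  have hH0 : H 0 = (x - c) ⬝ᵥ x := by simp [H]
  have h1 : (x - c) ⬝ᵥ y = 0 := by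
    have := hy _ (hmem 0 (hH0 ▸ h0))
    simp only [hH0, zero_smul, add_zero, smul_dotProduct, smul_eq_mul, inv_mul_cancel₀ h0.ne',
      lensG_one, abs_nonpos_iff] at this
    exact (mul_eq_zero.mp this).resolve_left (inv_ne_zero h0.ne')
  have hH : Continuous fun ε : ℝ => H (ε ^ 3) := by fun_prop
  have h2 : Tendsto (fun ε : ℝ => C * ε * (y ⬝ᵥ y / 2 + H (ε ^ 3))) (𝓝[>] 0) (𝓝 0) := by
    refine tendsto_nhdsWithin_of_tendsto_nhds (Continuous.tendsto' (by fun_prop) _ _ (by simp))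
  refine dotProduct_self_eq_zero.mp (le_antisymm (ge_of_tendsto h2 ?_) (dot_self_nonneg _))
  have h3 : ∀ᶠ ε in 𝓝 (0 : ℝ), 0 < H (ε ^ 3) :=
    hH.continuousAt.eventually_const_lt (by simpa [hH0] using h0)
  filter_upwards [nhdsWithin_le_nhds h3, self_mem_nhdsWithin] with ε h4 hε
  have hε' : 0 < ε := hε
  have h5 := (le_abs_self _).trans ((hy _ (hmem _ h4)).trans
    (hg (ε ^ 2) (by positivity) _ (hmem _ h4 x hxK)))
  have e : (x - c + ε ^ 3 • y) ⬝ᵥ x = H (ε ^ 3) - (ε ^ 3) ^ 2 * (y ⬝ᵥ y) / 2 := by simp [H]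
  rw [smul_dotProduct, smul_dotProduct, e, add_dotProduct, h1, smul_dotProduct] at h5
  simp only [smul_eq_mul, zero_add] at h5
  have h6 := mul_le_mul_of_nonneg_left h5 (by positivity : 0 ≤ H (ε ^ 3) / ε ^ 3)
  refine le_of_eq_of_le ?_ (h6.trans_eq ?_) <;> field_simp
  ring

theorem zero_not_extreme [NeZero n] : (0 : Fin n → ℝ) ∉ extremePoints ℝ K := fun h => by
  obtain ⟨ρ, hρ, h1⟩ := hK.exists_single
  have := h.2 (h1 0) (hK.symm _ (h1 0)) ⟨1 / 2, 1 / 2, by norm_num, by norm_num, by norm_num,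
    by simp⟩
  simpa [hρ.ne'] using congrFun this 0

theorem finite_of_pair {G : Set (Fin n → ℝ)} (hG : P248.polar G = K) {F : Set (Fin n → ℝ)}
    (hF : F ⊆ K) (h : ∀ u ∈ F, ∀ g ∈ G, |u ⬝ᵥ g| = 1) : F.Finite := by
  obtain ⟨R, hR, h1⟩ := hK.polar.compact.isBounded.exists_pos_norm_le
  obtain ⟨t, -, ht, hcov⟩ := finite_cover_balls_of_compact hK.compact
    (by positivity : 0 < ((n + 1) * R)⁻¹ / 2)
  refine (ht.biUnion (t := fun p => F ∩ ball p (((n + 1) * R)⁻¹ / 2)) fun p _ =>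
    Subsingleton.finite fun u hu u' hu' => ?_).subset fun u hu => ?_
  · refine sub_eq_zero.mp (hK.eq_zero_of_polar hG fun g hg => ?_)
    have h2 : ‖u - u'‖ ≤ ((n + 1) * R)⁻¹ := by
      rw [← dist_eq_norm]
      linarith [dist_triangle_right u u' p, mem_ball.mp hu.2, mem_ball.mp hu'.2]
    have h3 : |(u - u') ⬝ᵥ g| ≤ 1 := by
      refine (abs_dot_le _ _).trans ?_
      rw [Fintype.card_fin]
      calc _ ≤ (n + 1) * (((n + 1) * R)⁻¹ * R) := by
            gcongr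
            exacts [by linarith, h1 g (hG ▸ subset_polar_polar G hg)]
        _ = 1 := by field_simp
    rw [sub_dotProduct] at h3 ⊢
    have h6 := _root_.abs_le.mp h3
    rcases (abs_eq zero_le_one).mp (h u hu.1 g hg) with h4 | h4 <;>
      rcases (abs_eq zero_le_one).mp (h u' hu'.1 g hg) with h5 | h5 <;> linarith
  · obtain ⟨p, hp, h2⟩ := mem_iUnion₂.mp (hcov (hF hu))
    exact mem_biUnion hp ⟨hu, h2⟩

theorem convexHull_extreme (h : (extremePoints ℝ K).Finite) :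
    convexHull ℝ (extremePoints ℝ K) = K := by
  rw [← (h.isClosed_convexHull ℝ).closure_eq,
    closure_convexHull_extremePoints hK.compact hK.convex]

theorem far_pair [NeZero n] (h : mp K = 4 ^ n) {u : Fin n → ℝ}
    (hu : u ∈ extremePoints ℝ (P248.polar K)) {x : Fin n → ℝ} (hx : x ∈ Far K) : |u ⬝ᵥ x| = 1 := by
  obtain ⟨y, h1, b, c, hc, h2, h3⟩ := hK.good h hx.1 hu.1
  obtain rfl := hK.far_zero hx fun a ha => (h1 a ha).2
  have h4 : u ∈ convexHull ℝ (insert 0 (range b)) := h3 ▸ sum_mem_of_Smp (convex_convexHull _ _)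
    (subset_convexHull _ _ (mem_insert _ _)) hc fun i _ =>
    subset_convexHull _ _ (mem_insert_of_mem _ ⟨i, rfl⟩)
  rcases extremePoints_convexHull_subset (inter_extremePoints_subset_extremePoints_of_subset
    (convexHull_min (insert_subset hK.polar.zero_mem (range_subset_iff.mpr fun i => (h2 i).1))
      hK.polar.convex) ⟨h4, hu⟩) with rfl | ⟨i, rfl⟩
  · exact absurd hu hK.polar.zero_not_extreme
  · refine by_contra fun h5 => (lensG_pos (lt_of_le_of_ne (h1 _ (h2 i).1).1 h5)).ne ?_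
    rw [← (h2 i).2, dotProduct_zero]

end Body

/-- the combinatorial data extracted from the case of equality. -/
structure Pair (V E : Set (Fin n → ℝ)) : Prop where
  fin : V.Finite
  pair : ∀ v ∈ V, ∀ e ∈ E, e ⬝ᵥ v = 1 ∨ e ⬝ᵥ v = -1
  clos : ∀ w, (∀ e ∈ E, e ⬝ᵥ w = 1 ∨ e ⬝ᵥ w = -1) → w ∈ V
  sep : ∀ w, (∀ e ∈ E, e ⬝ᵥ w = 0) → w = 0
  hull : ∀ w, (∀ e ∈ E, e ⬝ᵥ w ≤ 1) → w ∈ convexHull ℝ V
  mid : ∀ v ∈ V, ∀ w ∈ V, ∀ u, (∀ x ∈ V, u ⬝ᵥ x ≤ 1) → ∃ y,
    (∀ e ∈ E, e ⬝ᵥ v = e ⬝ᵥ w → e ⬝ᵥ y = 0) ∧ (∀ e ∈ E, |e ⬝ᵥ y| ≤ 1) ∧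
    (u ⬝ᵥ y = 0 → u ∈ convexHull ℝ (insert 0 {e ∈ E | e ⬝ᵥ v = e ⬝ᵥ w}))

theorem Body.pair [NeZero n] {K : Set (Fin n → ℝ)} (hK : Body K) (h : mp K = 4 ^ n) :
    Pair (extremePoints ℝ K) (extremePoints ℝ (P248.polar K)) ∧
      P248.polar (extremePoints ℝ (P248.polar K)) = K := by
  have hE := hK.polar.finite_of_pair hK.polar_Far extremePoints_subset
    fun u hu x hx => hK.far_pair h hu hx
  have hE1 := hK.polar.convexHull_extreme hE
  have hE2 : P248.polar (extremePoints ℝ (P248.polar K)) = K := by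
    rw [← polar_convexHull, hE1, hK.bipolar]
  have hF := hK.finite_of_pair hE2 (F := Far K) (fun _ h => h.1)
    fun x hx u hu => dotProduct_comm x u ▸ hK.far_pair h hu hx
  have hF1 : convexHull ℝ (insert 0 (Far K)) = K := by
    rw [← polar_polar (convex_convexHull _ _) ((hF.insert 0).isClosed_convexHull ℝ)
      (subset_convexHull _ _ (mem_insert _ _)), polar_convexHull]
    refine Eq.trans (congrArg _ (Eq.trans (Set.ext fun u => ?_) hK.polar_Far)) hK.bipolar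
    simp [mem_polar]
  have hV : extremePoints ℝ K ⊆ Far K := fun v hv =>
    (extremePoints_convexHull_subset (hF1.symm ▸ hv : v ∈ extremePoints ℝ
      (convexHull ℝ (insert 0 (Far K))))).resolve_left fun h0 => hK.zero_not_extreme (h0 ▸ hv)
  have hV1 := hK.convexHull_extreme (hF.subset hV)
  have hp : ∀ v ∈ extremePoints ℝ K, ∀ e ∈ extremePoints ℝ (P248.polar K),
      e ⬝ᵥ v = 1 ∨ e ⬝ᵥ v = -1 := fun v hv e he =>
    (abs_eq zero_le_one).mp (hK.far_pair h he (hV hv))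
  have hsep : ∀ w, (∀ e ∈ extremePoints ℝ (P248.polar K), e ⬝ᵥ w = 0) → w = 0 := fun w hw =>
    hK.eq_zero_of_polar hE2 fun e he => dotProduct_comm w e ▸ hw e he
  have hK1 : ∀ w, (∀ e ∈ extremePoints ℝ (P248.polar K), e ⬝ᵥ w ≤ 1) → w ∈ K := fun w hw =>
    hE2 ▸ mem_polar.mpr fun e he => dotProduct_comm w e ▸ hw e he
  refine ⟨⟨hF.subset hV, hp, fun w hw => ⟨hK1 w fun e he => ?_, ?_⟩, hsep,
    fun w hw => hV1.symm ▸ hK1 w hw, fun v hv w hw u hu => ?_⟩, hE2⟩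
  · rcases hw e he with h1 | h1 <;> rw [h1] <;> norm_num
  · rintro x hx z hz ⟨a, b, ha, hb, hab, rfl⟩
    refine sub_eq_zero.mp (hsep _ fun e he => ?_)
    have h1 := _root_.abs_le.mp (hK.abs_le he.1 hx)
    have h2 := _root_.abs_le.mp (hK.abs_le he.1 hz)
    have h3 := hw e he
    simp only [dotProduct_add, dotProduct_smul, dotProduct_sub, smul_eq_mul] at h3 ⊢
    rcases h3 with h3 | h3 <;> rw [h3] <;> nlinarith
  have hu' : u ∈ P248.polar K := by rw [← hV1, polar_convexHull]; exact hu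
  have hg := lensG_zero_pos
  obtain ⟨y, h1, b, c, hc, h2, h3⟩ := hK.good h (hK.convex hv.1 hw.1 (a := 1 / 2) (b := 1 / 2)
    (by norm_num) (by norm_num) (by norm_num)) hu'
  set m := (1 / 2 : ℝ) • v + (1 / 2 : ℝ) • w with hm
  have hm1 : ∀ e ∈ extremePoints ℝ (P248.polar K), |e ⬝ᵥ m| = 1 ↔ e ⬝ᵥ v = e ⬝ᵥ w := fun e he => by
    rw [hm, dotProduct_add, dotProduct_smul, dotProduct_smul]
    rcases hp v hv e he with h4 | h4 <;> rcases hp w hw e he with h5 | h5 <;> rw [h4, h5] <;>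
      norm_num
  refine ⟨(lensG 0)⁻¹ • y, fun e he h4 => ?_, fun e he => ?_, fun h4 => ?_⟩
  · have := (h1 e he.1).2
    rw [lensG_of_abs_eq_one ((hm1 e he).mpr h4), abs_nonpos_iff] at this
    simp [this]
  · rw [dotProduct_smul, smul_eq_mul, abs_mul, abs_of_pos (inv_pos.mpr hg), inv_mul_le_iff₀ hg,
      mul_one]
    exact (h1 e he.1).2.trans (lensG_le (h1 e he.1).1)
  · rw [dotProduct_smul, smul_eq_mul, mul_eq_zero, inv_eq_zero, or_iff_right hg.ne', h3,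
      sum_dotProduct, Finset.sum_eq_zero_iff_of_nonneg fun i _ => by
        rw [smul_dotProduct, (h2 i).2]
        exact mul_nonneg (hc.1 i) (lensG_nonneg (h1 _ (h2 i).1).1)] at h4
    refine h3 ▸ sum_mem_of_Smp (convex_convexHull _ _) (subset_convexHull _ _ (mem_insert _ _)) hc
      fun i hi => ?_
    have h5 := h4 i (Finset.mem_univ i)
    rw [smul_dotProduct, (h2 i).2, smul_eq_mul, mul_eq_zero, or_iff_right hi] at h5
    have h6 : |b i ⬝ᵥ m| = 1 :=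
      by_contra fun h6 => (lensG_pos (lt_of_le_of_ne (h1 _ (h2 i).1).1 h6)).ne' h5
    obtain ⟨s, hs⟩ : ∃ s, b i ⬝ᵥ (sg s • m) = 1 := by
      rcases (abs_eq zero_le_one).mp h6 with h7 | h7
      exacts [⟨true, by simp [sg, h7]⟩, ⟨false, by simp [sg, h7]⟩]
    have h8 : ∀ e : Fin n → ℝ, |e ⬝ᵥ (sg s • m)| = |e ⬝ᵥ m| := fun e => by
      rw [dotProduct_smul, smul_eq_mul, abs_mul, abs_sg, one_mul]
    refine convexHull_mono (fun e he => mem_insert_of_mem _ ?_)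
      (mem_convexHull_face (S := extremePoints ℝ (P248.polar K)) (Z := {sg s • m})
        (hE1.symm ▸ (h2 i).1) ?_ (by simpa using hs))
    · refine ⟨he.1, (hm1 e he.1).mp ?_⟩
      rw [← h8, he.2 _ rfl, abs_one]
    · rintro e he _ rfl
      exact (le_abs_self _).trans ((h8 e).trans_le (h1 e he.1).1)

end Vale.Agent.P248
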