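import Vale.Agent.P248.Vol

/-! Linear images, products, joins and Hanner polytopes. -/

namespace Vale.Agent.P248

open Function Set MeasureTheory Filter Topology Metric
open scoped Real Matrix ENNReal

variable {n k l : ℕ}

theorem exists_dual (T : (Fin n → ℝ) ≃ₗ[ℝ] (Fin n → ℝ)) :
    ∃ T' : (Fin n → ℝ) ≃ₗ[ℝ] (Fin n → ℝ), LinearMap.det T'.toLinearMap *
      LinearMap.det T.toLinearMap = 1 ∧ ∀ K, polar (T '' K) = T' '' polar K := by
  let M := LinearMap.toMatrix' T.toLinearMap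
  have hM : LinearMap.det (Matrix.toLin' Mᵀ) = LinearMap.det T.toLinearMap := by
    rw [LinearMap.det_toLin', Matrix.det_transpose, LinearMap.det_toMatrix']
  let S := LinearMap.equivOfDetNeZero (Matrix.toLin' Mᵀ) (hM ▸ T.isUnit_det'.ne_zero)
  have hS : ∀ x y, S y ⬝ᵥ x = y ⬝ᵥ T x := fun x y => by
    change (Mᵀ *ᵥ y) ⬝ᵥ x = _
    rw [Matrix.mulVec_transpose, ← Matrix.dotProduct_mulVec, LinearMap.toMatrix'_mulVec]
    rfl
  refine ⟨S.symm, hM ▸ S.det_symm_mul_det, fun K => ?_⟩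
  ext y
  rw [S.image_symm_eq_preimage, mem_preimage, mem_polar, mem_polar, forall_mem_image]
  simp only [hS]

theorem mp_image (T : (Fin n → ℝ) ≃ₗ[ℝ] (Fin n → ℝ)) (K : Set (Fin n → ℝ)) :
    mp (T '' K) = mp K := by
  obtain ⟨T', h1, h2⟩ := exists_dual T
  have e1 := Measure.addHaar_image_linearMap volume T.toLinearMap K
  have e2 := Measure.addHaar_image_linearMap volume T'.toLinearMap (polar K)
  rw [LinearEquiv.coe_coe] at e1 e2
  rw [mp, mp, h2, e1, e2, mul_mul_mul_comm, ← ENNReal.ofReal_mul (abs_nonneg _), ← abs_mul,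
    mul_comm (LinearMap.det _), h1]
  simp

/-- concatenation of coordinates. -/
def app (k l : ℕ) : ((Fin k → ℝ) × (Fin l → ℝ)) ≃ₗ[ℝ] (Fin (k + l) → ℝ) where
  __ := Fin.appendEquiv k l
  map_add' p q := funext fun i => by
    refine Fin.addCases (fun j => ?_) (fun j => ?_) i <;> simp [Fin.appendEquiv]
  map_smul' c p := funext fun i => by
    refine Fin.addCases (fun j => ?_) (fun j => ?_) i <;> simp [Fin.appendEquiv]

theorem app_apply (x : Fin k → ℝ) (y : Fin l → ℝ) : app k l (x, y) = Fin.append x y := rfl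

theorem app_dot (x u : Fin k → ℝ) (y v : Fin l → ℝ) :
    app k l (u, v) ⬝ᵥ app k l (x, y) = u ⬝ᵥ x + v ⬝ᵥ y := by
  simp [app_apply, dotProduct, Fin.sum_univ_add]

theorem measurePreserving_app (k l : ℕ) : MeasurePreserving (app k l) := by
  have h := (volume_measurePreserving_piCongrLeft (fun _ => ℝ) (finSumFinEquiv (m := k)
    (n := l))).comp (volume_measurePreserving_sumPiEquivProdPi_symm fun _ : Fin k ⊕ Fin l => ℝ)
  refine (congrArg (fun f => MeasurePreserving f volume volume) (funext fun p => funext fun i =>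
    ?_)).mp h
  obtain ⟨j, rfl⟩ := finSumFinEquiv.surjective i
  rw [comp_apply, MeasurableEquiv.coe_piCongrLeft, Equiv.piCongrLeft_apply_apply]
  rcases j with j | j <;> simp [app, Fin.appendEquiv, MeasurableEquiv.coe_sumPiEquivProdPi_symm]

/-- the product of two sets. -/
def prodS (K : Set (Fin k → ℝ)) (L : Set (Fin l → ℝ)) : Set (Fin (k + l) → ℝ) :=
  app k l '' K ×ˢ L

/-- the convex hull of the union of two sets in complementary subspaces. -/
def joinS (K : Set (Fin k → ℝ)) (L : Set (Fin l → ℝ)) : Set (Fin (k + l) → ℝ) :=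
  convexHull ℝ (prodS K {0} ∪ prodS {0} L)

theorem app_mem_prodS {K : Set (Fin k → ℝ)} {L : Set (Fin l → ℝ)} {x : Fin k → ℝ} {y : Fin l → ℝ} :
    app k l (x, y) ∈ prodS K L ↔ x ∈ K ∧ y ∈ L := (app k l).injective.mem_set_image

theorem forall_mem_prodS {K : Set (Fin k → ℝ)} {L : Set (Fin l → ℝ)}
    {P : (Fin (k + l) → ℝ) → Prop} :
    (∀ z ∈ prodS K L, P z) ↔ ∀ x ∈ K, ∀ y ∈ L, P (app k l (x, y)) :=
  ⟨fun h _ hx _ hy => h _ (app_mem_prodS.mpr ⟨hx, hy⟩),
    fun h _ ⟨_, hp, e⟩ => e ▸ h _ hp.1 _ hp.2⟩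

theorem prodS_eq (K : Set (Fin k → ℝ)) (L : Set (Fin l → ℝ)) :
    {z | ∃ x ∈ K, ∃ y ∈ L, z = Fin.append x y} = prodS K L :=
  Subset.antisymm (fun _ ⟨x, hx, y, hy, e⟩ => ⟨(x, y), ⟨hx, hy⟩, e.symm⟩)
    fun _ ⟨p, hp, e⟩ => ⟨p.1, hp.1, p.2, hp.2, e.symm⟩

theorem joinS_eq (K : Set (Fin k → ℝ)) (L : Set (Fin l → ℝ)) :
    convexHull ℝ ({z | ∃ x ∈ K, z = Fin.append x (0 : Fin l → ℝ)} ∪
      {z | ∃ y ∈ L, z = Fin.append (0 : Fin k → ℝ) y}) = joinS K L := by
  simp [joinS, ← prodS_eq]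

theorem isCompact_prodS {K : Set (Fin k → ℝ)} {L : Set (Fin l → ℝ)} (hK : IsCompact K)
    (hL : IsCompact L) : IsCompact (prodS K L) :=
  (hK.prod hL).image (app k l).toContinuousLinearEquiv.continuous

theorem convex_prodS {K : Set (Fin k → ℝ)} {L : Set (Fin l → ℝ)} (hK : Convex ℝ K)
    (hL : Convex ℝ L) : Convex ℝ (prodS K L) :=
  (hK.prod hL).linear_image (app k l).toLinearMap

theorem Body.prod {K : Set (Fin k → ℝ)} {L : Set (Fin l → ℝ)} (hK : Body K) (hL : Body L) :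
    Body (prodS K L) where
  compact := isCompact_prodS hK.compact hL.compact
  convex := convex_prodS hK.convex hL.convex
  symm := forall_mem_prodS.mpr fun x hx y hy => by
    rw [← map_neg]; exact app_mem_prodS.mpr ⟨hK.symm x hx, hL.symm y hy⟩
  nhds := by
    have := (app k l).toContinuousLinearEquiv.toHomeomorph.isOpenMap.image_mem_nhds
      (prod_mem_nhds hK.nhds hL.nhds)
    rwa [show (app k l).toContinuousLinearEquiv.toHomeomorph (0, 0) = 0 from map_zero (app k l)]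
      at this

theorem polar_joinS (K : Set (Fin k → ℝ)) (L : Set (Fin l → ℝ)) :
    polar (joinS K L) = prodS (polar K) (polar L) := by
  ext z
  obtain ⟨⟨u, v⟩, rfl⟩ := (app k l).surjective z
  simp only [joinS, polar_convexHull, mem_polar, mem_union, or_imp, forall_and, forall_mem_prodS,
    app_mem_prodS]
  simp [app_dot]

theorem Body.joinS_eq {K : Set (Fin k → ℝ)} {L : Set (Fin l → ℝ)} (hK : Body K) (hL : Body L) :
    joinS K L = P248.polar (prodS (P248.polar K) (P248.polar L)) := by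
  have h1 : (0 : Fin (k + l) → ℝ) ∈ prodS K {0} := ⟨0, ⟨hK.zero_mem, rfl⟩, map_zero _⟩
  have h2 : (0 : Fin (k + l) → ℝ) ∈ prodS {0} L := ⟨0, ⟨rfl, hL.zero_mem⟩, map_zero _⟩
  rw [← polar_joinS, joinS, polar_polar (convex_convexHull _ _) ?_ (subset_convexHull _ _ (Or.inl h1))]
  rw [(convex_prodS hK.convex (convex_singleton _)).convexHull_union
    (convex_prodS (convex_singleton _) hL.convex) ⟨_, h1⟩ ⟨_, h2⟩]
  have := ((isCompact_Icc (a := (0 : ℝ)) (b := 1)).prod ((isCompact_prodS hK.compact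
    (isCompact_singleton (x := (0 : Fin l → ℝ)))).prod (isCompact_prodS
    (isCompact_singleton (x := (0 : Fin k → ℝ))) hL.compact))).image
    (f := fun q => (1 - q.1) • q.2.1 + q.1 • q.2.2) (by fun_prop)
  refine (congrArg IsClosed (Set.ext fun z => ?_)).mp this.isClosed
  simp only [mem_convexJoin, segment_eq_image]
  exact ⟨fun ⟨q, hq, e⟩ => ⟨_, hq.2.1, _, hq.2.2, _, hq.1, e⟩,
    fun ⟨a, ha, b, hb, t, ht, e⟩ => ⟨(t, a, b), ⟨ht, ha, hb⟩, e⟩⟩

/-- the support function. -/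
noncomputable def supp (K : Set (Fin n → ℝ)) (u : Fin n → ℝ) : ℝ := sSup ((fun x => u ⬝ᵥ x) '' K)

theorem Body.supp_spec {K : Set (Fin n → ℝ)} (hK : Body K) (u : Fin n → ℝ) :
    (∃ x ∈ K, supp K u = u ⬝ᵥ x) ∧ ∀ y ∈ K, u ⬝ᵥ y ≤ supp K u := by
  obtain ⟨x, hx, h1, h2⟩ := hK.compact.exists_sSup_image_eq_and_ge ⟨0, hK.zero_mem⟩
    (f := fun x => u ⬝ᵥ x) (by fun_prop)
  exact ⟨⟨x, hx, h1⟩, fun y hy => (h2 y hy).trans_eq h1.symm⟩

theorem Body.volume_polar {K : Set (Fin n → ℝ)} (hK : Body K) :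
    n.factorial * volume (P248.polar K) = ENNReal.ofReal (∫ u, Real.exp (-supp K u)) := by
  have h := hK.supp_spec
  have h5 : ∀ (r : ℝ) u, supp K (r • u) ≤ |r| * supp K u := fun r u => by
    obtain ⟨x, hx, e⟩ := (h (r • u)).1
    rw [e, smul_dotProduct, smul_eq_mul]
    refine (le_abs_self _).trans ((abs_mul _ _).trans_le (mul_le_mul_of_nonneg_left
      (_root_.abs_le.mpr ⟨?_, (h u).2 x hx⟩) (abs_nonneg _)))
    simpa [neg_le] using (h u).2 _ (hK.symm x hx)
  have h1 : supp K 0 = 0 := by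
    obtain ⟨x, -, e⟩ := (h 0).1
    simpa using e
  have h2 : ∀ u, supp K (-u) = supp K u := fun u =>
    le_antisymm (by simpa using h5 (-1) u) (by simpa using h5 (-1) (-u))
  have h3 : ∀ u v, supp K (u + v) ≤ supp K u + supp K v := fun u v => by
    obtain ⟨x, hx, e⟩ := (h (u + v)).1
    rw [e, add_dotProduct]
    exact add_le_add ((h u).2 x hx) ((h v).2 x hx)
  have h4 : ∀ {u}, supp K u = 0 → u = 0 := fun {u} hu => by
    obtain ⟨ρ, hρ, hs⟩ := hK.exists_single
    funext i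
    have e1 := (h u).2 _ (hs i)
    have e2 := (h u).2 _ (hK.symm _ (hs i))
    rw [hu, dotProduct_neg, dotProduct_single] at *
    exact (mul_eq_zero.mp (le_antisymm e1 (by linarith))).resolve_right hρ.ne'
  have e : volume (P248.polar K) = volume {u | supp K u < 1} := by
    have : P248.polar K = {u | supp K u ≤ 1} := Set.ext fun u =>
      ⟨fun hu => by obtain ⟨x, hx, e⟩ := (h u).1; exact e.trans_le (hu x hx),
        fun hu x hx => ((h u).2 x hx).trans hu⟩
    rw [this]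
    rcases subsingleton_or_nontrivial (Fin n → ℝ) with h0 | h0
    · congr 1
      ext u
      simp [Subsingleton.elim u 0, h1]
    · exact measure_le_eq_lt volume h1 h2 h3 h4 h5 1
  rw [e, measure_lt_one_eq_integral_div_gamma volume h1 h2 h3 h4 h5 one_pos]
  simp only [Real.rpow_one, Module.finrank_fin_fun, div_one, Real.Gamma_nat_eq_factorial]
  rw [ENNReal.ofReal_div_of_pos (by positivity), ENNReal.ofReal_natCast,
    ENNReal.mul_div_cancel (by exact_mod_cast n.factorial_ne_zero) (ENNReal.natCast_ne_top _)]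

theorem Body.mp_prod {K : Set (Fin k → ℝ)} {L : Set (Fin l → ℝ)} (hK : Body K) (hL : Body L) :
    mp (prodS K L) = mp K * mp L := by
  have hm := (app k l).toContinuousLinearEquiv.toHomeomorph.measurableEmbedding
  have e1 : volume (prodS K L) = volume K * volume L := by
    rw [← (measurePreserving_app k l).measure_preimage_emb hm, prodS,
      preimage_image_eq _ (app k l).injective, Measure.volume_eq_prod, Measure.prod_prod]
  have e2 : ∀ p, supp (prodS K L) (app k l p) = supp K p.1 + supp L p.2 := fun ⟨u, v⟩ => by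
    obtain ⟨⟨_, ⟨⟨x, y⟩, hp, rfl⟩, h1⟩, h2⟩ := (hK.prod hL).supp_spec (app k l (u, v))
    obtain ⟨⟨x', hx', h3⟩, h4⟩ := hK.supp_spec u
    obtain ⟨⟨y', hy', h5⟩, h6⟩ := hL.supp_spec v
    refine le_antisymm ?_ ?_
    · rw [h1, app_dot]
      exact add_le_add (h4 x hp.1) (h6 y hp.2)
    · rw [h3, h5, ← app_dot]
      exact h2 _ (app_mem_prodS.mpr ⟨hx', hy'⟩)
  have e3 := (hK.prod hL).volume_polar
  rw [← (measurePreserving_app k l).integral_comp hm] at e3
  simp only [e2, neg_add, Real.exp_add] at e3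
  rw [Measure.volume_eq_prod, integral_prod_mul (fun u => Real.exp (-supp K u))
    (fun v => Real.exp (-supp L v)), ENNReal.ofReal_mul (integral_nonneg fun _ =>
    (Real.exp_pos _).le), ← hK.volume_polar, ← hL.volume_polar] at e3
  rw [mp, mul_left_comm, e3, e1, mp, mp]
  ring

/-- a symmetric segment. -/
def seg (a : ℝ) : Set (Fin 1 → ℝ) := {x | -a ≤ x 0 ∧ x 0 ≤ a}

theorem seg_eq (a : ℝ) : seg a = Icc (fun _ => -a) fun _ => a := by
  ext x
  simp [seg, Pi.le_def]

theorem polar_seg {a : ℝ} (ha : 0 < a) : polar (seg a) = seg a⁻¹ := by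
  ext y
  simp only [polar, seg, mem_ofPred_eq, Fin.sum_univ_one, ← _root_.abs_le]
  constructor
  · intro h
    have h1 := h (fun _ => a) (abs_of_pos ha).le
    have h2 := h (fun _ => -a) (by simp [abs_of_pos ha])
    rw [← one_div, le_div_iff₀ ha, ← abs_of_pos ha, ← abs_mul]
    exact _root_.abs_le.mpr ⟨by linarith, h1⟩
  · intro h x hx
    refine (le_abs_self _).trans ((abs_mul _ _).trans_le ?_)
    rw [← inv_mul_cancel₀ ha.ne']
    gcongr

theorem IsHanner.spec {H : Set (Fin n → ℝ)} (h : IsHanner n H) :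
    Body H ∧ IsHanner n (polar H) ∧ mp H = 4 ^ n := by
  induction h with
  | segment a ha =>
    change Body (seg a) ∧ IsHanner 1 (polar (seg a)) ∧ mp (seg a) = _
    refine ⟨⟨seg_eq a ▸ isCompact_Icc, seg_eq a ▸ convex_Icc _ _, fun x hx =>
      ⟨neg_le_neg hx.2, neg_le.mp hx.1⟩, ?_⟩, ?_, ?_⟩
    · rw [seg_eq]
      exact pi_Icc_mem_nhds (fun _ => neg_lt_zero.mpr ha) fun _ => ha
    · rw [polar_seg ha]
      exact .segment _ (inv_pos.mpr ha)
    · rw [mp, polar_seg ha, seg_eq, seg_eq, Real.volume_Icc_pi, Real.volume_Icc_pi,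
        Fin.prod_univ_one, Fin.prod_univ_one, ← ENNReal.ofReal_mul (by linarith)]
      have : (a - -a) * (a⁻¹ - -a⁻¹) = 4 := by field_simp; ring
      rw [this]
      simp
  | prod _ _ h1 h2 =>
    rw [prodS_eq]
    refine ⟨h1.1.prod h2.1, ?_, by rw [h1.1.mp_prod h2.1, h1.2.2, h2.2.2, pow_add]⟩
    have := h1.1.polar.joinS_eq h2.1.polar
    rw [h1.1.bipolar, h2.1.bipolar] at this
    rw [← this, ← joinS_eq]
    exact .join h1.2.1 h2.2.1
  | join _ _ h1 h2 =>
    have hb := h1.1.polar.prod h2.1.polar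
    rw [joinS_eq, h1.1.joinS_eq h2.1]
    refine ⟨hb.polar, ?_, ?_⟩
    · rw [hb.bipolar, ← prodS_eq]
      exact .prod h1.2.1 h2.2.1
    · rw [hb.mp_polar, h1.1.polar.mp_prod h2.1.polar, h1.1.mp_polar, h2.1.mp_polar, h1.2.2,
        h2.2.2, pow_add]

end Vale.Agent.P248
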