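import Vale.Agent.P248.Geom

/-! The limit set for a general symmetric body. -/

namespace Vale.Agent.P248

open Function Set MeasureTheory Filter Topology Metric
open scoped Real Matrix ENNReal

variable {κ : Type*} [Fintype κ]

/-- the pair `(x, u)` is covered by a normal simplex. -/
def Good (A : Set (κ → ℝ)) (x u : κ → ℝ) : Prop :=
  ∃ y, (∀ a ∈ A, |a ⬝ᵥ x| ≤ 1 ∧ |a ⬝ᵥ y| ≤ lensG (a ⬝ᵥ x)) ∧ ∃ (b : κ → κ → ℝ) (l : κ → ℝ),
    l ∈ Smp κ ∧ (∀ i, b i ∈ A ∧ b i ⬝ᵥ y = lensG (b i ⬝ᵥ x)) ∧ u = ∑ i, l i • b i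

theorem abs_dot_le (v x : κ → ℝ) : |v ⬝ᵥ x| ≤ Fintype.card κ * (‖v‖ * ‖x‖) := by
  refine (Finset.abs_sum_le_sum_abs _ _).trans ?_
  rw [← nsmul_eq_mul, ← Finset.card_univ]
  refine Finset.sum_le_card_nsmul _ _ _ fun k _ => ?_
  rw [abs_mul]
  exact mul_le_mul (norm_le_pi_norm v k) (norm_le_pi_norm x k) (abs_nonneg _) (norm_nonneg _)

theorem exists_sigma [DecidableEq κ] [Nonempty κ] {A : Set (κ → ℝ)} (hA : IsCompact A)
    (hc : Convex ℝ A) (hs : ∀ a ∈ A, -a ∈ A) {ρ : ℝ} (hρ : 0 < ρ) (hb : ∀ i, Pi.single i ρ ∈ A) :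
    ∃ S : Set ((κ → ℝ) × (κ → ℝ)), IsCompact S ∧
      4 ^ Fintype.card κ ≤ ((Fintype.card κ).factorial : ℝ≥0∞) * volume S ∧
      ∀ q ∈ S, Good A q.1 q.2 := by
  set n := Fintype.card κ with hn
  have hg0 := lensG_zero_pos
  obtain ⟨R, hR0, hR⟩ := hA.isBounded.exists_pos_norm_le
  have h0A : (0 : κ → ℝ) ∈ A := by
    obtain ⟨i⟩ := ‹Nonempty κ›
    simpa using hc.midpoint_mem (hb i) (hs _ (hb i))
  set M := 2 * (1 + lensG 0) / ρ with hM
  have hM0 : 0 < M := by positivity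
  let w : (κ → ℝ) → (κ → ℝ) → (κ → ℝ) → ℂ := fun a x y =>
    (a ⬝ᵥ x : ℝ) + (a ⬝ᵥ y : ℝ) * Complex.I
  let W : ℝ → Set (((κ → ℝ) × (κ → ℝ)) × ((κ → κ → ℝ) × (κ → ℝ))) := fun ε =>
    (closedBall 0 M ×ˢ closedBall 0 M) ×ˢ ((univ.pi fun _ => A) ×ˢ Smp κ) ∩
      {q | (∀ i, q.2.1 i ⬝ᵥ q.1.2 = lensG (q.2.1 i ⬝ᵥ q.1.1)) ∧
        ∀ a ∈ A, infDist (w a q.1.1 q.1.2) lensL ≤ ε}
  have hW : ∀ ε, IsCompact (W ε) := fun ε => by
    have := continuous_lensG
    refine (((isCompact_closedBall _ _).prod (isCompact_closedBall _ _)).prod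
      ((isCompact_univ_pi fun _ => hA).prod isCompact_Smp)).inter_right (IsClosed.and ?_ ?_)
    · rw [ofPred_forall]
      exact isClosed_iInter fun i => isClosed_eq (by fun_prop) (by fun_prop)
    · simp only [ofPred_forall]
      refine isClosed_iInter fun a => isClosed_iInter fun _ => isClosed_le
        ((continuous_infDist_pt _).comp ?_) continuous_const
      fun_prop
  have hWm : Monotone W := fun ε ε' h q hq => ⟨hq.1, hq.2.1, fun a ha => (hq.2.2 a ha).trans h⟩
  let pr : ((κ → ℝ) × (κ → ℝ)) × ((κ → κ → ℝ) × (κ → ℝ)) → (κ → ℝ) × (κ → ℝ) := fun q =>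
    (q.1.1, ∑ i, q.2.2 i • q.2.1 i)
  have hpr : Continuous pr := by fun_prop
  set C := 2 * (n * ((1 + R) * M)) with hC
  have key : ∀ η : ℝ, 0 < η → η ≤ 1 / 2 → 4 ^ n ≤ (n.factorial : ℝ≥0∞) *
      volume (pr '' W (C * η)) := by
    intro η hη hη2
    obtain ⟨t, htA, ht, hcov⟩ := finite_cover_balls_of_compact hA hη
    have := ht.fintype
    let a0 : κ ⊕ t → κ → ℝ := Sum.elim (fun i => Pi.single i ρ) fun p => p.1
    have ha0 : ∀ j, a0 j ∈ A := by
      rintro (i | p)
      exacts [hb i, htA p.2]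
    obtain ⟨r, hr, hgen⟩ := exists_generic a0 hη (by linarith)
    have hr0 : ∀ j, 1 / 2 < r j := fun j => by linarith [(hr j).1]
    have haA : ∀ j, r j • a0 j ∈ A := fun j =>
      hc.smul_mem_of_zero_mem h0A (ha0 j) ⟨by linarith [hr0 j], (hr j).2.le⟩
    refine geom_bound (I0 := Sum.inl) ?_ hgen ((hW _).image hpr).measurableSet ?_
    · rw [dt_smul]
      refine mul_ne_zero (Finset.prod_ne_zero_iff.mpr fun i _ => by linarith [hr0 (.inl i)]) ?_
      have : (Matrix.of fun i => a0 (Sum.inl i)) = Matrix.diagonal fun _ => ρ := by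
        ext i k
        simp [a0, Matrix.diagonal_apply, Pi.single_apply, eq_comm]
      rw [dt, this, Matrix.det_diagonal]
      positivity
    rintro x y I s hf htight _ ⟨l, hl, rfl⟩
    have hbd : ∀ v : κ → ℝ, (∀ i, |(r (.inl i) • a0 (.inl i)) ⬝ᵥ v| ≤ 1 + lensG 0) → ‖v‖ ≤ M := by
      intro v hv
      refine (pi_norm_le_iff_of_nonneg hM0.le).mpr fun i => ?_
      have h1 := hv i
      have h2 := hr0 (.inl i)
      simp only [a0, Sum.elim_inl, smul_dotProduct, single_dotProduct, smul_eq_mul, abs_mul,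
        abs_of_pos hρ, abs_of_pos (by linarith : 0 < r (.inl i))] at h1
      rw [Real.norm_eq_abs, hM, le_div_iff₀ hρ]
      nlinarith [mul_nonneg hρ.le (abs_nonneg (v i))]
    have hx : ‖x‖ ≤ M := hbd x fun i => (hf _).1.trans (by linarith)
    have hy : ‖y‖ ≤ M := hbd y fun i => (hf _).2.trans ((lensG_le (hf _).1).trans (by linarith))
    refine ⟨((x, y), fun i => sg (s i) • r (I i) • a0 (I i), l), ⟨⟨⟨mem_closedBall_zero_iff.mpr hx,
      mem_closedBall_zero_iff.mpr hy⟩, fun i _ => ?_, hl⟩, fun i => ?_, fun a ha => ?_⟩, rfl⟩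
    · change sg (s i) • _ ∈ A
      cases s i
      · simpa [sg] using hs _ (haA (I i))
      · simpa [sg] using haA (I i)
    · have := htight i
      change (sg (s i) • _) ⬝ᵥ y = lensG ((sg (s i) • _) ⬝ᵥ x)
      rw [smul_dotProduct, this, smul_dotProduct (sg (s i))]
      cases s i <;> simp [sg, lensG_neg]
    · obtain ⟨p, hp, hap⟩ := mem_iUnion₂.mp (hcov ha)
      set j : κ ⊕ t := .inr ⟨p, hp⟩
      have h1 : w (r j • a0 j) x y ∈ lensL := by simpa [w, lensL] using hf j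
      have h2 : ‖a - r j • a0 j‖ ≤ η * (1 + R) := by
        have e : a - r j • a0 j = (a - p) + (1 - r j) • p := by
          simp only [a0, j, Sum.elim_inr]; module
        rw [e]
        refine (norm_add_le _ _).trans ?_
        rw [norm_smul, Real.norm_of_nonneg (by linarith [(hr j).2]), mul_add, mul_one]
        exact add_le_add (mem_ball_iff_norm.mp hap).le (mul_le_mul (by linarith [(hr j).1])
          (hR p (htA hp)) (norm_nonneg _) hη.le)
      have h3 : ∀ v : κ → ℝ, ‖v‖ ≤ M → |(a - r j • a0 j) ⬝ᵥ v| ≤ n * (η * (1 + R) * M) :=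
        fun v hv => (abs_dot_le _ _).trans (by gcongr)
      refine (infDist_le_dist_of_mem h1).trans ?_
      rw [dist_eq_norm]
      refine (Complex.norm_le_abs_re_add_abs_im _).trans ?_
      have h4 := h3 x hx
      have h5 := h3 y hy
      simp only [sub_dotProduct] at h4 h5
      simp only [w, Complex.sub_re, Complex.sub_im, Complex.add_re, Complex.add_im,
        Complex.ofReal_re, Complex.ofReal_im, Complex.mul_re, Complex.mul_im, Complex.I_re,
        Complex.I_im, mul_zero, mul_one, sub_zero, add_zero, zero_add]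
      linarith
  let e : ℕ → ℝ := fun m => C * (1 / ((m + 1 : ℕ) + 1))
  have he : Antitone e := fun m m' h => mul_le_mul_of_nonneg_left
    (Nat.one_div_le_one_div (Nat.succ_le_succ h)) (by positivity)
  have he0 : Tendsto e atTop (𝓝 0) := by
    simpa [e] using (tendsto_one_div_add_atTop_nhds_zero_nat.comp
      (tendsto_add_atTop_nat 1)).const_mul C
  refine ⟨pr '' W 0, (hW 0).image hpr, ?_, ?_⟩
  · have h1 := tendsto_measure_iInter_atTop (μ := volume) (s := fun m => pr '' W (e m))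
      (fun m => ((hW _).image hpr).measurableSet.nullMeasurableSet)
      (fun m m' h => image_mono (hWm (he h))) ⟨0, ((hW _).image hpr).measure_lt_top.ne⟩
    refine (ge_of_tendsto' (ENNReal.Tendsto.const_mul h1 (Or.inr (ENNReal.natCast_ne_top _)))
      fun m => key _ (by positivity) ?_).trans (mul_le_mul_right (measure_mono fun q hq => ?_) _)
    · refine one_div_le_one_div_of_le two_pos ?_
      push_cast
      linarith [(Nat.cast_nonneg m : (0 : ℝ) ≤ m)]
    · obtain ⟨z, hz⟩ := IsCompact.nonempty_iInter_of_sequence_nonempty_isCompact_isClosed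
        (fun m => W (e m) ∩ pr ⁻¹' {q})
        (fun m => inter_subset_inter_left _ (hWm (he (Nat.le_succ m))))
        (fun m => mem_iInter.mp hq m) ((hW _).inter_right (isClosed_singleton.preimage hpr))
        fun m => (hW _).isClosed.inter (isClosed_singleton.preimage hpr)
      have hz' := mem_iInter.mp hz
      exact ⟨z, ⟨(hz' 0).1.1, (hz' 0).1.2.1, fun a ha =>
        ge_of_tendsto' he0 fun m => (hz' m).1.2.2 a ha⟩, (hz' 0).2⟩
  · rintro _ ⟨⟨⟨x, y⟩, b, l⟩, ⟨⟨-, h1, h2⟩, h3, h4⟩, rfl⟩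
    refine ⟨y, fun a ha => ?_, b, l, h2, fun i => ⟨h1 i trivial, h3 i⟩, rfl⟩
    have := (isClosed_lensL.mem_iff_infDist_zero ⟨0, lensO_subset_lensL zero_mem_lensO⟩).mpr
      (le_antisymm (h4 a ha) infDist_nonneg)
    simpa [w, lensL] using this

end Vale.Agent.P248
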