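import Vale.Agent.P248.Defs
import Vale.Agent.P248.Sigma

/-! Symmetric convex bodies, polarity, and the inequality. -/

namespace Vale.Agent.P248

open Function Set MeasureTheory Filter Topology Metric
open scoped Real Matrix ENNReal

variable {n k l : ℕ}

/-- symmetric convex bodies. -/
structure Body (K : Set (Fin n → ℝ)) : Prop where
  compact : IsCompact K
  convex : Convex ℝ K
  symm : ∀ x ∈ K, -x ∈ K
  nhds : K ∈ 𝓝 0

theorem mem_polar {K : Set (Fin n → ℝ)} {y : Fin n → ℝ} : y ∈ polar K ↔ ∀ x ∈ K, y ⬝ᵥ x ≤ 1 :=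
  Iff.rfl

theorem isClosed_polar (K : Set (Fin n → ℝ)) : IsClosed (polar K) := by
  simp only [polar, ofPred_forall]
  exact isClosed_iInter fun x => isClosed_iInter fun _ => isClosed_le (by fun_prop) continuous_const

theorem convex_polar (K : Set (Fin n → ℝ)) : Convex ℝ (polar K) := by
  intro y hy z hz a b ha hb hab
  refine mem_polar.mpr fun x hx => ?_
  rw [add_dotProduct, smul_dotProduct, smul_dotProduct, smul_eq_mul, smul_eq_mul]
  nlinarith [mem_polar.mp hy x hx, mem_polar.mp hz x hx]

theorem subset_polar_polar (K : Set (Fin n → ℝ)) : K ⊆ polar (polar K) := fun x hx =>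
  mem_polar.mpr fun y hy => dotProduct_comm x y ▸ mem_polar.mp hy x hx

theorem polar_anti {K L : Set (Fin n → ℝ)} (h : K ⊆ L) : polar L ⊆ polar K :=
  fun _ hy x hx => hy x (h hx)

theorem polar_convexHull (K : Set (Fin n → ℝ)) : polar (convexHull ℝ K) = polar K :=
  (polar_anti (subset_convexHull ℝ K)).antisymm <| (subset_polar_polar _).trans <| polar_anti <|
    convexHull_min (subset_polar_polar K) (convex_polar _)

theorem polar_polar {K : Set (Fin n → ℝ)} (hc : Convex ℝ K) (hK : IsClosed K)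
    (h0 : (0 : Fin n → ℝ) ∈ K) : polar (polar K) = K := by
  refine Subset.antisymm (fun x hx => by_contra fun hxK => ?_) (subset_polar_polar K)
  obtain ⟨f, u, h1, h2⟩ := geometric_hahn_banach_closed_point hc hK hxK
  have hu : 0 < u := by simpa using h1 0 h0
  have e : ∀ z, (fun i => f (Pi.single i 1) / u) ⬝ᵥ z = f z / u := fun z => by
    conv_rhs => rw [pi_eq_sum_univ' z]
    simp [dotProduct, Finset.sum_div, mul_div_assoc, mul_comm]
  have := mem_polar.mp hx (fun i => f (Pi.single i 1) / u) (mem_polar.mpr fun z hz => by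
    rw [e, div_le_one hu]; exact (h1 z hz).le)
  rw [dotProduct_comm, e, div_le_one hu] at this
  exact absurd h2 (not_lt.mpr this)

namespace Body

variable {K : Set (Fin n → ℝ)} (hK : Body K)
include hK

theorem zero_mem : (0 : Fin n → ℝ) ∈ K := mem_of_mem_nhds hK.nhds

theorem bipolar : polar (polar K) = K := polar_polar hK.convex hK.compact.isClosed hK.zero_mem

theorem exists_single : ∃ ρ : ℝ, 0 < ρ ∧ ∀ i, Pi.single i ρ ∈ K := by
  obtain ⟨ρ, hρ, h⟩ := Metric.nhds_basis_closedBall.mem_iff.mp hK.nhds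
  exact ⟨ρ, hρ, fun i => h (by simp [Pi.norm_single, abs_of_pos hρ])⟩

theorem abs_le {y : Fin n → ℝ} (hy : y ∈ polar K) {x : Fin n → ℝ} (hx : x ∈ K) : |y ⬝ᵥ x| ≤ 1 :=
  _root_.abs_le.mpr ⟨by simpa [neg_le] using mem_polar.mp hy _ (hK.symm x hx), hy x hx⟩

theorem polar : Body (polar K) where
  compact := by
    obtain ⟨ρ, hρ, h⟩ := hK.exists_single
    refine (isCompact_closedBall 0 ρ⁻¹).of_isClosed_subset (isClosed_polar K) fun y hy => ?_
    refine mem_closedBall_zero_iff.mpr ((pi_norm_le_iff_of_nonneg (by positivity)).mpr fun i => ?_)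
    have := hK.abs_le hy (h i)
    rw [dotProduct_single, abs_mul, abs_of_pos hρ] at this
    rw [Real.norm_eq_abs, ← one_div, le_div_iff₀ hρ]
    exact this
  convex := convex_polar K
  symm := fun y hy => mem_polar.mpr fun x hx => by simpa using mem_polar.mp hy _ (hK.symm x hx)
  nhds := by
    obtain ⟨R, hR, h⟩ := hK.compact.isBounded.exists_pos_norm_le
    refine mem_of_superset (closedBall_mem_nhds 0 (by positivity : 0 < ((n + 1) * R)⁻¹))
      fun y hy => mem_polar.mpr fun x hx => (le_abs_self _).trans ((abs_dot_le _ _).trans ?_)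
    rw [Fintype.card_fin]
    calc _ ≤ (n + 1) * (((n + 1) * R)⁻¹ * R) := by
          gcongr
          exacts [by linarith, mem_closedBall_zero_iff.mp hy, h x hx]
      _ = 1 := by field_simp

end Body

/-- the normalised volume product. -/
noncomputable def mp (K : Set (Fin n → ℝ)) : ℝ≥0∞ := n.factorial * (volume K * volume (polar K))

theorem Body.mp_polar {K : Set (Fin n → ℝ)} (hK : Body K) : mp (P248.polar K) = mp K := by
  rw [mp, hK.bipolar, mp, mul_comm (volume K)]

theorem Body.exists_sigma [NeZero n] {K : Set (Fin n → ℝ)} (hK : Body K) :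
    ∃ S : Set ((Fin n → ℝ) × (Fin n → ℝ)), IsCompact S ∧ 4 ^ n ≤ (n.factorial : ℝ≥0∞) * volume S ∧
      S ⊆ K ×ˢ P248.polar K ∧ ∀ q ∈ S, Good (P248.polar K) q.1 q.2 := by
  obtain ⟨ρ, hρ, h⟩ := hK.polar.exists_single
  obtain ⟨S, h1, h2, h3⟩ := P248.exists_sigma hK.polar.compact hK.polar.convex hK.polar.symm hρ h
  rw [Fintype.card_fin] at h2
  refine ⟨S, h1, h2, fun q hq => ?_, h3⟩
  obtain ⟨y, h4, b, c, hc, h5, h6⟩ := h3 q hq
  refine ⟨?_, ?_⟩
  · rw [← hK.bipolar]
    exact mem_polar.mpr fun a ha => dotProduct_comm a q.1 ▸ (le_abs_self _).trans (h4 a ha).1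
  · refine mem_polar.mpr fun x hx => ?_
    rw [h6, sum_dotProduct]
    refine le_trans (Finset.sum_le_sum fun i _ => ?_) hc.2
    rw [smul_dotProduct, smul_eq_mul]
    exact mul_le_of_le_one_right (hc.1 i) (mem_polar.mp (h5 i).1 x hx)

theorem Body.le_mp [NeZero n] {K : Set (Fin n → ℝ)} (hK : Body K) : 4 ^ n ≤ mp K := by
  obtain ⟨S, -, h2, h3, -⟩ := hK.exists_sigma
  refine h2.trans (mul_le_mul_right ((measure_mono h3).trans_eq ?_) _)
  rw [Measure.volume_eq_prod, Measure.prod_prod]

theorem Body.good [NeZero n] {K : Set (Fin n → ℝ)} (hK : Body K) (h : mp K = 4 ^ n)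
    {x u : Fin n → ℝ} (hx : x ∈ K) (hu : u ∈ P248.polar K) : Good (P248.polar K) x u := by
  obtain ⟨S, h1, h2, h3, h4⟩ := hK.exists_sigma
  refine h4 (x, u) (by_contra fun hS => ?_)
  have h5 : (x, u) ∈ closure (interior (K ×ˢ P248.polar K)) := by
    rw [(hK.convex.prod hK.polar.convex).closure_interior_eq_closure_of_nonempty_interior
      ⟨0, mem_interior_iff_mem_nhds.mpr (prod_mem_nhds hK.nhds hK.polar.nhds)⟩]
    exact subset_closure ⟨hx, hu⟩
  have h6 := (h1.isClosed.isOpen_compl.inter isOpen_interior).measure_pos volume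
    (mem_closure_iff.mp h5 _ h1.isClosed.isOpen_compl hS)
  have h7 : volume S + volume (Sᶜ ∩ interior (K ×ˢ P248.polar K)) ≤
      volume K * volume (P248.polar K) := by
    rw [← measure_union (disjoint_compl_right.mono_right inter_subset_left)
      (h1.isClosed.isOpen_compl.inter isOpen_interior).measurableSet, ← Measure.prod_prod]
    exact measure_mono (union_subset h3 (inter_subset_right.trans interior_subset))
  rw [← h, mp, ENNReal.mul_le_mul_iff_right (by exact_mod_cast n.factorial_ne_zero)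
    (ENNReal.natCast_ne_top _)] at h2
  exact absurd (h7.trans h2) (not_le.mpr (ENNReal.lt_add_right h1.measure_lt_top.ne h6.ne'))

theorem body_of_interior {K : Set (Fin n → ℝ)} (hK : IsCompact K) (hc : Convex ℝ K)
    (hi : (interior K).Nonempty) (hs : ∀ x ∈ K, -x ∈ K) : Body K := by
  obtain ⟨x, hx⟩ := hi
  refine ⟨hK, hc, hs, mem_interior_iff_mem_nhds.mp ?_⟩
  have := hc.combo_interior_self_mem_interior hx (hs x (interior_subset hx))
    (a := 1 / 2) (b := 1 / 2) (by norm_num) (by norm_num) (by norm_num)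
  simpa using this

theorem Body.toReal_mp {K : Set (Fin n → ℝ)} :
    (mp K).toReal = n.factorial * ((volume K).toReal * (volume (P248.polar K)).toReal) := by
  simp [mp]

theorem Body.mp_ne_top {K : Set (Fin n → ℝ)} (hK : Body K) : mp K ≠ ∞ :=
  ENNReal.mul_ne_top (ENNReal.natCast_ne_top _)
    (ENNReal.mul_ne_top hK.compact.measure_lt_top.ne hK.polar.compact.measure_lt_top.ne)

theorem Body.mahler [NeZero n] {K : Set (Fin n → ℝ)} (hK : Body K) :
    (4 : ℝ) ^ n / n.factorial ≤ (volume K).toReal * (volume (P248.polar K)).toReal := by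
  have := ENNReal.toReal_mono hK.mp_ne_top hK.le_mp
  rw [Body.toReal_mp] at this
  rw [div_le_iff₀' (by positivity)]
  simpa using this

theorem Body.mahler_eq_iff {K : Set (Fin n → ℝ)} (hK : Body K) :
    (volume K).toReal * (volume (P248.polar K)).toReal = (4 : ℝ) ^ n / n.factorial ↔
      mp K = 4 ^ n := by
  rw [← ENNReal.toReal_eq_toReal_iff' hK.mp_ne_top (by simp), Body.toReal_mp,
    eq_div_iff (by positivity), mul_comm]
  simp

end Vale.Agent.P248
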